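import Crest.Agent.X262.FG.Defs

/-!
# Row 262, FG (helper86): calculus of `dvs`, `od`, `Amp`, `lc`, `Sys`

* `dvs_add`, `dvs_sum`, `od_dvs`, `dvs_le_iff`, `dvs_congr`, `eq_dvs`, `mem_Sec_sub_single`;
* `Amp.add_free`, `Amp.exists_free`, `Amp.exists_amp`, `Amp.unif`, `Amp.lc`;
* `lc_add`, `lcH`, `lc_lc`, `mult`, `Sys.lc_D`;
* `Sys.comap`, `Sys.smul`, `Sys.exists_klt`.
-/

set_option autoImplicit false
set_option linter.unusedSectionVars false

open WithZero
open scoped KaehlerDifferential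

noncomputable section

namespace Crest.Agent.X262.FG

open Crest.Agent.X277 Crest.Agent.X277.Lef Crest.Agent.X277.AN.G1 Crest.Agent.X277.BD
open Crest.Agent.X277.BD.Br (At oP kP)
open Crest.Agent.X277.Res.Out (Un)
open Crest.Agent.X277.Res.Log (Bd un_iff)
open Crest.Agent.X262.Cvx

variable {F : Type} [Field F] [Algebra ℂ F] {P : PModel ℂ F} {n : ℕ}

/-! ### divisors supported on the boundary -/

section Dvs

variable (B : Bd P n) {a : BD ℂ F} {x : Pts P} {g s : F} {e : B.ι}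

theorem dvs_mem (c : B.ι → ℤ) : dvs B c ∈ Br.On P := fun x => ⟨_, at_dvs B c x⟩

theorem dvs_add (c c' : B.ι → ℤ) : dvs B (c + c') = dvs B c + dvs B c' :=
  Br.ext_at fun x => ⟨_, at_dvs B _ x, by
    rw [Bd.mon_add, mul_inv]
    exact (at_dvs B c x).add (at_dvs B c' x)⟩

theorem dvs_zero : dvs B 0 = 0 :=
  Br.ext_at fun x => ⟨_, at_dvs B _ x, by rw [Bd.mon_zero, inv_one]; exact Br.at_zero x⟩

/-- `dvs` as a homomorphism -/
def dvsH : (B.ι → ℤ) →+ BD ℂ F := ⟨⟨dvs B, dvs_zero B⟩, dvs_add B⟩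


theorem dvs_sub (c c' : B.ι → ℤ) : dvs B (c - c') = dvs B c - dvs B c' := map_sub (dvsH B) c c'

theorem dvs_nsmul (m : ℕ) (c : B.ι → ℤ) : dvs B (m • c) = m • dvs B c := map_nsmul (dvsH B) m c

theorem dvs_zsmul (m : ℤ) (c : B.ι → ℤ) : dvs B (m • c) = m • dvs B c := map_zsmul (dvsH B) m c

theorem dvs_sum {α : Type*} (t : Finset α) (c : α → B.ι → ℤ) :
    dvs B (∑ i ∈ t, c i) = ∑ i ∈ t, dvs B (c i) := map_sum (dvsH B) c t

open Classical in
theorem dvs_eq_sum (c : B.ι → ℤ) : dvs B c = ∑ e, c e • dvs B (Pi.single e 1) := by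
  conv_lhs => rw [← Finset.univ_sum_single c, dvs_sum]
  refine Finset.sum_congr rfl fun e _ => ?_
  rw [← dvs_zsmul, ← Pi.single_smul, smul_eq_mul, mul_one]

variable {B}

theorem dvs_nonneg {c : B.ι → ℤ} (h : ∀ e, 0 ≤ c e) : 0 ≤ dvs B c :=
  Br.le_of_at fun x => ⟨1, _, Br.at_zero x, at_dvs B c x, by
    rw [div_inv_eq_mul, one_mul]
    exact Bd.mon_mem fun e _ => h e⟩

theorem dvs_mono {c c' : B.ι → ℤ} (h : ∀ e, c e ≤ c' e) : dvs B c ≤ dvs B c' := by
  rw [← sub_nonneg, ← dvs_sub]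
  exact dvs_nonneg fun e => sub_nonneg.2 (h e)

theorem vl_of_at (h : At a x g) (hx : Res.Log.On (B.v e) x) : vl (B.v e) (triv B e) a = B.v e g :=
  vl_eq (h (rz (B.v e) (triv B e)) fun f hf => hx f hf)

theorem od_of_at (h : At a x g) (hx : Res.Log.On (B.v e) x) :
    od B e a = -Res.Out.ord (B.v e) g := by
  rw [Res.Out.ord, neg_neg, ← vl_of_at h hx]
  rfl

theorem exp_od (a : BD ℂ F) : exp (od B e a) = vl (B.v e) (triv B e) a := exp_ord a

theorem od_pr (hs : s ≠ 0) : od B e (pr ℂ s) = -Res.Out.ord (B.v e) s := by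
  rw [Res.Out.ord, neg_neg]
  exact ord_pr hs

theorem od_mono {a' : BD ℂ F} (h : a ≤ a') : od B e a ≤ od B e a' := ord_mono h

theorem od_nonneg (h : 0 ≤ a) : 0 ≤ od B e a := ord_nonneg h

theorem od_sec (hs : s ∈ a.Sec) (h0 : s ≠ 0) : 0 ≤ od B e (a - pr ℂ s) :=
  od_nonneg (sub_nonneg.2 ((pr_le_iff h0).2 hs))

theorem od_eq_zero : od B e a = 0 ↔ a.val (rz (B.v e) (triv B e)) = 1 := ord_eq_zero

theorem vl_eq_one_iff : vl (B.v e) (triv B e) a = 1 ↔ od B e a = 0 := vl_eq_one.trans od_eq_zero.symm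

@[simp] theorem od_dvs (c : B.ι → ℤ) : od B e (dvs B c) = c e := by
  obtain ⟨x, hx⟩ := B.ne e
  rw [od_of_at (at_dvs B c x) hx, ← Bd.mon_neg, Bd.ord_mon hx, Pi.neg_apply, neg_neg]


theorem dvs_injective : Function.Injective (dvs B) := fun c c' h => funext fun e => by
  simpa using congrArg (od B e) h

/-- a class with a generator at the valuation -/
theorem exists_od_zero (B : Bd P n) (e : B.ι) (a : BD ℂ F) :
    ∃ g : F, g ≠ 0 ∧ od B e (a - pr ℂ g) = 0 := by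
  refine ⟨a.gen (rz (B.v e) (triv B e)), a.gen_ne _, od_eq_zero.2 ?_⟩
  rw [val_sub, val_pr (a.gen_ne _), v_gen, div_self (a.val_ne _)]

theorem at_zn {i : Fin (P.N + 1)} (hx : x ∈ pat P i) (h : At a x g) :
    ∀ᶠ x' in Res.Log.zn hx, At a x' g := by
  obtain ⟨T, h1, h2⟩ := Br.exists_finset_le (a := a) (S := (lp x).O) (u := g)
    fun V hV => (h V hV).le
  obtain ⟨T', h3, h4⟩ := Br.exists_finset_le (a := -a) (S := (lp x).O) (u := g⁻¹)
    fun V hV => (h.neg V hV).le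
  filter_upwards [(Filter.eventually_all_finset T).2 fun y hy => Res.Log.zn_mem hx (h1 y hy),
    (Filter.eventually_all_finset T').2 fun y hy => Res.Log.zn_mem hx (h3 y hy)] with x' h5 h6 V hV
  refine le_antisymm (h2 V fun y hy => hV y (h5 y hy)) ?_
  have h7 := h4 V fun y hy => hV y (h6 y hy)
  rwa [map_inv₀, val_neg, inv_le_inv₀ (RZ.pos h.ne) (a.val_pos V)] at h7

/-- a Cartier divisor which is trivial off the boundary -/
theorem eq_dvs (ha : a ∈ Br.On P) (h : ∀ x, B.Off x → At a x 1) :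
    a = dvs B fun e => od B e a := by
  refine Br.ext_at (P := P) fun x => ?_
  obtain ⟨g, hg⟩ := ha x
  obtain ⟨i, hi⟩ := exists_pat x
  have h1 : B.MonAt x g := Bd.monAt_of_zn hi hg.ne ((at_zn hi hg).mono fun x' h1 h2 => by
    simpa using un_iff.2 (h1.ev_div_ne (h x' h2)))
  refine ⟨g, hg, (at_dvs B _ x).of_ev' ?_⟩
  rw [← Bd.mon_neg, Bd.mon_congr (m' := fun e => Res.Out.ord (B.v e) g)]
  · exact un_iff.1 h1
  · intro e he
    rw [Pi.neg_apply, od_of_at hg he, neg_neg]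


/-- the same components in another boundary -/
theorem dvs_congr {C : Bd P n} {j : B.ι → C.ι} (hj : ∀ e, C.v (j e) = B.v e) {c : B.ι → ℤ}
    {c' : C.ι → ℤ} (h1 : ∀ e, c' (j e) = c e) (h2 : ∀ e', e' ∉ Set.range j → c' e' = 0) :
    dvs C c' = dvs B c := by
  classical
  have hi : Function.Injective j := fun e e' h => B.v_injective (by rw [← hj, h, hj])
  have key : ∀ e x, Un (lp x).O (C.τ (j e) x / B.τ e x) := by
    intro e x
    by_cases hx : Res.Log.On (B.v e) x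
    · have hx' : Res.Log.On (C.v (j e)) x := by rwa [hj]
      refine ⟨div_ne_zero (C.τ_ne _ _) (B.τ_ne _ _), Bd.div_mem hx (C.τ_mem _ _) ?_, ?_⟩
      · rw [← hj]
        exact Bd.v_τ_lt hx'
      · rw [inv_div]
        refine Bd.div_mem hx' (B.τ_mem _ _) ?_
        rw [hj]
        exact Bd.v_τ_lt hx
    · rw [B.off e x hx, C.off _ x (by rwa [hj]), div_one]
      exact Res.Out.un_one
  refine Br.ext_at fun x => ⟨_, at_dvs C c' x, (at_dvs B c x).of_ev ?_⟩
  have h3 : C.mon x c' = ∏ e, C.τ (j e) x ^ c e := by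
    rw [Bd.mon, ← Finset.prod_subset (Finset.subset_univ (Finset.univ.image j)),
      Finset.prod_image fun _ _ _ _ h => hi h]
    · exact Finset.prod_congr rfl fun e _ => by rw [h1]
    · intro e' _ he'
      rw [h2 e' (by simpa using he'), zpow_zero]
  rw [inv_div_inv, h3, Bd.mon, ← Finset.prod_div_distrib]
  refine un_iff.1 (Finset.prod_induction _ _ (fun _ _ => Un.mul) Res.Out.un_one fun e _ => ?_)
  rw [← div_zpow]
  exact Res.Out.Un.zpow (key e x) _

open Classical in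
/-- a section which vanishes along a component -/
theorem mem_Sec_sub_single (ha : a ∈ Br.On P) (hs : s ∈ a.Sec)
    (h : B.v e s < vl (B.v e) (triv B e) a) : s ∈ (a - dvs B (Pi.single e 1)).Sec := by
  refine Br.mem_Sec_of (P := P) fun x => ?_
  obtain ⟨g, hg⟩ := ha x
  refine ⟨_, hg.sub (at_dvs B _ x), ?_⟩
  have h1 : B.mon x (Pi.single e 1) = B.τ e x := by
    rw [Bd.mon, Finset.prod_eq_single e, Pi.single_eq_same, zpow_one]
    · intro e' _ he'
      rw [Pi.single_eq_of_ne he', zpow_zero]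
    · simp
  rw [h1, div_inv_eq_mul, ← div_div]
  by_cases hx : Res.Log.On (B.v e) x
  · refine Bd.div_mem hx (hg.div_mem hs) ?_
    rw [vl_of_at hg hx] at h
    rwa [map_div₀, div_lt_one₀ (zero_lt_iff.2 ((Valuation.ne_zero_iff _).2 hg.ne))]
  · rw [B.off e x hx, div_one]
    exact hg.div_mem hs

open Classical in
theorem lt_vl_of_mem (hs : s ∈ (a - dvs B (Pi.single e 1)).Sec) :
    B.v e s < vl (B.v e) (triv B e) a := by
  refine (le_exp_ord (hv := triv B e) hs).trans_lt ?_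
  rw [← exp_od, exp_lt_exp]
  change od B e _ < _
  rw [map_sub, od_dvs, Pi.single_eq_same]
  omega

end Dvs

/-! ### ample classes -/

section Amp

variable {a a' y : BD ℂ F}

theorem Amp.mem (h : Amp P a) : a ∈ Br.On P := h.1

theorem amp_oP (P : PModel ℂ F) : Amp P (oP P) :=
  ⟨Br.oP_mem, 1, one_pos, by simpa using Free.zero⟩

theorem Amp.add_free (h : Amp P a) (hy : y ∈ Br.On P) (hf : Free y) : Amp P (a + y) := by
  obtain ⟨h1, q, hq, h2⟩ := h
  refine ⟨add_mem h1 hy, q, hq, ?_⟩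
  convert h2.add (hf.nsmul q) using 1
  rw [smul_add]
  abel

theorem Amp.of_nsmul {m : ℕ} (hm : 0 < m) (ha : a ∈ Br.On P) (h : Amp P (m • a)) : Amp P a := by
  obtain ⟨-, q, hq, h2⟩ := h
  exact ⟨ha, q * m, Nat.mul_pos hq hm, by rwa [mul_smul]⟩

theorem Amp.lin (h : Amp P a') (hl : Lin a a') : Amp P a := by
  obtain ⟨f, -, rfl⟩ := hl
  exact h.add_free (Br.pr_mem f) (free_pr f)

theorem Amp.sub_pr (h : Amp P a) (f : F) : Amp P (a - pr ℂ f) := by
  rw [sub_eq_add_neg]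
  exact h.add_free (neg_mem (Br.pr_mem f)) (free_neg_pr f)

/-- Serre -/
theorem Amp.exists_free (h : Amp P a) (hy : y ∈ Br.On P) :
    ∃ m₀ : ℕ, ∀ m, m₀ ≤ m → Free (m • a + y) := by
  obtain ⟨h1, q, hq, h2⟩ := h
  choose N hN using fun i : Fin q => Br.serre (add_mem (nsmul_mem h1 i) hy)
  obtain ⟨M, hM⟩ := (Set.finite_range N).bddAbove
  refine ⟨M * q, fun m hm => ?_⟩
  have h3 : M ≤ m / q := (Nat.le_div_iff_mul_le hq).2 hm
  have h4 := (hN ⟨m % q, Nat.mod_lt m hq⟩ (m / q) ((hM ⟨_, rfl⟩).trans h3)).add (h2.nsmul (m / q))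
  convert h4 using 1
  conv_lhs => rw [← Nat.mod_add_div' m q, add_smul, mul_smul]
  rw [smul_sub]
  abel

theorem Amp.semi (h : Amp P a) : ∃ m₀ : ℕ, ∀ m, m₀ ≤ m → Free (m • a) := by
  simpa using h.exists_free (zero_mem _)

theorem amp_of_free (ha : a ∈ Br.On P) (h : Free (a - oP P)) : Amp P a :=
  ⟨ha, 1, one_pos, by rwa [one_smul]⟩

theorem Amp.exists_amp (h : Amp P a) (hy : y ∈ Br.On P) :
    ∃ m₀ : ℕ, ∀ m, m₀ ≤ m → Amp P (m • a + y) := by
  obtain ⟨m₀, h1⟩ := h.exists_free (sub_mem hy Br.oP_mem)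
  exact ⟨m₀, fun m hm => amp_of_free (add_mem (nsmul_mem h.1 m) hy) (by
    rw [add_sub_assoc]; exact h1 m hm)⟩

/-- ample plus semiample -/
theorem Amp.add_semi (h : Amp P a) (hy : y ∈ Br.On P) {q : ℕ} (hq : 0 < q) (hf : Free (q • y)) :
    Amp P (a + y) := by
  obtain ⟨h1, q', hq', h2⟩ := h
  refine ⟨add_mem h1 hy, q * q', Nat.mul_pos hq hq', ?_⟩
  obtain ⟨q, rfl⟩ := Nat.exists_eq_add_of_lt hq
  convert ((h2.nsmul (0 + q + 1)).add (hf.nsmul q')).add (Br.free_oP.nsmul q) using 1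
  module

theorem Amp.add (h : Amp P a) (h' : Amp P a') : Amp P (a + a') := by
  obtain ⟨m, hm⟩ := h'.semi
  exact h.add_semi h'.1 m.succ_pos (hm _ m.le_succ)

theorem Amp.nsmul (h : Amp P a) {m : ℕ} (hm : 0 < m) : Amp P (m • a) := by
  obtain ⟨m, rfl⟩ := Nat.exists_eq_add_of_lt hm
  induction m with
  | zero => simpa using h
  | succ m ih =>
    rw [← add_assoc, succ_nsmul]
    exact (ih (by omega)).add h

theorem Amp.add_nsmul (h : Amp P a) (h' : Amp P a') (m : ℕ) : Amp P (a + m • a') := by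
  rcases m.eq_zero_or_pos with rfl | hm
  · simpa using h
  · exact h.add (h'.nsmul hm)

theorem Amp.sum {α : Type*} {t : Finset α} (ht : t.Nonempty) {A : α → BD ℂ F}
    (h : ∀ i ∈ t, Amp P (A i)) : Amp P (∑ i ∈ t, A i) :=
  Finset.sum_induction_nonempty _ _ (fun _ _ => Amp.add) ht h

/-- ampleness is an open condition, uniformly -/
theorem Amp.unif (h : Amp P a) {α : Type*} [Fintype α] {Y : α → BD ℂ F} (hY : ∀ i, Y i ∈ Br.On P) :
    ∃ m₀ : ℕ, ∀ (m : ℕ) (z : α → ℤ), 0 < m → m₀ * ∑ i, (z i).natAbs < m →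
      Amp P (m • a + ∑ i, z i • Y i) := by
  choose N hN using fun i => h.exists_free (hY i)
  choose N' hN' using fun i => h.exists_free (neg_mem (hY i))
  obtain ⟨M, hM⟩ := ((Set.finite_range N).union (Set.finite_range N')).bddAbove
  refine ⟨M, fun m z _ hz => ?_⟩
  obtain ⟨d, rfl⟩ := Nat.exists_eq_add_of_lt hz
  have h1 : ∀ i, Free ((z i).natAbs • M • a + z i • Y i) := by
    intro i
    rcases Int.natAbs_eq (z i) with h2 | h2
    · convert (hN i M (hM (Or.inl ⟨i, rfl⟩))).nsmul (z i).natAbs using 1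
      rw [smul_add, ← natCast_zsmul (Y i), ← h2]
    · convert (hN' i M (hM (Or.inr ⟨i, rfl⟩))).nsmul (z i).natAbs using 1
      rw [smul_add, smul_neg, ← natCast_zsmul (Y i), ← neg_smul, ← h2]
  have h2 := (h.nsmul d.succ_pos).add_free (sum_mem fun i _ =>
    add_mem (nsmul_mem (nsmul_mem h.1 _) _) (zsmul_mem (hY i) _)) (Free.sum Finset.univ fun i _ => h1 i)
  convert h2 using 1
  rw [Finset.sum_add_distrib, ← Finset.sum_smul, ← mul_smul, add_assoc, add_smul, mul_comm]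
  abel

theorem big_oP (P : PModel ℂ F) : Big (oP P) := fun y => by
  obtain ⟨h, hf, -, hy⟩ := exists_free_ge y
  obtain ⟨s, hs, rfl⟩ := hf.exists_mx
  obtain ⟨c, M, hc, h⟩ := Res.Out.exists_den P.y_ne (P.frac' 0) s
  have h1 : c ∈ (M • oP P - mx ℂ s).Sec := fun V => by
    obtain ⟨x, hx⟩ := Br.exists_ov' (P := P) V
    obtain ⟨i, hi⟩ := exists_pat x
    obtain ⟨g, hg, hv⟩ := exists_val_mx (k := ℂ) hs V
    rw [val_sub, ← (Br.at_y hi).nsmul M V hx, ← hv, le_div_iff₀ (hv ▸ val_pos _ V), ← map_mul,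
      RZ.le_iff (pow_ne_zero _ (P.y_ne i))]
    exact hx _ (A_le hi (h g hg i))
  refine ⟨M + 1, M.succ_pos, ?_⟩
  have h2 := (Eff.mono ⟨c, h1, hc⟩ (sub_le_sub_left hy _)).add (Br.free_oP (P := P)).eff
  convert h2 using 1
  rw [succ_nsmul]
  abel

theorem Amp.big (h : Amp P a) : Big a := by
  obtain ⟨-, q, hq, h⟩ := h
  exact big_of_eff_sub (big_oP P) hq h.eff

end Amp

/-! ### families -/

section Lc

variable {κ κ' : Type} [Fintype κ] [Fintype κ'] (D : κ → BD ℂ F)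

theorem lc_zero : lc D 0 = 0 := by simp [lc]

theorem lc_add (x y : κ → ℕ) : lc D (x + y) = lc D x + lc D y := by
  simp [lc, add_smul, Finset.sum_add_distrib]

/-- `lc` as a homomorphism -/
def lcH : (κ → ℕ) →+ BD ℂ F := ⟨⟨lc D, lc_zero D⟩, lc_add D⟩

theorem lc_nsmul (m : ℕ) (x : κ → ℕ) : lc D (m • x) = m • lc D x := map_nsmul (lcH D) m x

theorem lc_sum {α : Type*} (t : Finset α) (x : α → κ → ℕ) :
    lc D (∑ i ∈ t, x i) = ∑ i ∈ t, lc D (x i) := map_sum (lcH D) x t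

open Classical in
theorem lc_single (k : κ) : lc D (Pi.single k 1) = D k := by
  rw [lc, Finset.sum_eq_single k, Pi.single_eq_same, one_smul]
  · intro k' _ h
    rw [Pi.single_eq_of_ne h, zero_smul]
  · simp

/-- the map of degrees defined by a family of degrees -/
def dg (φ : κ' → κ → ℕ) : (κ' → ℕ) →+ (κ → ℕ) where
  toFun y := ∑ t, y t • φ t
  map_zero' := by simp
  map_add' y y' := by simp [add_smul, Finset.sum_add_distrib]

theorem dg_apply (φ : κ' → κ → ℕ) (y : κ' → ℕ) : dg φ y = ∑ t, y t • φ t := rfl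

theorem lc_lc (φ : κ' → κ → ℕ) (y : κ' → ℕ) : lc (fun t => lc D (φ t)) y = lc D (dg φ y) := by
  rw [dg_apply, lc_sum]
  exact Finset.sum_congr rfl fun t _ => (lc_nsmul D _ _).symm

theorem lc_smul_fam (m : ℕ) (x : κ → ℕ) : lc (fun k => m • D k) x = lc D (m • x) := by
  rw [lc_nsmul, lc, lc, Finset.smul_sum]
  exact Finset.sum_congr rfl fun k _ => smul_comm _ _ _

theorem lc_add_fam (D' : κ → BD ℂ F) (x : κ → ℕ) :
    lc (fun k => D k + D' k) x = lc D x + lc D' x := by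
  simp [lc, Finset.sum_add_distrib]

theorem lc_const (a : BD ℂ F) (x : κ → ℕ) : lc (fun _ => a) x = (∑ k, x k) • a := by
  rw [lc, Finset.sum_smul]

theorem lc_dvs (B : Bd P n) (c : κ → B.ι → ℤ) (x : κ → ℕ) :
    lc (fun k => dvs B (c k)) x = dvs B (∑ k, x k • c k) := by
  rw [dvs_sum]
  exact Finset.sum_congr rfl fun k _ => (dvs_nsmul B _ _).symm

theorem lc_pr {g : κ → F} (hg : ∀ k, g k ≠ 0) (x : κ → ℕ) :
    lc (fun k => pr ℂ (g k)) x = pr ℂ (∏ k, g k ^ x k) := by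
  rw [pr_prod _ fun k _ => pow_ne_zero _ (hg k)]
  exact Finset.sum_congr rfl fun k _ => (pr_pow (hg k) _).symm

theorem mult : Gr.Mult (fun x => (lc D x).Sec) ⊤ :=
  ⟨by rw [lc_zero]; exact one_mem_Sec, fun a _ b _ f hf g hg => by
    rw [lc_add]; exact mul_mem_Sec hf hg⟩

variable {D}

theorem lc_mem (h : ∀ k, D k ∈ Br.On P) (x : κ → ℕ) : lc D x ∈ Br.On P :=
  sum_mem fun k _ => nsmul_mem (h k) _


theorem Amp.lc (h : ∀ k, Amp P (D k)) {x : κ → ℕ} (hx : x ≠ 0) : Amp P (lc D x) := by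
  classical
  obtain ⟨k, hk⟩ := Function.ne_iff.1 hx
  rw [FG.lc, ← Finset.sum_filter_of_ne (p := fun k => x k ≠ 0)]
  · exact Amp.sum ⟨k, Finset.mem_filter.2 ⟨Finset.mem_univ k, hk⟩⟩ fun i hi =>
      (h i).nsmul (Nat.pos_of_ne_zero (Finset.mem_filter.1 hi).2)
  · intro i _ hi h0
    exact hi (by rw [h0, zero_smul])

theorem od_lc {B : Bd P n} (e : B.ι) (x : κ → ℕ) : od B e (lc D x) = ∑ k, x k * od B e (D k) := by
  simp [lc, map_sum]

end Lc

/-! ### systems -/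

namespace Sys

variable {B : Bd P n} {κ κ' : Type} (S : Sys B κ) (b : Module.Basis (Fin n) F Ω[F⁄ℂ])

theorem D_mem (k : κ) : S.D b k ∈ Br.On P :=
  add_mem (add_mem (nsmul_mem (Br.kP_mem b) _) (S.amp k).1) (dvs_mem B _)

theorem lc_D [Fintype κ] (x : κ → ℕ) : lc (S.D b) x =
    ((∑ k, x k) * S.r) • kP P b + lc S.A x + dvs B (∑ k, x k • S.c k) := by
  rw [← lc_dvs, mul_smul, ← lc_const, ← lc_add_fam, ← lc_add_fam]
  rfl

/-- a subfamily -/
def sub (f : κ' → κ) : Sys B κ' :=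
  ⟨S.r, S.r_pos, fun k => S.A (f k), fun k => S.amp (f k), fun k => S.c (f k),
    fun k => S.c_nonneg (f k), fun k => S.c_le (f k)⟩


/-- the members of the degrees `φ t`, all of total degree `m` -/
def comap [Fintype κ] (φ : κ' → κ → ℕ) {m : ℕ} (hm : 0 < m) (h : ∀ t, ∑ k, φ t k = m) :
    Sys B κ' where
  r := m * S.r
  r_pos := Nat.mul_pos hm S.r_pos
  A t := lc S.A (φ t)
  amp t := Amp.lc S.amp fun h0 => by simpa [h0, hm.ne] using h t
  c t := ∑ k, φ t k • S.c k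
  c_nonneg t e := by
    rw [Finset.sum_apply]
    exact Finset.sum_nonneg fun k _ => nsmul_nonneg (S.c_nonneg k e) _
  c_le t e := by
    rw [Finset.sum_apply, ← h t, Finset.sum_mul, Nat.cast_sum]
    refine Finset.sum_le_sum fun k _ => ?_
    rw [Pi.smul_apply, nsmul_eq_mul, Nat.cast_mul]
    exact mul_le_mul_of_nonneg_left (S.c_le k e) (Nat.cast_nonneg _)

theorem comap_D [Fintype κ] (φ : κ' → κ → ℕ) {m : ℕ} (hm : 0 < m) (h : ∀ t, ∑ k, φ t k = m)
    (t : κ') : (S.comap φ hm h).D b t = lc (S.D b) (φ t) := by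
  rw [lc_D, h t]
  rfl



/-- **perturbation**: a multiple of the system has coefficients `< 1` off a given set `I`, and the
same coefficients on `I` -/
theorem exists_klt [Finite κ] (I : Set B.ι) : ∃ (M : ℕ) (S' : Sys B κ), 0 < M ∧ S'.r = M * S.r ∧
    (∀ b k, S'.D b k = M • S.D b k) ∧ (∀ k, ∀ e ∈ I, S'.c k e = M * S.c k e) ∧
    (∀ k e, e ∉ I → S'.c k e < S'.r) ∧ (∀ k e, S'.c k e ≤ M * S.c k e) ∧
    ∀ k, ∀ e ∈ I, od B e (S'.A k) = M * od B e (S.A k) := by
  classical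
  let u : κ → B.ι → ℤ := fun k e => if e ∉ I ∧ S.c k e = S.r then 1 else 0
  choose N hN using fun k => (S.amp k).exists_amp (dvs_mem B (u k))
  obtain ⟨M, hM⟩ := (Set.finite_range N).bddAbove
  have hr : (1 : ℤ) ≤ S.r := by exact_mod_cast S.r_pos
  have hM0 : (0 : ℤ) ≤ M := Nat.cast_nonneg M
  refine ⟨M + 1, ⟨(M + 1) * S.r, Nat.mul_pos M.succ_pos S.r_pos,
    fun k => (M + 1) • S.A k + dvs B (u k), fun k => hN k _ ((hM ⟨k, rfl⟩).trans M.le_succ),
    fun k => (M + 1) • S.c k - u k, fun k e => ?_, fun k e => ?_⟩, M.succ_pos, rfl, fun b k => ?_,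
    fun k e he => ?_, fun k e he => ?_, fun k e => ?_, fun k e he => ?_⟩
  · have := S.c_nonneg k e
    try dsimp only
    rw [Pi.sub_apply, Pi.smul_apply, nsmul_eq_mul]
    simp only [u]
    split_ifs with h
    · rw [h.2]; push_cast; nlinarith
    · push_cast; nlinarith
  · have := S.c_le k e
    try dsimp only
    rw [Pi.sub_apply, Pi.smul_apply, nsmul_eq_mul]
    simp only [u]
    split_ifs <;> push_cast <;> nlinarith
  · simp only [D, dvs_sub, dvs_nsmul, smul_add, mul_smul]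
    abel
  · simp [u, he]
  · have := S.c_le k e
    try dsimp only
    rw [Pi.sub_apply, Pi.smul_apply, nsmul_eq_mul]
    simp only [u]
    split_ifs with h
    · rw [h.2]; push_cast; linarith
    · have h1 : S.c k e < S.r := lt_of_le_of_ne this fun h' => h ⟨he, h'⟩
      push_cast; nlinarith
  · try dsimp only
    rw [Pi.sub_apply, Pi.smul_apply, nsmul_eq_mul]
    simp only [u]
    split_ifs <;> push_cast <;> linarith
  · simp [u, he]

end Sys

end Crest.Agent.X262.FG
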