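import Crest.Agent.X262.FG.Defs
import Crest.Agent.X277.Strat.StE

/-!
# Row 262, FG (helper75): the components of an snc boundary are models

* `at_res`  : a local generator restricts to a local generator;
* `res_eq`  : the dictionary `RstU` versus `Pl.res`;
* `coords_lift`, `adj` : coordinates along the component, the adjunction formula;
* `exists_fc` : a model of the component with given place and differentials;
* `facStmt : FacStmt`, `Fc.up_model`, `facUpStmt : FacUpStmt`.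
-/

set_option autoImplicit false

open WithZero
open scoped KaehlerDifferential

noncomputable section

namespace Crest.Agent.X262.FG

open Crest.Agent.X277 Crest.Agent.X277.Lef Crest.Agent.X277.AN.G1 Crest.Agent.X277.BD
open Crest.Agent.X277.BD.Br (At oP kP)
open Crest.Agent.X277.Res.Out (Un Coords)
open Crest.Agent.X277.Res.Log (Bd un_iff crd_of_coords coords_of_crd IsoOff)
open Crest.Agent.X277.Link (Plc)
open Crest.Agent.X277.Glue (Ovr RstU SP Facet yC yC_mem)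

namespace Fac

variable {F E : Type} [Field F] [Field E] [Algebra ℂ F] [Algebra ℂ E] {P : PModel ℂ F}
  {P' : PModel ℂ E} {n : ℕ} {p : Plc ℂ F E} {x : Pts P} {x' : Pts P'} {a : BD ℂ F} {g : F}

theorem pl_r (p : Plc ℂ F E) (f : F) : (pl p).r f = p.r f := by
  by_cases h : p.v f ≤ 1
  · rw [(pl p).r_eq (x := f) h, p.r_eq h]
    rfl
  · rw [Plc.r, dif_neg h]
    exact dif_neg h

theorem pl_v_eq_one {f : F} : (pl p).V.v f = 1 ↔ p.v f = 1 := by
  rw [← map_one (pl p).V.v, ← map_one p.v]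
  exact v_rz_eq_iff p.v p.triv

theorem od_zero_iff {B : Bd P n} {e : B.ι} (hp : p.v = B.v e) :
    od B e a = 0 ↔ a.val (pl p).V = 1 := by
  obtain ⟨v, ρ, h1, h2, h3, h4, h5⟩ := p
  obtain rfl : v = B.v e := hp
  exact ord_eq_zero

theorem exp_od_at {B : Bd P n} {e : B.ι} (hx : Res.Log.On (B.v e) x) (h : At a x g) :
    exp (od B e a) = B.v e g :=
  (exp_ord a).trans (vl_eq (h (rz (B.v e) (triv B e)) hx))

theorem val_pl (hx : Ovr p x' x) (h : At a x g) : a.val (pl p).V = 1 ↔ p.v g = 1 := by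
  rw [← h (pl p).V hx.le, pl_v_eq_one]

/-- a local generator restricts to a local generator -/
theorem at_res (hx : Ovr p x' x) (h : At a x g) (hg : p.v g = 1) :
    At ((pl p).res a) x' (p.r g) := fun W hW => by
  rw [Pl.val_res ((val_pl hx h).2 hg) (h ((pl p).cm W) fun f hf =>
    ⟨hx.le f hf, by rw [pl_r]; exact hW _ (hx.mem f hf)⟩), pl_r]

/-- the dictionary -/
theorem res_eq (up : ∀ x' : Pts P', ∃ x : Pts P, Ovr p x' x) {a' : BD ℂ E} {h : Pts P → F}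
    {h' : Pts P' → E} {u : F} (ha : ∀ x, At a x (h x)) (ha' : ∀ x', At a' x' (h' x'))
    (H : RstU p h h' u) :
    (a - pr ℂ u).val (pl p).V = 1 ∧ (pl p).res (a - pr ℂ u) = a' := by
  have h1 : ∀ {x' x}, Ovr p x' x → At (a - pr ℂ u) x (h x / u) := fun {x' x} hx =>
    (ha x).sub (Br.at_pr x fun h0 => by simpa [h0] using (H x' x hx).1)
  refine ⟨?_, Br.ext_at (P := P') fun x' => ?_⟩
  · obtain ⟨x'⟩ : Nonempty (Pts P') := inferInstance
    obtain ⟨x, hx⟩ := up x'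
    exact (val_pl hx (h1 hx)).2 (H x' x hx).1
  · obtain ⟨x, hx⟩ := up x'
    exact ⟨_, at_res hx (h1 hx) (H x' x hx).1, (ha' x').of_ev' (un_iff.1 (H x' x hx).2)⟩

theorem res_on (up : ∀ x' : Pts P', ∃ x : Pts P, Ovr p x' x) (ha : a ∈ Br.On P)
    (h0 : a.val (pl p).V = 1) : (pl p).res a ∈ Br.On P' := fun x' => by
  obtain ⟨x, hx⟩ := up x'
  obtain ⟨g, hg⟩ := ha x
  exact ⟨_, at_res hx hg ((val_pl hx hg).1 h0)⟩

theorem mon_single {B : Bd P n} [DecidableEq B.ι] (e : B.ι) (x : Pts P) :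
    B.mon x (Pi.single e 1) = B.τ e x := by
  rw [Bd.mon, Finset.prod_eq_single e (fun e' _ h => by rw [Pi.single_eq_of_ne h, zpow_zero])
    (fun h => absurd (Finset.mem_univ e) h), Pi.single_eq_same, zpow_one]

theorem od_single {B : Bd P n} [DecidableEq B.ι] (e : B.ι) : od B e (dvs B (Pi.single e 1)) = 1 := by
  obtain ⟨x, hx⟩ := B.ne e
  have h := exp_od_at hx (at_dvs B (Pi.single e 1) x)
  rwa [mon_single, map_inv₀, B.unif e x hx, ← exp_neg, neg_neg, exp_inj] at h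

theorem exists_basis_det (b : Module.Basis (Fin (n + 1)) F Ω[F⁄ℂ]) {u : F} (hu : u ≠ 0) :
    ∃ b' : Module.Basis (Fin (n + 1)) F Ω[F⁄ℂ], b.det b' = u :=
  ⟨b.unitsSMul (Pi.mulSingle 0 (Units.mk0 u hu)), by
    rw [Module.Basis.det_unitsSMul_self, Fin.prod_univ_succ]
    simp⟩

/-- coordinates of the component lift to coordinates of the ambient variety -/
theorem coords_lift {B : Bd P (n + 1)} {e : B.ι} (hp : p.v = B.v e) (hx : Ovr p x' x)
    {z : Fin n → E} (hz : Coords (lp x').O z) : ∃ y : Fin n → F, (∀ i, p.r (y i) = z i) ∧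
      Coords (lp x).O (Fin.cons (B.τ e x) y : Fin (n + 1) → F) := by
  have he : Res.Log.On (B.v e) x := hp ▸ hx.le
  choose y hy hr using fun i => hx.surj _ (hz.mem i)
  have h0 : ∀ l, ev ((Fin.cons (B.τ e x) y : Fin (n + 1) → F) l) x = 0 := fun l =>
    Fin.cases (Bd.on_iff.1 he) (fun i => by
      rw [Fin.cons_succ, ← hx.ev_eq _ (hy i), hr]
      exact Res.Log.v_coord hz i) l
  obtain ⟨b⟩ := B.exists_basis
  refine ⟨y, hr, coords_of_crd b ⟨fun l => Fin.cases (B.τ_mem e x) hy l, fun f hf => ?_⟩ h0⟩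
  obtain ⟨c, hc, h1⟩ := (crd_of_coords hz).gen _ (hx.mem f hf)
  choose d hd hdr using fun i => hx.surj _ (hc i)
  have h2 : ∑ i, d i * y i ∈ (lp x).O := sum_mem fun i _ => mul_mem (hd i) (hy i)
  have h3 : algebraMap ℂ F (ev f x) + ∑ i, d i * y i ∈ (lp x).O := add_mem (algebraMap_mem _ _) h2
  have h4 : p.r (∑ i, d i * y i) = ∑ i, c i * z i :=
    (Strat.Fac.π_sum (q := Strat.Fac.toG p) _ fun i _ => hx.le _ (mul_mem (hd i) (hy i))).trans
      (Finset.sum_congr rfl fun i _ => by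
        rw [Strat.Fac.toG_π, p.r_mul (hx.le _ (hd i)) (hx.le _ (hy i)), hdr, hr])
  have h5 : p.v (f - (algebraMap ℂ F (ev f x) + ∑ i, d i * y i)) < 1 := by
    rw [← p.r_eq_r (hx.le f hf) (hx.le _ h3), p.r_add (p.triv _) (hx.le _ h2), p.r_alg, h4,
      ← hx.ev_eq f hf]
    simpa only [Res.Log.v_coord hz, map_zero, sub_zero] using h1
  refine ⟨Fin.cons ((f - (algebraMap ℂ F (ev f x) + ∑ i, d i * y i)) / B.τ e x) d,
    fun l => Fin.cases (Bd.div_mem he (sub_mem hf h3) (hp ▸ h5)) hd l, ?_⟩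
  have h6 : ∀ l, (lp x).v ((Fin.cons (B.τ e x) y : Fin (n + 1) → F) l) = 0 := h0
  simp only [h6, map_zero, sub_zero, Fin.sum_univ_succ, Fin.cons_zero, Fin.cons_succ,
    div_mul_cancel₀ _ (B.τ_ne e x)]
  change f = algebraMap ℂ F (ev f x) + _
  ring

open Classical in
/-- **adjunction** -/
theorem adj {B : Bd P (n + 1)} {e : B.ι} (hp : p.v = B.v e) (B' : Bd P' n)
    (up : ∀ x' : Pts P', ∃ x : Pts P, Ovr p x' x) {b : Module.Basis (Fin (n + 1)) F Ω[F⁄ℂ]}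
    {b' : Module.Basis (Fin n) E Ω[E⁄ℂ]} {ρ : E} (h : p.IsRes b b' 1 1 ρ) (hρ : ρ ≠ 0) :
    od B e (kP P b) = -1 ∧ (pl p).res (kP P b + dvs B (Pi.single e 1)) = kP P' b' - pr ℂ ρ := by
  have key : ∀ x' : Pts P', ∃ (x : Pts P) (g : F), Ovr p x' x ∧
      At (kP P b + dvs B (Pi.single e 1)) x g ∧ p.v g = 1 ∧ At (kP P' b' - pr ℂ ρ) x' (p.r g) := by
    intro x'
    obtain ⟨x, hx⟩ := up x'
    obtain ⟨z, hz⟩ := B'.exists_coords x'
    obtain ⟨y, hr, hy⟩ := coords_lift hp hx hz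
    have h1 := (crd_of_coords hz).jac_ne (lp_fin x') b'
    obtain ⟨h2, h3⟩ := h (B.τ e x) y (hp ▸ B.unif e x (hp ▸ hx.le))
      (fun i => hx.le _ (hy.mem i.succ)) (by simpa only [hr] using h1)
    simp only [hr, pow_one, one_mul] at h2 h3
    have h4 := p.v_eq_one h2 fun h0 => hρ (by rw [← h3, h0, zero_mul])
    refine ⟨x, (B.τ e x / jac b (Fin.cons (B.τ e x) y))⁻¹, hx, ?_, by rw [map_inv₀, h4, inv_one],
      ?_⟩
    · simpa only [mon_single, inv_div, div_eq_mul_inv, mul_inv_rev, inv_inv] using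
        (Br.at_kP b (crd_of_coords hy)).add (at_dvs B (Pi.single e 1) x)
    · have h5 := (Br.at_kP b' (crd_of_coords hz)).sub (Br.at_pr x' hρ)
      rwa [p.r_inv h4, eq_div_of_mul_eq h1 h3, inv_div]
  refine ⟨?_, Br.ext_at (P := P') fun x' => ?_⟩
  · obtain ⟨x'⟩ : Nonempty (Pts P') := inferInstance
    obtain ⟨x, g, hx, h1, h2, -⟩ := key x'
    have h3 := (od_zero_iff hp).2 ((val_pl hx h1).2 h2)
    rw [map_add, od_single] at h3
    omega
  · obtain ⟨x, g, hx, h1, h2, h3⟩ := key x'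
    exact ⟨_, at_res hx h1 h2, h3⟩

/-- an adapted chart -/
theorem exists_ad {B : Bd P (n + 1)} {e : B.ι} (hp : p.v = B.v e)
    (b : Module.Basis (Fin (n + 1)) F Ω[F⁄ℂ]) (B' : Bd P' n)
    (up : ∀ x' : Pts P', ∃ x : Pts P, Ovr p x' x) : ∃ (x : Pts P) (y : Fin n → F),
      Res.Log.On (B.v e) x ∧ p.Ad b (B.τ e x) y ∧ At (kP P b) x (jac b (Fin.cons (B.τ e x) y)) := by
  obtain ⟨x'⟩ : Nonempty (Pts P') := inferInstance
  obtain ⟨x, hx⟩ := up x'
  obtain ⟨z, hz⟩ := B'.exists_coords x'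
  obtain ⟨y, -, hy⟩ := coords_lift hp hx hz
  have he : Res.Log.On (B.v e) x := hp ▸ hx.le
  exact ⟨x, y, he, Strat.Fac.ad_of_coords b hy (hp ▸ Bd.eqn he), Br.at_kP b (crd_of_coords hy)⟩

open Classical in
theorem exists_facet (B : Bd P (n + 1)) {e : B.ι} (hp : p.v = B.v e)
    (b : Module.Basis (Fin (n + 1)) F Ω[F⁄ℂ]) : ∃ Q : SP E n,
    Facet ⟨P, B, b, 1, Pi.single e 1, fun e' => by by_cases h : e' = e <;> simp [h]⟩ e p Q :=
  Strat.Fac.exists_facet' _ (by simp [SP.IsT]) hp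

/-- a model of the component with given place and differentials -/
theorem exists_fc {B : Bd P (n + 1)} {e : B.ι} (hp : p.v = B.v e)
    {b : Module.Basis (Fin (n + 1)) F Ω[F⁄ℂ]} {b' : Module.Basis (Fin n) E Ω[E⁄ℂ]}
    (h : p.IsRes b b' 1 1 1) : ∃ Φ : Fc B b e E, Φ.p = p ∧ Φ.b' = b' := by
  classical
  obtain ⟨Q, Φ⟩ := exists_facet B hp b
  obtain ⟨l, h1, h2⟩ := Φ.exists_rstU_mon
  obtain ⟨w, hw⟩ := Φ.rst_y
  obtain ⟨h3, h4⟩ := adj hp Q.B Φ.up h one_ne_zero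
  obtain ⟨h5, h6⟩ := res_eq Φ.up (fun x => Br.at_y (yC_mem x)) (fun x => Br.at_y (yC_mem x)) hw
  refine ⟨⟨p, Q.P, Q.B, b', l, hp, Φ.up, Φ.down, fun w => (h1 w).1,
    fun x' x hx e₁ he => ?_, fun a ha h0 => res_on Φ.up ha ((od_zero_iff hp).1 h0), ?_,
    fun c hc => ?_, h, h3, by rw [h4, pr_one, sub_zero]⟩, rfl, rfl⟩
  · have h7 := (h2 (Pi.single e₁ 1) (Pi.single_eq_of_ne he.symm _) x' x hx).2
    simp only [mon_single, div_one, Pi.single_apply] at h7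
    convert h7
  · rintro a ⟨ha, q, hq, hf⟩ h0
    rw [od_zero_iff hp] at h0
    have h7 : (q • a).val (pl p).V = 1 := by rw [val_nsmul, h0, one_pow]
    refine ⟨res_on Φ.up ha h0, q, hq, ?_⟩
    rw [← Pl.res_nsmul h0, ← h6, ← Pl.res_sub h7 h5]
    refine Pl.free_res ?_ (by rw [val_sub, h7, h5, div_one])
    rw [← sub_add]
    exact hf.add (free_pr w)
  · simpa using (res_eq Φ.up (at_dvs B c) (at_dvs Q.B fun w => c (l w)) (h2 c hc).inv).2

theorem exists_le {Q : PModel ℂ F} (h : oP P ∈ Br.On Q) (y : Pts Q) :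
    ∃ x : Pts P, (lp x).O ≤ (lp y).O := by
  obtain ⟨i, -, hi⟩ := Br.gn_of_mem ⟨0, P.y_ne 0⟩ h y
  obtain ⟨x, -, hx⟩ := exists_dom (lp y) hi
  exact ⟨x, hx.le⟩

theorem oP_mem_of_isoOff {Q : PModel ℂ F} {C : Bd Q n} (h : IsoOff P C) : oP P ∈ Br.On Q :=
  fun y => (h.dom y).elim fun i hi => ⟨_, Br.at_mxf (P.y_ne i) hi⟩

end Fac

open Fac

/-- **the components of the boundary are models** -/
theorem facStmt : FacStmt := by
  intro F _ _ n P B e
  obtain ⟨b₀⟩ := B.exists_basis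
  obtain ⟨E, _, _, p, hp⟩ := Strat.Fac.exists_plc_bd (B := B) e
  obtain ⟨Q, Φ⟩ := exists_facet B hp b₀
  obtain ⟨x, y, hx, hA, -⟩ := exists_ad hp b₀ Q.B Φ.up
  obtain ⟨w, hw, hr⟩ := p.exists_r (jac Q.b fun i => p.r (y i))⁻¹
  have h1 := hA.jac_res_ne Q.b
  have h2 : w ≠ 0 := fun h0 => inv_ne_zero h1 (by rw [← hr, h0, p.r_zero])
  have h3 := B.τ_ne e x
  obtain ⟨b, hb⟩ := exists_basis_det b₀ (div_ne_zero (mul_ne_zero h2 hA.ne) h3)
  have h4 : w * jac b₀ (Fin.cons (B.τ e x) y) / B.τ e x * B.τ e x ^ 1 /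
      jac b₀ (Fin.cons (B.τ e x) y) ^ 1 = w := by
    have := hA.ne
    field_simp
  have h5 := Plc.isRes_of_ad (bκ := Q.b) hA (h4.symm ▸ hw)
  rw [h4, hr, pow_one, inv_mul_cancel₀ h1, ← hb] at h5
  obtain ⟨Ψ, -⟩ := exists_fc (b := b) (b' := Q.b) hp fun x y hx hy hj => by
    simpa only [jac_change b₀ b, pow_one, one_mul,
      mul_div_mul_left _ _ (det_basis_ne_zero b₀ b)] using h5 x y hx hy hj
  exact ⟨b, E, _, _, ⟨Ψ⟩⟩

namespace Fc

variable {F E : Type} [Field F] [Field E] [Algebra ℂ F] [Algebra ℂ E] {P Q : PModel ℂ F} {n : ℕ}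
  {B : Bd P (n + 1)} {b : Module.Basis (Fin (n + 1)) F Ω[F⁄ℂ]} {e : B.ι} (Φ : Fc B b e E)

/-- the model of the component on a higher model dominates -/
theorem oP_mem {C : Bd Q (n + 1)} {e₁ : C.ι} (h : oP P ∈ Br.On Q) (Ψ : Fc C b e₁ E)
    (hp : Ψ.p = Φ.p) : oP Φ.P' ∈ Br.On Ψ.P' := fun y' => by
  obtain ⟨y, hy⟩ := Ψ.up y'
  obtain ⟨x, hx⟩ := exists_le h y
  rw [hp] at hy
  obtain ⟨x', hx'⟩ := Φ.down x fun f hf => Φ.v_eq ▸ hy.le f (hx hf)
  obtain ⟨g, hg⟩ := Br.oP_mem x'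
  refine ⟨g, fun V hV => hg V fun f hf => ?_⟩
  obtain ⟨f', hf', rfl⟩ := hx'.surj f hf
  exact hV _ (hy.mem _ (hx hf'))

/-- **the component on a higher model** -/
theorem up_model {C : Bd Q (n + 1)} {e₁ : C.ι} (h : oP P ∈ Br.On Q) (hv : C.v e₁ = B.v e) :
    ∃ Ψ : Fc C b e₁ E, Ψ.p = Φ.p ∧ Ψ.b' = Φ.b' ∧ oP Φ.P' ∈ Br.On Ψ.P' := by
  obtain ⟨Ψ, h4, h5⟩ := exists_fc (Φ.v_eq.trans hv.symm) Φ.isRes
  exact ⟨Ψ, h4, h5, Φ.oP_mem h Ψ h4⟩



end Fc

theorem facUpStmt : FacUpStmt := fun _ _ _ _ _ _ _ _ _ _ _ Φ _ _ _ h hv =>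
  Φ.up_model (oP_mem_of_isoOff h) hv

end Crest.Agent.X262.FG
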