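import Mathlib

/-!
# X262/FG/Fin0 (helper5): the cones of Cascini–Lazić, Theorem 6.3, as monoids

`φ i` is the divisor of a section of `D i = r (K + A_i) + b i`; the monoid `Sat (Im …)` consists of
the integral points of the cone over `{φ(t) + β | β ≥ 0, β + b(t) ≤ r}`.

* `fg_sat`   : the saturation of a finitely generated submonoid of `ι → ℕ` is finitely generated;
* `fg_Cj`    : the pieces `Cj j` (coefficient `j` of the boundary is maximal) are finitely generated;
* `cover`    : the pieces cover the cone;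
* `exists_sub` : far from the origin one can subtract the `j`-th component on the `j`-th piece.
-/

set_option autoImplicit false
set_option linter.unusedSectionVars false

open Finset

namespace Crest.Agent.X262.FG.Fin5

variable {ι κ : Type*} [Fintype ι] [Fintype κ]

/-- saturation of a submonoid -/
def Sat {Λ : Type*} [AddCommMonoid Λ] (U : AddSubmonoid Λ) : AddSubmonoid Λ where
  carrier := {s | ∃ m : ℕ, 0 < m ∧ m • s ∈ U}
  zero_mem' := ⟨1, one_pos, by simp⟩
  add_mem' := by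
    rintro s t ⟨m, hm, hs⟩ ⟨l, hl, ht⟩
    refine ⟨m * l, Nat.mul_pos hm hl, ?_⟩
    rw [smul_add, mul_smul m l t, mul_comm m l, mul_smul l m s, smul_comm m l t]
    refine U.add_mem (U.nsmul_mem hs l) ?_
    rw [smul_comm l m t]
    exact U.nsmul_mem ht m


theorem le_Sat {Λ : Type*} [AddCommMonoid Λ] (U : AddSubmonoid Λ) : U ≤ Sat U :=
  fun s hs => ⟨1, one_pos, by simpa using hs⟩



theorem fg_sat {U : AddSubmonoid (ι → ℕ)} (hU : U.FG) : (Sat U).FG := by
  classical
  obtain ⟨G, rfl⟩ := hU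
  have hfin : {s : ι → ℕ | s ≤ ∑ g ∈ G, g}.Finite := Set.finite_Iic _
  rw [AddSubmonoid.fg_iff]
  refine ⟨G ∪ {s | s ∈ Sat (AddSubmonoid.closure (G : Set (ι → ℕ))) ∧ s ≤ ∑ g ∈ G, g},
    le_antisymm ?_ ?_, G.finite_toSet.union (hfin.subset fun _ h => h.2)⟩
  · rw [AddSubmonoid.closure_le]
    rintro s (hs | hs)
    · exact le_Sat _ (AddSubmonoid.subset_closure hs)
    · exact hs.1
  · rintro s ⟨m, hm, hs⟩
    rw [AddSubmonoid.mem_closure_finset] at hs
    obtain ⟨a, -, ha⟩ := hs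
    have h1 : m • s = m • ∑ g ∈ G, (a g / m) • g + ∑ g ∈ G, (a g % m) • g := by
      rw [← ha, smul_sum, ← sum_add_distrib]
      exact sum_congr rfl fun g _ => by rw [smul_smul, ← add_smul, Nat.div_add_mod]
    have h2 : ∑ g ∈ G, (a g / m) • g ≤ s := fun j => by
      have h3 := congrFun h1 j
      simp only [Pi.add_apply, Pi.smul_apply, smul_eq_mul] at h3
      exact Nat.le_of_mul_le_mul_left (h3 ▸ Nat.le_add_right _ _) hm
    obtain ⟨s', rfl⟩ := exists_add_of_le h2
    rw [smul_add, add_left_cancel_iff] at h1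
    refine add_mem (sum_mem fun g hg => nsmul_mem (AddSubmonoid.subset_closure
      (Set.mem_union_left _ hg)) _)
      (AddSubmonoid.subset_closure (Set.mem_union_right _ ⟨⟨m, hm, ?_⟩, fun j => ?_⟩))
    · rw [h1]
      exact sum_mem fun g hg => nsmul_mem (AddSubmonoid.subset_closure hg) _
    · have h3 := congrFun h1 j
      simp only [Pi.smul_apply, smul_eq_mul, Finset.sum_apply] at h3 ⊢
      refine Nat.le_of_mul_le_mul_left ?_ hm
      rw [h3, mul_sum]
      exact sum_le_sum fun g _ => Nat.mul_le_mul_right _ (Nat.mod_lt _ hm).le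

/-- the linear combination of a family -/
def lc {Λ : Type*} [AddCommMonoid Λ] (φ : κ → Λ) : (κ → ℕ) →+ Λ where
  toFun n := ∑ i, n i • φ i
  map_zero' := by simp
  map_add' n n' := by simp [add_smul, sum_add_distrib]

theorem lc_apply {Λ : Type*} [AddCommMonoid Λ] (φ : κ → Λ) (n : κ → ℕ) :
    lc φ n = ∑ i, n i • φ i := rfl

theorem lc_pi (φ : κ → ι → ℕ) (n : κ → ℕ) (j : ι) : lc φ n j = ∑ i, n i * φ i j := by
  simp [lc_apply, Finset.sum_apply]

theorem map_lc {Λ Λ' : Type*} [AddCommMonoid Λ] [AddCommMonoid Λ'] (ψ : Λ →+ Λ') (φ : κ → Λ)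
    (n : κ → ℕ) : ψ (lc φ n) = lc (fun i => ψ (φ i)) n := by
  simp [lc_apply, map_sum]

theorem lc_single {Λ : Type*} [AddCommMonoid Λ] [DecidableEq κ] (φ : κ → Λ) (i : κ) :
    lc φ (Pi.single i 1) = φ i := by
  rw [lc_apply, sum_eq_single i] <;> simp +contextual

/-- a finitely generated monoid is the range of a linear combination -/
theorem exists_lc {Λ : Type*} [AddCommMonoid Λ] {U : AddSubmonoid Λ} (hU : U.FG) :
    ∃ (l : ℕ) (g : Fin l → Λ), (∀ h, g h ∈ U ∧ g h ≠ 0) ∧ ∀ s ∈ U, ∃ a, lc g a = s := by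
  classical
  obtain ⟨G, rfl⟩ := hU
  let e := (G.erase 0).equivFin
  refine ⟨_, fun h => e.symm h, fun h => ⟨AddSubmonoid.subset_closure
    (mem_erase.1 (e.symm h).2).2, (mem_erase.1 (e.symm h).2).1⟩, fun s hs => ?_⟩
  refine AddSubmonoid.closure_induction (fun x hx => ?_) ⟨0, map_zero _⟩ ?_ hs
  · rcases eq_or_ne x 0 with rfl | h0
    · exact ⟨0, map_zero _⟩
    · exact ⟨Pi.single (e ⟨x, mem_erase.2 ⟨h0, hx⟩⟩) 1, by rw [lc_single, Equiv.symm_apply_apply]⟩
  · rintro _ _ - - ⟨a, rfl⟩ ⟨a', rfl⟩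
    exact ⟨a + a', map_add _ _ _⟩

variable (r : ℕ) (b φ : κ → ι → ℕ)

/-- pairs `(n, β)` with `β + b(n) ≤ r |n|` -/
def T : AddSubmonoid ((κ → ℕ) × (ι → ℕ)) where
  carrier := {t | ∀ j, t.2 j + lc b t.1 j ≤ r * ∑ i, t.1 i}
  zero_mem' j := by simp
  add_mem' {t t'} h h' j := by
    have h1 := h j
    have h2 := h' j
    simp only [Prod.snd_add, Prod.fst_add, Pi.add_apply, map_add, sum_add_distrib, mul_add]
    omega

/-- those with equality at `j` -/
def Tj (j : ι) : AddSubmonoid ((κ → ℕ) × (ι → ℕ)) where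
  carrier := {t | t ∈ T r b ∧ t.2 j + lc b t.1 j = r * ∑ i, t.1 i}
  zero_mem' := ⟨zero_mem _, by simp⟩
  add_mem' {t t'} h h' := ⟨add_mem h.1 h'.1, by
    have h1 := h.2
    have h2 := h'.2
    simp only [Prod.snd_add, Prod.fst_add, Pi.add_apply, map_add, sum_add_distrib, mul_add]
    omega⟩

/-- the divisor `φ(n) + β` -/
def prj : (κ → ℕ) × (ι → ℕ) →+ (ι → ℕ) := (lc φ).coprod (AddMonoidHom.id _)

theorem prj_apply (t : (κ → ℕ) × (ι → ℕ)) : prj φ t = lc φ t.1 + t.2 := rfl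

/-- integral points of the cone -/
def C : AddSubmonoid (ι → ℕ) := Sat ((T r b).map (prj φ))

/-- integral points of the `j`-th piece -/
def Cj (j : ι) : AddSubmonoid (ι → ℕ) := Sat ((Tj r b j).map (prj φ))

variable {r b φ}


theorem fg_Tj (r : ℕ) (b : κ → ι → ℕ) (j : ι) : (Tj r b j).FG := by
  classical
  let A : (κ ⊕ ι ⊕ ι → ℕ) →+ (ι → ℕ) × ℕ :=
    { toFun := fun x => (fun l => x (.inr (.inl l)) + x (.inr (.inr l)) + lc b (fun i => x (.inl i)) l,
        x (.inr (.inr j)))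
      map_zero' := by ext <;> simp [lc_pi]
      map_add' := fun x y => by
        ext l
        · simp only [lc_pi, Pi.add_apply, add_mul, sum_add_distrib, Prod.fst_add]; ring
        · simp }
  let B : (κ ⊕ ι ⊕ ι → ℕ) →+ (ι → ℕ) × ℕ :=
    { toFun := fun x => (fun _ => r * ∑ i, x (.inl i), 0)
      map_zero' := by ext <;> simp
      map_add' := fun x y => by ext <;> simp [sum_add_distrib, mul_add] }
  let p : (κ ⊕ ι ⊕ ι → ℕ) →+ (κ → ℕ) × (ι → ℕ) :=
    { toFun := fun x => (fun i => x (.inl i), fun l => x (.inr (.inl l)))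
      map_zero' := rfl
      map_add' := fun _ _ => rfl }
  have h : Tj r b j = (A.eqLocusM B).map p := by
    ext t
    constructor
    · rintro ⟨h1, h2⟩
      refine ⟨Sum.elim t.1 (Sum.elim t.2 fun l => r * ∑ i, t.1 i - (t.2 l + lc b t.1 l)), ?_, rfl⟩
      refine Prod.ext (funext fun l => ?_) ?_
      · have h3 := h1 l
        change t.2 l + (r * ∑ i, t.1 i - (t.2 l + lc b t.1 l)) + lc b t.1 l = r * ∑ i, t.1 i
        omega
      · change r * ∑ i, t.1 i - (t.2 j + lc b t.1 j) = 0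
        omega
    · rintro ⟨x, hx, rfl⟩
      have h1 : ∀ l, x (.inr (.inl l)) + x (.inr (.inr l)) + lc b (fun i => x (.inl i)) l =
          r * ∑ i, x (.inl i) := congrFun (congrArg Prod.fst hx)
      have h2 : x (.inr (.inr j)) = 0 := congrArg Prod.snd hx
      refine ⟨fun l => ?_, ?_⟩
      · have h3 := h1 l
        change x (.inr (.inl l)) + lc b (fun i => x (.inl i)) l ≤ r * ∑ i, x (.inl i)
        omega
      · have h3 := h1 j
        change x (.inr (.inl j)) + lc b (fun i => x (.inl i)) j = r * ∑ i, x (.inl i)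
        omega
  rw [h]
  exact (AddSubmonoid.fg_eqLocusM A B).map p

theorem fg_T (r : ℕ) (b : κ → ι → ℕ) : (T r b).FG := by
  classical
  let A : (κ ⊕ ι ⊕ ι → ℕ) →+ (ι → ℕ) :=
    { toFun := fun x l => x (.inr (.inl l)) + x (.inr (.inr l)) + lc b (fun i => x (.inl i)) l
      map_zero' := by ext; simp [lc_pi]
      map_add' := fun x y => by
        ext l
        simp only [lc_pi, Pi.add_apply, add_mul, sum_add_distrib]; ring }
  let B : (κ ⊕ ι ⊕ ι → ℕ) →+ (ι → ℕ) :=
    { toFun := fun x _ => r * ∑ i, x (.inl i)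
      map_zero' := by ext; simp
      map_add' := fun x y => by ext; simp [sum_add_distrib, mul_add] }
  let p : (κ ⊕ ι ⊕ ι → ℕ) →+ (κ → ℕ) × (ι → ℕ) :=
    { toFun := fun x => (fun i => x (.inl i), fun l => x (.inr (.inl l)))
      map_zero' := rfl
      map_add' := fun _ _ => rfl }
  have h : T r b = (A.eqLocusM B).map p := by
    ext t
    constructor
    · intro h1
      refine ⟨Sum.elim t.1 (Sum.elim t.2 fun l => r * ∑ i, t.1 i - (t.2 l + lc b t.1 l)),
        funext fun l => ?_, rfl⟩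
      have h3 := h1 l
      change t.2 l + (r * ∑ i, t.1 i - (t.2 l + lc b t.1 l)) + lc b t.1 l = r * ∑ i, t.1 i
      omega
    · rintro ⟨x, hx, rfl⟩ l
      have h1 : x (.inr (.inl l)) + x (.inr (.inr l)) + lc b (fun i => x (.inl i)) l =
          r * ∑ i, x (.inl i) := congrFun hx l
      change x (.inr (.inl l)) + lc b (fun i => x (.inl i)) l ≤ r * ∑ i, x (.inl i)
      omega
  rw [h]
  exact (AddSubmonoid.fg_eqLocusM A B).map p

theorem fg_C (r : ℕ) (b φ : κ → ι → ℕ) : (C r b φ).FG := fg_sat ((fg_T r b).map _)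

theorem fg_Cj (r : ℕ) (b φ : κ → ι → ℕ) (j : ι) : (Cj r b φ j).FG :=
  fg_sat ((fg_Tj r b j).map _)

/-- nonzero degrees have multiples of a common total degree -/
theorem exists_norm {α : Type*} [Finite α] (n : α → κ → ℕ) (hn : ∀ a, n a ≠ 0) :
    ∃ (N : ℕ) (m : α → ℕ), 0 < N ∧ ∀ a, 0 < m a ∧ ∑ i, (m a • n a) i = N := by
  classical
  have := Fintype.ofFinite α
  have h : ∀ a, 0 < ∑ i, n a i := fun a => Nat.pos_of_ne_zero fun h =>
    hn a (funext fun i => sum_eq_zero_iff.1 h i (mem_univ i))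
  refine ⟨∏ a, ∑ i, n a i, fun a => ∏ a' ∈ univ.erase a, ∑ i, n a' i, prod_pos fun a _ => h a,
    fun a => ⟨prod_pos fun a _ => h a, ?_⟩⟩
  simp only [Pi.smul_apply, smul_eq_mul]
  rw [← mul_sum, mul_comm, mul_prod_erase _ (fun a => ∑ i, n a i) (mem_univ a)]

/-- generators of the `j`-th piece, with normalised representatives -/
theorem exists_gen (r : ℕ) (b φ : κ → ι → ℕ) (j : ι) : ∃ (l N : ℕ) (g : Fin l → ι → ℕ)
    (m : Fin l → ℕ) (t : Fin l → (κ → ℕ) × (ι → ℕ)), 0 < N ∧ (∀ s ∈ Cj r b φ j, ∃ a, lc g a = s) ∧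
      ∀ h, 0 < m h ∧ t h ∈ Tj r b j ∧ prj φ (t h) = m h • g h ∧ ∑ i, (t h).1 i = N := by
  obtain ⟨l, g, h1, h2⟩ := exists_lc (fg_Cj r b φ j)
  choose m hm t ht he using fun h => (h1 h).1
  obtain ⟨N, m', hN, h3⟩ := exists_norm (fun h => (t h).1) fun h h0 => (h1 h).2 (by
    have h4 : (t h).2 = 0 := funext fun l => by
      have h5 : (t h).2 l + lc b (t h).1 l ≤ r * ∑ i, (t h).1 i := (ht h).1 l
      rw [h0] at h5
      simpa using h5
    have h5 := he h
    rw [prj_apply, h0, h4, map_zero, add_zero, eq_comm] at h5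
    exact (smul_eq_zero.1 h5).resolve_left (hm h).ne')
  exact ⟨l, N, g, fun h => m' h * m h, fun h => m' h • t h, hN, h2, fun h =>
    ⟨Nat.mul_pos (h3 h).1 (hm h), nsmul_mem (ht h) _, by rw [map_nsmul, he, mul_smul], (h3 h).2⟩⟩

theorem lc_add_le (hb : ∀ i j, b i j < r) (n : κ → ℕ) (j : ι) :
    lc b n j + ∑ i, n i ≤ r * ∑ i, n i := by
  rw [lc_pi, ← sum_add_distrib, mul_sum]
  refine sum_le_sum fun i _ => ?_
  have := hb i j
  nlinarith

theorem lc_mem_C (hb : ∀ i j, b i j < r) (n : κ → ℕ) : lc φ n ∈ C r b φ :=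
  le_Sat _ ⟨(n, 0), fun j => by
    have := lc_add_le hb n j
    change 0 + lc b n j ≤ r * ∑ i, n i
    omega, add_zero _⟩

theorem cover (hb : ∀ i j, b i j < r) {s : ι → ℕ} (hs : s ∈ C r b φ) (h0 : s ≠ 0) :
    ∃ j, s ∈ Cj r b φ j := by
  obtain ⟨m, hm, ⟨n, β⟩, ht, he⟩ := hs
  have he' : ∀ j, lc φ n j + β j = m * s j := fun j => congrFun he j
  have ht' : ∀ j, β j + lc b n j ≤ r * ∑ i, n i := ht
  obtain ⟨j₁, hj₁⟩ := Function.ne_iff.1 h0
  have hn : 0 < ∑ i, n i := by
    refine Nat.pos_of_ne_zero fun h => ?_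
    have h1 : n = 0 := funext fun i => sum_eq_zero_iff.1 h i (mem_univ i)
    have h2 := ht' j₁
    have h3 := he' j₁
    rw [h, mul_zero] at h2
    rw [h1, map_zero, Pi.zero_apply] at h3
    exact Nat.mul_ne_zero hm.ne' hj₁ (by omega)
  obtain ⟨c, hc⟩ : ∃ c : ι → ℕ, ∀ j, c j + lc b n j = r * ∑ i, n i + lc φ n j :=
    ⟨fun j => r * ∑ i, n i + lc φ n j - lc b n j, fun j => Nat.sub_add_cancel (by have := ht' j; omega)⟩
  have hc0 : ∀ j, 0 < c j := fun j => by
    have h1 := lc_add_le hb n j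
    have h2 := hc j
    omega
  have hc1 : ∀ j, m * s j ≤ c j := fun j => by
    have h1 := ht' j
    have h2 := hc j
    have h3 := he' j
    omega
  obtain ⟨j, -, hj⟩ := exists_max_image univ (fun j => ((m * s j : ℕ) : ℚ) / c j) ⟨j₁, mem_univ _⟩
  have hj' : ∀ l, m * s l * c j ≤ m * s j * c l := fun l => by
    have h1 := hj l (mem_univ l)
    rw [div_le_div_iff₀ (by exact_mod_cast hc0 l) (by exact_mod_cast hc0 j)] at h1
    exact_mod_cast h1
  obtain ⟨d, hd⟩ := Nat.exists_eq_add_of_le (hc1 j)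
  set p := m * s j with hp
  have key : ∀ l, c j * β l + d * lc φ n l + p * lc b n l + p * c l =
      r * (p * ∑ i, n i) + m * s l * c j := fun l => by
    have h1 := hc l
    have h2 := he' l
    rw [← h2, hd]
    have h3 : p * (c l + lc b n l) = p * (r * ∑ i, n i + lc φ n l) := by rw [h1]
    nlinarith
  have e1 : ∑ i, (p • n) i = p * ∑ i, n i := by simp [mul_sum]
  have e2 : ∀ l, (c j • β + d • lc φ n) l + lc b (p • n) l =
      c j * β l + d * lc φ n l + p * lc b n l := fun l => by rw [map_nsmul]; rfl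
  refine ⟨j, c j * m, Nat.mul_pos (hc0 j) hm, (p • n, c j • β + d • lc φ n), ⟨fun l => ?_, ?_⟩, ?_⟩
  · have h1 := key l
    have h2 := hj' l
    change (c j • β + d • lc φ n) l + lc b (p • n) l ≤ r * ∑ i, (p • n) i
    rw [e1, e2]
    omega
  · have h1 := key j
    change (c j • β + d • lc φ n) j + lc b (p • n) j = r * ∑ i, (p • n) i
    rw [e1, e2]
    rw [← hp] at h1
    omega
  · rw [mul_smul (c j), ← he, prj_apply, prj_apply, map_nsmul, smul_add, hd, add_smul p d (lc φ n)]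
    exact (add_assoc _ _ _).symm.trans (add_right_comm _ _ _)

theorem exists_sub [DecidableEq ι] (hb : ∀ i j, b i j < r) : ∃ M : ℕ, ∀ j, ∀ s ∈ Cj r b φ j,
    M ≤ ∑ l, s l → ∃ s' ∈ C r b φ, s = s' + Pi.single j 1 := by
  refine ⟨∑ i, ∑ l, φ i l + Fintype.card ι * r + 1, ?_⟩
  rintro j s ⟨m, hm, ⟨n, β⟩, ⟨ht, hj⟩, he⟩ hM
  have he' : ∀ l, lc φ n l + β l = m * s l := fun l => congrFun he l
  have ht' : ∀ l, β l + lc b n l ≤ r * ∑ i, n i := ht
  have hj' : β j + lc b n j = r * ∑ i, n i := hj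
  have h1 : ∑ l, lc φ n l ≤ (∑ i, ∑ l, φ i l) * ∑ i, n i := by
    simp only [lc_pi]
    rw [sum_comm, sum_mul]
    refine sum_le_sum fun i _ => ?_
    rw [← mul_sum, mul_comm]
    exact Nat.mul_le_mul_left _ (single_le_sum (fun _ _ => Nat.zero_le _) (mem_univ i))
  have h2 : ∑ l, β l ≤ Fintype.card ι * r * ∑ i, n i := by
    rw [mul_assoc, ← smul_eq_mul, ← card_univ]
    exact sum_le_card_nsmul _ _ _ fun l _ => (Nat.le_add_right _ _).trans (ht' l)
  have h3 : m * ∑ l, s l = ∑ l, lc φ n l + ∑ l, β l := by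
    rw [mul_sum, ← sum_add_distrib]
    exact sum_congr rfl fun l _ => (he' l).symm
  have h4 : m ≤ ∑ i, n i := by
    by_contra h
    have h5 := Nat.mul_le_mul_left m hM
    have h6 := Nat.mul_le_mul_left (∑ i, ∑ l, φ i l + Fintype.card ι * r) (not_le.1 h).le
    nlinarith
  have h5 : m ≤ β j := by
    have := lc_add_le hb n j
    omega
  have hs : ∀ (c : ℕ) (u : ι → ℕ), c ≤ u j → Pi.single j c ≤ u := fun c u h l => by
    rcases eq_or_ne l j with rfl | hl
    · simpa using h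
    · simp [hl]
  have h6 : Pi.single j 1 ≤ s := hs _ _ (Nat.pos_of_ne_zero fun h => by
    have := he' j
    rw [h] at this
    omega)
  obtain ⟨s', hs'⟩ := exists_add_of_le h6
  obtain ⟨β', hβ'⟩ := exists_add_of_le (hs _ _ h5)
  refine ⟨s', ⟨m, hm, (n, β'), fun l => ?_, ?_⟩, by rw [hs', add_comm]⟩
  · have h8 := ht' l
    have h9 : β' l ≤ β l := by rw [hβ']; exact Nat.le_add_left _ _
    change β' l + lc b n l ≤ r * ∑ i, n i
    omega
  · rw [prj_apply, hβ', hs', smul_add, ← Pi.single_smul', smul_eq_mul, mul_one] at he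
    rw [prj_apply]
    refine add_left_cancel (a := Pi.single j m) ?_
    rw [← he]
    exact add_left_comm _ _ _

end Crest.Agent.X262.FG.Fin5
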