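import Crest.Agent.X262.FG.Inv
import Crest.Agent.X262.KV.Defs
import Crest.Agent.X277.BD.Mdl
import Crest.Agent.X277.AN.G1Conn
import Crest.Agent.X262.FG.Up0
import Crest.Agent.X262.FG.Dj0
import Crest.Agent.X262.FG.NvDefs
import Crest.Agent.X277.BD.Cyc

-- ▼ part X262/FG/N51a
section

/-!
# Row 262, FG (helper80): `h⁰(G + k T)` is a polynomial function

* `PF d f`      : the function `f : ℕ → ℤ` is polynomial of degree `< d`;
* `SN P T`      : `O(1) + k T` is ample for all `k`;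
* `Adj B I G`   : `G = K + fractional boundary + ample`, the boundary has no component in `I`;
* `rk_step`     : the exact sequence of a component;
* `poly`        : `k ↦ h⁰(G + k T)` is polynomial.
-/

set_option autoImplicit false
set_option linter.unusedSectionVars false

open WithZero
open scoped KaehlerDifferential

noncomputable section

namespace Crest.Agent.X262.FG.N51

open Crest.Agent.X277 Crest.Agent.X277.Lef Crest.Agent.X277.AN.G1 Crest.Agent.X277.BD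
open Crest.Agent.X277.BD.Br (At oP kP)
open Crest.Agent.X277.Res.Log (Bd)
open Crest.Agent.X277.Link (Plc)
open Crest.Agent.X262.KV (KVL)

/-! ### polynomial functions -/

/-- polynomial functions of degree `< d` -/
def PF : ℕ → (ℕ → ℤ) → Prop
  | 0, f => ∀ k, f k = 0
  | d + 1, f => PF d fun k => f (k + 1) - f k

theorem PF.congr {d : ℕ} {f g : ℕ → ℤ} (h : PF d f) (e : ∀ k, f k = g k) : PF d g :=
  funext e ▸ h

theorem PF.zero : ∀ d, PF d fun _ => 0
  | 0 => fun _ => rfl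
  | d + 1 => (PF.zero d).congr fun _ => by simp

theorem PF.add : ∀ {d : ℕ} {f g : ℕ → ℤ}, PF d f → PF d g → PF d fun k => f k + g k
  | 0, _, _, h, h' => fun k => by simp only [h k, h' k, add_zero]
  | d + 1, _, _, h, h' => (PF.add (d := d) h h').congr fun _ => by ring

theorem PF.sub : ∀ {d : ℕ} {f g : ℕ → ℤ}, PF d f → PF d g → PF d fun k => f k - g k
  | 0, _, _, h, h' => fun k => by simp only [h k, h' k, sub_zero]
  | d + 1, _, _, h, h' => (PF.sub (d := d) h h').congr fun _ => by ring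

theorem PF.shift : ∀ {d : ℕ} {f : ℕ → ℤ}, PF d f → PF d fun k => f (k + 1)
  | 0, _, h => fun k => h (k + 1)
  | d + 1, _, h => PF.shift (d := d) h

theorem PF.eq_zero : ∀ {d : ℕ} {f : ℕ → ℤ}, PF d f → (∀ k, f (k + 1) = 0) → f 0 = 0
  | 0, _, h, _ => h 0
  | d + 1, f, h, h0 => by
    have h1 := PF.eq_zero (d := d) h fun k => by rw [h0, h0, sub_zero]
    rwa [h0, zero_sub, neg_eq_zero] at h1

variable {F : Type} [Field F] [Algebra ℂ F] {P : PModel ℂ F} {n : ℕ}

/-- the dimension of the space of sections -/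
def hh (a : BD ℂ F) : ℤ := Module.finrank ℂ a.Sec

theorem hh_lin {a a' : BD ℂ F} (h : Lin a a') : hh a = hh a' := congrArg Nat.cast h.finrank

theorem lin_sub_pr (a : BD ℂ F) {g : F} (hg : g ≠ 0) : Lin a (a - pr ℂ g) := ⟨g, hg, by simp⟩

/-! ### nef classes -/

/-- `O(1) + k T` is ample for all `k` -/
def SN (P : PModel ℂ F) (T : BD ℂ F) : Prop := T ∈ Br.On P ∧ ∀ k : ℕ, Amp P (oP P + k • T)

theorem amp_add_of {A H T : BD ℂ F} (hA : Amp P A) (hH : H ∈ Br.On P) (hT : T ∈ Br.On P)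
    (h : ∀ k : ℕ, Amp P (H + k • T)) (k : ℕ) : Amp P (A + k • T) := by
  obtain ⟨m, hm⟩ := hA.exists_amp (neg_mem hH)
  refine Amp.of_nsmul m.succ_pos (add_mem hA.1 (nsmul_mem hT k)) ?_
  convert (hm _ m.le_succ).add (h (m.succ * k)) using 1
  module

theorem SN.amp {A T : BD ℂ F} (h : SN P T) (hA : Amp P A) (k : ℕ) : Amp P (A + k • T) :=
  amp_add_of hA Br.oP_mem h.1 h.2 k

theorem SN.sub_pr {T : BD ℂ F} (h : SN P T) {t : F} (ht : t ≠ 0) : SN P (T - pr ℂ t) :=
  ⟨sub_mem h.1 (Br.pr_mem t), fun k => by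
    convert (h.2 k).sub_pr (t ^ k) using 1
    rw [pr_pow ht]
    module⟩

/-! ### adjoint classes -/

/-- `G = K + fractional boundary + ample`; no component of the boundary is in `I` -/
def Adj (B : Bd P n) (I : Set B.ι) (G : BD ℂ F) : Prop :=
  ∃ (b : Module.Basis (Fin n) F Ω[F⁄ℂ]) (q : ℕ) (φ : B.ι → ℤ) (A : BD ℂ F), G ∈ Br.On P ∧ 0 < q ∧
    (∀ e, 0 ≤ φ e ∧ φ e < q) ∧ (∀ e ∈ I, φ e = 0) ∧ Amp P A ∧ q • G = q • kP P b + A + dvs B φ

section Adj

variable {B : Bd P n} {I : Set B.ι} {G : BD ℂ F}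

theorem Adj.mem (h : Adj B I G) : G ∈ Br.On P := by
  obtain ⟨_, _, _, _, h, _⟩ := h
  exact h

theorem Adj.sub_pr (h : Adj B I G) {g : F} (hg : g ≠ 0) : Adj B I (G - pr ℂ g) := by
  obtain ⟨b, q, φ, A, h0, h1, h2, h3, h4, h5⟩ := h
  refine ⟨b, q, φ, A - pr ℂ (g ^ q), sub_mem h0 (Br.pr_mem g), h1, h2, h3, h4.sub_pr _, ?_⟩
  rw [smul_sub, h5, pr_pow hg]
  abel

theorem Adj.chg (h : Adj B I G) (b : Module.Basis (Fin n) F Ω[F⁄ℂ]) :
    ∃ (q : ℕ) (φ : B.ι → ℤ) (A : BD ℂ F), 0 < q ∧ (∀ e, 0 ≤ φ e ∧ φ e < q) ∧ (∀ e ∈ I, φ e = 0) ∧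
      Amp P A ∧ q • G = q • kP P b + A + dvs B φ := by
  obtain ⟨b', q, φ, A, -, h1, h2, h3, h4, h5⟩ := h
  obtain ⟨f, hf, h6⟩ := Br.lin_kP (P := P) b b'
  refine ⟨q, φ, A - pr ℂ (f ^ q), h1, h2, h3, h4.sub_pr _, ?_⟩
  rw [h5, h6, pr_pow hf]
  module

open Classical in
theorem Adj.step (h : Adj B I G) {e : B.ι} (he : e ∈ I) :
    Adj B (I \ {e}) (G + dvs B (Pi.single e 1)) := by
  obtain ⟨b, q, φ, A, h0, h1, h2, h3, h4, h5⟩ := h
  obtain ⟨M, hM⟩ := h4.exists_amp (dvs_mem B (Pi.single e 1))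
  have h6 : (1 : ℤ) ≤ q := by exact_mod_cast h1
  have h7 : (0 : ℤ) ≤ M := Nat.cast_nonneg M
  refine ⟨b, (M + 1) * q, (M + 1) • φ + (((M + 1) * q : ℕ) - 1 : ℤ) • Pi.single e 1, _,
    add_mem h0 (dvs_mem B _), Nat.mul_pos M.succ_pos h1, fun e' => ?_, fun e' he' => ?_,
    hM _ M.le_succ, ?_⟩
  · rw [Pi.add_apply, Pi.smul_apply, Pi.smul_apply, nsmul_eq_mul, smul_eq_mul]
    by_cases h8 : e' = e
    · rw [h8, h3 e he, Pi.single_eq_same]
      push_cast
      constructor <;> nlinarith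
    · have := h2 e'
      rw [Pi.single_eq_of_ne h8]
      push_cast
      constructor <;> nlinarith
  · rw [Pi.add_apply, Pi.smul_apply, Pi.smul_apply, h3 e' he'.1, Pi.single_eq_of_ne he'.2]
    simp
  · rw [smul_add, mul_smul, h5, dvs_add, dvs_nsmul, dvs_zsmul]
    push_cast
    module

theorem Adj.mono (h : Adj B I G) {J : Set B.ι} (hJ : J ⊆ I) : Adj B J G := by
  obtain ⟨b, q, φ, A, h0, h1, h2, h3, h4, h5⟩ := h
  exact ⟨b, q, φ, A, h0, h1, h2, fun e he => h3 e (hJ he), h4, h5⟩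

theorem Adj.ext (h : Adj B I G) {C : Bd P n} {j : B.ι → C.ι} (hj : ∀ e, C.v (j e) = B.v e) :
    Adj C (Set.range j)ᶜ G := by
  obtain ⟨b, q, φ, A, h0, h1, h2, -, h4, h5⟩ := h
  have hi : Function.Injective j := fun e e' h => B.v_injective (by rw [← hj, h, hj])
  have h6 : ∀ e', e' ∉ Set.range j → Function.extend j φ 0 e' = 0 := fun e' he' =>
    Function.extend_apply' _ _ _ he'
  refine ⟨b, q, Function.extend j φ 0, A, h0, h1, fun e' => ?_, h6, h4, ?_⟩
  · by_cases h7 : e' ∈ Set.range j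
    · obtain ⟨e, rfl⟩ := h7
      rw [hi.extend_apply]
      exact h2 e
    · rw [h6 e' h7]
      exact ⟨le_rfl, by exact_mod_cast h1⟩
  · rw [h5, dvs_congr hj (fun e => hi.extend_apply _ _ e) h6]

end Adj

/-! ### restriction to a component -/

section Res

variable {B : Bd P (n + 1)} {b : Module.Basis (Fin (n + 1)) F Ω[F⁄ℂ]} {e : B.ι} {E : Type}
  [Field E] [Algebra ℂ E] (Φ : Fc B b e E) {a a' : BD ℂ F}

theorem pl_r (p : Plc ℂ F E) (x : F) : (pl p).r x = p.r x := by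
  by_cases h : p.v x ≤ 1
  · rw [p.r_eq h, (pl p).r_eq h]
    rfl
  · rw [Plc.r, dif_neg h]
    exact dif_neg h

theorem pl_V : (pl Φ.p).V = rz (B.v e) (triv B e) := 
  Subtype.ext (congrArg Valuation.valuationSubring Φ.v_eq)

theorem val_one (h : od B e a = 0) : a.val (pl Φ.p).V = 1 := by
  rw [pl_V]
  exact od_eq_zero.1 h

theorem res_add (h : od B e a = 0) (h' : od B e a' = 0) :
    (pl Φ.p).res (a + a') = (pl Φ.p).res a + (pl Φ.p).res a' :=
  Pl.res_add (val_one Φ h) (val_one Φ h')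

theorem res_nsmul (h : od B e a = 0) (m : ℕ) : (pl Φ.p).res (m • a) = m • (pl Φ.p).res a :=
  Pl.res_nsmul (val_one Φ h) m

open Classical in
/-- the exact sequence of a component -/
theorem rk_step (ha : a ∈ Br.On P) (h0 : od B e a = 0)
    (hs : ∀ s' ∈ ((pl Φ.p).res a).Sec, ∃ s ∈ a.Sec, Φ.p.r s = s') :
    hh a = hh (a - dvs B (Pi.single e 1)) + hh ((pl Φ.p).res a) := by
  have := essFiniteType P
  have h1 : ∀ s ∈ a.Sec, Φ.p.v s ≤ 1 := fun s hs => Pl.mem_of_sec (val_one Φ h0) hs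
  let ρ : a.Sec →ₗ[ℂ] E :=
    { toFun := fun s => Φ.p.r s
      map_add' := fun s t => Φ.p.r_add (h1 _ s.2) (h1 _ t.2)
      map_smul' := fun c s => by
        rw [Submodule.coe_smul, Algebra.smul_def, Φ.p.r_mul (Φ.p.triv c) (h1 _ s.2), Φ.p.r_alg,
          Algebra.smul_def]
        rfl }
  have h2 : LinearMap.range ρ = ((pl Φ.p).res a).Sec := by
    ext z
    constructor
    · rintro ⟨s, rfl⟩
      change Φ.p.r s ∈ _
      rw [← pl_r]
      exact Pl.r_mem_Sec (val_one Φ h0) s.2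
    · intro hz
      obtain ⟨s, h2, rfl⟩ := hs z hz
      exact ⟨⟨s, h2⟩, rfl⟩
  have h3 : vl (B.v e) (triv B e) a = 1 := vl_eq_one_iff.2 h0
  have h4 : LinearMap.ker ρ = (a - dvs B (Pi.single e 1)).Sec.comap a.Sec.subtype := by
    ext s
    refine (Φ.p.r_eq_zero (h1 _ s.2)).trans ?_
    rw [Φ.v_eq, ← h3]
    exact ⟨mem_Sec_sub_single ha s.2, lt_vl_of_mem⟩
  have h5 : (a - dvs B (Pi.single e 1)).Sec ≤ a.Sec :=
    Sec_mono (sub_le_self _ (dvs_nonneg fun e' => by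
      rw [Pi.single_apply]; split_ifs <;> simp))
  have h6 := LinearMap.finrank_range_add_finrank_ker ρ
  rw [h2, h4, (Submodule.comapSubtypeEquivOfLe h5).finrank_eq] at h6
  unfold hh
  omega

theorem SN.res {T : BD ℂ F} (h : SN P T) (h0 : od B e T = 0) : SN Φ.P' ((pl Φ.p).res T) := by
  obtain ⟨g, hg, h1⟩ := exists_od_zero B e (oP P)
  have h2 := Φ.res_on T h.1 h0
  refine ⟨h2, amp_add_of (amp_oP _) (Φ.res_on _ (sub_mem Br.oP_mem (Br.pr_mem g)) h1) h2
    fun k => ?_⟩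
  rw [← res_nsmul Φ h0, ← res_add Φ h1 (by rw [map_nsmul, h0, smul_zero])]
  refine Φ.res_amp _ (h.amp ((amp_oP P).sub_pr g) k) ?_
  rw [map_add, map_nsmul, h0, h1, smul_zero, add_zero]

open Classical in
/-- adjunction and lifting -/
theorem facet (hK : KVL n) {I : Set B.ι} {G T : BD ℂ F} (h : Adj B I G) (he : e ∈ I) (hT : SN P T)
    (h0 : od B e (G + dvs B (Pi.single e 1)) = 0) (h1 : od B e T = 0) :
    Adj Φ.B' ∅ ((pl Φ.p).res (G + dvs B (Pi.single e 1))) ∧ ∀ k : ℕ,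
      hh (G + dvs B (Pi.single e 1) + k • T) = hh (G + k • T) +
        hh ((pl Φ.p).res (G + dvs B (Pi.single e 1)) + k • (pl Φ.p).res T) := by
  obtain ⟨q, φ, A, h2, h3, h4, h5, h6⟩ := h.chg b
  have hm : G + dvs B (Pi.single e 1) ∈ Br.On P := add_mem h.mem (dvs_mem B _)
  have e1 : q • (G + dvs B (Pi.single e 1)) =
      q • (kP P b + dvs B (Pi.single e 1)) + A + dvs B φ := by
    rw [smul_add, h6]
    module
  have o1 : od B e (kP P b + dvs B (Pi.single e 1)) = 0 := by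
    rw [map_add, Φ.od_K, od_dvs, Pi.single_eq_same]
    rfl
  have o2 : od B e (dvs B φ) = 0 := by rw [od_dvs, h4 e he]
  have o3 : od B e A = 0 := by
    have h7 := congrArg (od B e) e1
    rwa [map_nsmul, h0, map_add, map_add, map_nsmul, o1, o2, smul_zero, zero_add, add_zero,
      eq_comm] at h7
  have e2 : q • (pl Φ.p).res (G + dvs B (Pi.single e 1)) =
      q • kP Φ.P' Φ.b' + (pl Φ.p).res A + dvs Φ.B' fun w => φ (Φ.l w) := by
    have o4 : od B e (q • (kP P b + dvs B (Pi.single e 1))) = 0 := by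
      rw [map_nsmul, o1, smul_zero]
    rw [← res_nsmul Φ h0, e1, res_add Φ (by rw [map_add, o4, o3, add_zero]) o2, res_add Φ o4 o3,
      res_nsmul Φ o1, Φ.res_K, Φ.res_dvs φ (h4 e he)]
  refine ⟨⟨Φ.b', q, fun w => φ (Φ.l w), _, Φ.res_on _ hm h0, h2, fun w => h3 _, by simp,
    Φ.res_amp A h5 o3, e2⟩, fun k => ?_⟩
  have o5 : od B e (k • T) = 0 := by rw [map_nsmul, h1, smul_zero]
  have o6 : od B e (G + dvs B (Pi.single e 1) + k • T) = 0 := by rw [map_add, h0, o5, add_zero]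
  have h7 := hT.amp h5 (q * k)
  obtain ⟨j, hj⟩ := h7.semi
  have o7 : od B e (A + (q * k) • T) = 0 := by rw [map_add, map_nsmul, o3, h1, smul_zero, add_zero]
  rw [rk_step Φ (add_mem hm (nsmul_mem hT.1 k)) o6 fun s' hs' => hK F P B b e E Φ _
    ((j + 1) • (A + (q * k) • T)) ((j + 1) * q) ((j + 1) • φ) (add_mem hm (nsmul_mem hT.1 k))
    (hj _ j.le_succ) (h7.big.nsmul j.succ_pos) (Nat.mul_pos j.succ_pos h2) (fun e1 => ?_)
    (by rw [Pi.smul_apply, h4 e he, smul_zero]) o6 (by rw [map_nsmul, o7, smul_zero]) ?_ s' ?_,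
    res_add Φ h0 o5, res_nsmul Φ h1]
  · congr 2
    abel
  · have := h3 e1
    have h8 : (0 : ℤ) ≤ j := Nat.cast_nonneg j
    rw [Pi.smul_apply, nsmul_eq_mul]
    push_cast
    constructor <;> nlinarith
  · rw [← sub_nonneg]
    convert nsmul_nonneg (dvs_nonneg fun e1 => (h3 e1).1) (j + 1) using 1
    rw [mul_smul, mul_smul, smul_add q, e1]
    module
  · convert pow_mem_Sec hs' ((j + 1) * q) using 2
    rw [res_add Φ h0 o5, res_nsmul Φ h1, mul_smul (j + 1) q (_ + _), smul_add q, e2,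
      res_nsmul Φ o7, res_add Φ o3 (by rw [map_nsmul, h1, smul_zero]), res_nsmul Φ h1,
      show (fun w => ((j + 1) • φ) (Φ.l w)) = (j + 1) • fun w => φ (Φ.l w) from rfl, dvs_nsmul]
    module

end Res

/-! ### the induction -/

/-- the statement in dimension `n` -/
def Pn (n : ℕ) : Prop := ∀ (F : Type) [Field F] [Algebra ℂ F] (P : PModel ℂ F) (B : Bd P n)
  (G T : BD ℂ F), Adj B ∅ G → SN P T → PF (n + 1) fun k => hh (G + k • T)

theorem pn_zero : Pn 0 := by
  intro F _ _ P B G T _ _ k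
  have h1 : ∀ a : BD ℂ F, a.Sec = ⊤ := fun a => eq_top_iff.2 fun f _ V => by
    have h2 : V = RZ.top ℂ F := Subtype.ext (eq_top_iff.2 fun f _ => by
      obtain ⟨c, rfl⟩ := surj_of_zero B f
      exact V.2 c)
    rw [h2, val_top]
    exact RZ.le_one_iff.2 (ValuationSubring.mem_top f)
  simp only [hh]
  rw [h1, h1 (G + k • T), sub_self]

section Ind

variable (hF : FacStmt) (hK : KVL n) (ih : Pn n) {G T : BD ℂ F}

include hF hK ih

open Classical in
theorem pf_single {B : Bd P (n + 1)} {I : Set B.ι} {e : B.ι} (h : Adj B I G) (he : e ∈ I)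
    (hT : SN P T) :
    PF (n + 1) fun k => hh (G + dvs B (Pi.single e 1) + k • T) - hh (G + k • T) := by
  obtain ⟨b, E, _, _, ⟨Φ⟩⟩ := hF F n P B e
  obtain ⟨g, hg, h1⟩ := exists_od_zero B e (G + dvs B (Pi.single e 1))
  obtain ⟨t, ht, h2⟩ := exists_od_zero B e T
  rw [add_sub_right_comm] at h1
  obtain ⟨h3, h4⟩ := facet Φ hK (h.sub_pr hg) he (hT.sub_pr ht) h1 h2
  refine (ih E Φ.P' Φ.B' _ _ h3 (SN.res Φ (hT.sub_pr ht) h2)).congr fun k => ?_
  have h5 := h4 k
  rw [← hh_lin (((lin_sub_pr G hg).add Lin.rfl).add ((lin_sub_pr T ht).nsmul k)),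
    ← hh_lin ((lin_sub_pr G hg).add ((lin_sub_pr T ht).nsmul k))] at h5
  omega

open Classical in
theorem pf_sum {B : Bd P (n + 1)} {I : Set B.ι} (h : Adj B I G) (hT : SN P T) (s : Finset B.ι)
    (hs : ∀ e ∈ s, e ∈ I) : Adj B (I \ s) (G + ∑ e ∈ s, dvs B (Pi.single e 1)) ∧
      PF (n + 1) fun k => hh (G + ∑ e ∈ s, dvs B (Pi.single e 1) + k • T) - hh (G + k • T) := by
  induction s using Finset.induction_on with
  | empty => exact ⟨by simpa using h, (PF.zero _).congr fun k => by simp⟩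
  | insert e s he ih' =>
    obtain ⟨h1, h2⟩ := ih' fun e' he' => hs e' (Finset.mem_insert_of_mem he')
    have h3 : e ∈ I \ s := ⟨hs e (Finset.mem_insert_self e s), he⟩
    rw [Finset.sum_insert he, add_comm (dvs B _), ← add_assoc]
    refine ⟨(h1.step h3).mono fun e' he' => ⟨⟨he'.1, fun h4 => he'.2 ?_⟩, fun h4 => he'.2 ?_⟩,
      ((pf_single hF hK ih h1 h3 hT).add h2).congr fun k => by ring⟩
    · simpa using Or.inr h4
    · simpa using Or.inl h4

theorem pf_free (hB : BertStmt) {B : Bd P (n + 1)} (h : Adj B ∅ G) (hT : SN P T) {a : BD ℂ F}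
    (ha : a ∈ Br.On P) (hf : Free a) :
    PF (n + 1) fun k => hh (G + a + k • T) - hh (G + k • T) := by
  classical
  obtain ⟨r, t, -, h1, h2⟩ := hf.exists_fam
  obtain ⟨u, C, j, c, -, h3, h4, h5, h6⟩ := hB F (n + 1) P B a ha (r + 1) t h1
    (fun x => (ha x).elim fun _ hg => hg.exists_fam h1 h2) 1 one_ne_zero
  have h7 : dvs C c = ∑ e ∈ Finset.univ.filter (· ∉ Set.range j), dvs C (Pi.single e 1) := by
    rw [dvs_eq_sum, Finset.sum_filter]
    refine Finset.sum_congr rfl fun e _ => ?_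
    split_ifs with h8
    · obtain ⟨e', rfl⟩ := h8
      rw [(h4 e').2, zero_smul]
    · rw [h5 e h8, one_smul]
  refine (pf_sum hF hK ih (h.ext fun e => (h4 e).1) hT (Finset.univ.filter (· ∉ Set.range j))
    fun e he => (Finset.mem_filter.1 he).2).2.congr fun k => ?_
  rw [← h7, ← h6, ← hh_lin ((Lin.rfl.add (lin_sub_pr a h3)).add Lin.rfl)]

theorem pn_succ (hB : BertStmt) : Pn (n + 1) := by
  intro F _ _ P B G T h hT
  obtain ⟨N, hN⟩ := Br.serre hT.1
  have h1 := pf_free hF hK ih hB h hT (add_mem hT.1 (nsmul_mem Br.oP_mem N)) (hN N le_rfl)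
  have h2 := (pf_free hF hK ih hB h hT (nsmul_mem Br.oP_mem N) (Br.free_oP.nsmul N)).shift
  change PF (n + 1) fun k => hh (G + (k + 1) • T) - hh (G + k • T)
  refine (h1.sub h2).congr fun k => ?_
  rw [show G + (T + N • oP P) + k • T = G + N • oP P + (k + 1) • T by module]
  ring

end Ind

/-- **`h⁰(G + k T)` is a polynomial function** -/
theorem poly (hF : FacStmt) (hB : BertStmt) (hK : ∀ n, KVL n) : ∀ n, Pn n
  | 0 => pn_zero
  | n + 1 => pn_succ hF (hK n) (poly hF hB hK n) hB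

/-- non-vanishing propagates -/
theorem exists_eff (hF : FacStmt) (hB : BertStmt) (hK : ∀ n, KVL n) {B : Bd P n} {G T : BD ℂ F}
    (h : Adj B ∅ G) (hT : SN P T) (h0 : Eff G) : ∃ k : ℕ, Eff (G + (k + 1) • T) := by
  have := essFiniteType P
  by_contra h1
  push Not at h1
  have h2 := (poly hF hB hK n F P B G T h hT).eq_zero fun k => by
    have := mt eff_iff_finrank.2 (h1 k)
    unfold hh
    omega
  have h3 := eff_iff_finrank.1 h0
  rw [zero_smul, add_zero, hh] at h2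
  omega

end Crest.Agent.X262.FG.N51
end
end

-- ▼ part X262/FG/Up1
section

/-!
# Row 262, FG-UP (helper14), part 1: adjoint systems on a higher model

* `crp` : crepant coefficients; `Hi.adj_eq`, `crp_add_le`, `crp_le`, `crp_lt`, `crp_lt_plt`;
* `Sys.Up` : a system upstairs; `Sys.exists_up`, `exists_up_klt`, `exists_up_plt`, `up5`;
* `Sys.Up.sec`, `Sys.Up.fgr`, `Sys.Up.effFG`, `Sys.Up.rfg`.
-/

set_option autoImplicit false
set_option linter.unusedSectionVars false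

open WithZero
open scoped KaehlerDifferential

noncomputable section

namespace Crest.Agent.X262.FG

open Crest.Agent.X277 Crest.Agent.X277.Lef Crest.Agent.X277.AN.G1 Crest.Agent.X277.BD
open Crest.Agent.X277.BD.Br (At oP kP)
open Crest.Agent.X277.Res.Out (Un)
open Crest.Agent.X277.Res.Log (Bd IsoOff LogRes un_iff)
open Crest.Agent.X277.Link (IsPD)

variable {F : Type} [Field F] [Algebra ℂ F] {P Q : PModel ℂ F} {n : ℕ} {B : Bd P n} {C : Bd Q n}
  (b : Module.Basis (Fin n) F Ω[F⁄ℂ]) {r : ℕ} {c c' : B.ι → ℤ} {e : B.ι} {e' : C.ι}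

theorem kap_indep (b' : Module.Basis (Fin n) F Ω[F⁄ℂ]) (h : IsoOff P C) : kap b h = kap b' h := by
  refine dvs_injective ?_
  have h1 := kP_up b h
  rw [Br.kP_change b b', Br.kP_change (P := P) b b', kP_up b' h, add_right_comm] at h1
  exact (add_left_cancel h1).symm


variable (B) in
/-- the crepant coefficients: `r K_P + ∑ c e • D e = r K_Q + ∑ crp e' • D e'` -/
def crp (h : IsoOff P C) (r : ℕ) (c : B.ι → ℤ) : C.ι → ℤ := pbc B C c - r • kap b h

theorem crp_apply (h : IsoOff P C) (r : ℕ) (c : B.ι → ℤ) (e' : C.ι) :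
    crp B b h r c e' = pbc B C c e' - r * kap b h e' := by
  rw [crp, Pi.sub_apply, Pi.smul_apply, nsmul_eq_mul]


theorem Hi.adj_eq (h : Hi B C) (r : ℕ) (c : B.ι → ℤ) :
    r • kP P b + dvs B c = r • kP Q b + dvs C (crp B b h.iso r c) := by
  rw [crp, dvs_sub, dvs_nsmul, kP_up b h.iso, ← h.dvs_eq, smul_add]
  abel





theorem crp_pd (h : IsoOff P C) (hv : IsPD P (C.v e')) : crp B b h r c e' = pbc B C c e' := by
  rw [crp_apply, (exc_kap b h).2 e' hv, mul_zero, sub_zero]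



theorem crp_add_le (h : IsoOff P C) (r : ℕ) (c : B.ι → ℤ) (e' : C.ι) :
    crp B b h r c e' + ∑ e, (r - c e) * mu B C e e' ≤ r := by
  have h1 := mul_le_mul_of_nonneg_left (sum_mu_le b h B e') (Int.natCast_nonneg r)
  rw [Finset.mul_sum] at h1
  simp only [crp_apply, pbc_eq_sum, sub_mul, Finset.sum_sub_distrib]
  linarith

theorem crp_le (h : IsoOff P C) (hc : ∀ e, c e ≤ r) (e' : C.ι) : crp B b h r c e' ≤ r :=
  le_trans (le_add_of_nonneg_right (Finset.sum_nonneg fun e _ =>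
    mul_nonneg (sub_nonneg.2 (hc e)) (mu_nonneg e e'))) (crp_add_le b h r c e')

/-- an lc place only lies over components with coefficient one -/
theorem crp_lt_of_mu (h : IsoOff P C) (hc : ∀ e, c e ≤ r) (h1 : c e < r) (h2 : 0 < mu B C e e') :
    crp B b h r c e' < r := by
  have h3 := crp_add_le b h r c e'
  have h4 := Finset.single_le_sum (f := fun e => (r - c e) * mu B C e e')
    (fun e _ => mul_nonneg (sub_nonneg.2 (hc e)) (mu_nonneg e e')) (Finset.mem_univ e)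
  have h5 := mul_pos (sub_pos.2 h1) h2
  linarith

/-- klt goes up -/
theorem crp_lt (h : IsoOff P C) (hr : 0 < r) (hc : ∀ e, c e < r) (e' : C.ι) :
    crp B b h r c e' < r := by
  by_cases h1 : ∃ e, 0 < mu B C e e'
  · exact crp_lt_of_mu b h (fun e => (hc e).le) (hc _) h1.choose_spec
  · have h2 := mul_nonneg (Int.natCast_nonneg r) ((exc_kap b h).1 e')
    rw [crp_apply, pbc_eq_sum, Finset.sum_eq_zero fun e _ => by
      rw [le_antisymm (not_lt.1 fun h => h1 ⟨e, h⟩) (mu_nonneg e e'), mul_zero]]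
    omega


namespace Sys

variable {κ : Type}

/-- `S₁` is the system on the higher model attached to `M • S`; `g₀` corrects the ample part -/
structure Up (h : Hi B C) (S : Sys B κ) (S₁ : Sys C κ) (M : ℕ) (g₀ : C.ι → ℤ)
    (g : κ → C.ι → ℤ) : Prop where
  pos : 0 < M
  exc₀ : Exc P C g₀
  lt₀ : ∀ e', g₀ e' < M
  exc : ∀ k, Exc P C (g k)
  r_eq : S₁.r = M * S.r
  A_eq : ∀ k, S₁.A k = M • S.A k - dvs C g₀
  c_eq : ∀ b k e', S₁.c k e' = max (M * crp B b h.iso S.r (S.c k) e' + g₀ e') 0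
  D_eq : ∀ b k, S₁.D b k = M • S.D b k + dvs C (g k)

/-- **systems without exceptional lc places go up** -/
theorem exists_up [Finite κ] (h : Hi B C) (S : Sys B κ)
    (hx : ∀ k e', ¬ IsPD P (C.v e') → crp B b h.iso S.r (S.c k) e' < S.r) :
    ∃ (M₀ : ℕ) (g₀ : C.ι → ℤ), ∀ M, M₀ ≤ M → ∃ (S₁ : Sys C κ) (g : κ → C.ι → ℤ),
      Up h S S₁ M g₀ g := by
  obtain ⟨M₁, g₀, h1, h2⟩ := exists_amp_fam h.iso S.amp
  obtain ⟨M₂, h3⟩ := (Set.finite_range fun e' => (g₀ e').toNat).bddAbove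
  refine ⟨max M₁ M₂ + 1, g₀, fun M hM => ?_⟩
  have h4 : ∀ e', g₀ e' < M := fun e' => by
    have h5 : (g₀ e').toNat ≤ M₂ := h3 ⟨e', rfl⟩
    omega
  have hM0 : 0 < M := by omega
  have h5 : ∀ b' : Module.Basis (Fin n) F Ω[F⁄ℂ], crp B b' h.iso = crp B b h.iso := fun b' => by
    funext r c
    rw [crp, crp, kap_indep b' b]
  let u : κ → C.ι → ℤ := fun k => M • crp B b h.iso S.r (S.c k) + g₀
  have hu : ∀ k e', u k e' = M * crp B b h.iso S.r (S.c k) e' + g₀ e' := fun k e' => by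
    simp [u]
  refine ⟨⟨M * S.r, Nat.mul_pos hM0 S.r_pos, fun k => M • S.A k - dvs C g₀,
    h2 M (by omega), fun k e' => max (u k e') 0, fun k e' => le_max_right _ _, fun k e' =>
      max_le ?_ (Int.natCast_nonneg _)⟩, fun k e' => max (u k e') 0 - u k e', hM0, h1, h4,
    fun k => ⟨fun e' => sub_nonneg.2 (le_max_left _ _), fun e' he => ?_⟩, rfl, fun _ => rfl,
    fun b' k e' => by rw [h5, ← hu], fun b' k => ?_⟩
  · rw [hu, Nat.cast_mul]
    by_cases he : IsPD P (C.v e')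
    · rw [h1.2 e' he, add_zero]
      exact mul_le_mul_of_nonneg_left (crp_le b h.iso (S.c_le k) e') (Int.natCast_nonneg M)
    · have h6 := mul_le_mul_of_nonneg_left (Int.add_one_le_of_lt (hx k e' he))
        (Int.natCast_nonneg M)
      have h7 := h4 e'
      linarith
  · refine sub_eq_zero.2 (max_eq_left ?_)
    rw [hu, h1.2 e' he, add_zero, crp_pd b h.iso he]
    exact mul_nonneg (Int.natCast_nonneg M) (pbc_nonneg (S.c_nonneg k) e')
  · have h6 := h.adj_eq b' S.r (S.c k)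
    rw [h5] at h6
    change (M * S.r) • kP Q b' + (M • S.A k - dvs C g₀) + dvs C (fun e' => max (u k e') 0) =
      M • (S.r • kP P b' + S.A k + dvs B (S.c k)) + dvs C ((fun e' => max (u k e') 0) - u k)
    rw [add_right_comm (S.r • kP P b'), h6, dvs_sub, dvs_add, dvs_nsmul, mul_smul, smul_add,
      smul_add]
    abel

theorem exists_up_klt [Finite κ] (h : Hi B C) (S : Sys B κ) (hk : ∀ k e, S.c k e < S.r) :
    ∃ (M₀ : ℕ) (g₀ : C.ι → ℤ), ∀ M, M₀ ≤ M → ∃ (S₁ : Sys C κ) (g : κ → C.ι → ℤ),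
      Up h S S₁ M g₀ g :=
  B.exists_basis.elim fun b => exists_up b h S fun k e' _ => crp_lt b h.iso S.r_pos (hk k) e'


namespace Up

variable {h : Hi B C} {S : Sys B κ} {S₁ : Sys C κ} {M : ℕ} {g₀ : C.ι → ℤ} {g : κ → C.ι → ℤ}
  (U : Up h S S₁ M g₀ g) {k : κ}

include U



theorem c_lt (h1 : crp B b h.iso S.r (S.c k) e' < S.r) : S₁.c k e' < S₁.r := by
  have h2 := mul_le_mul_of_nonneg_left (Int.add_one_le_of_lt h1) (Int.natCast_nonneg M)
  have h3 := U.lt₀ e'
  rw [U.c_eq b]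
  refine max_lt ?_ (Int.natCast_pos.2 S₁.r_pos)
  rw [U.r_eq, Nat.cast_mul]
  linarith

theorem klt (hk : ∀ e, S.c k e < S.r) (e' : C.ι) : S₁.c k e' < S₁.r :=
  B.exists_basis.elim fun b => U.c_lt b (crp_lt b h.iso S.r_pos hk e')






variable [Fintype κ]









end Up

end Sys


end Crest.Agent.X262.FG
end
end

-- ▼ part X262/FG/L51

/-!
# Row 262, FG (helper80): numerically effective adjoint divisors are effective

* `va_oP`, `sn_of_nef`, `amp_add_nef` : ample plus nef is ample;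
* `eff_klt` : the case of an snc divisor and a klt boundary;
* `l51`, `l51Stmt` : Lemma 5.1 of Cascini-Lazić.
-/

set_option autoImplicit false
set_option linter.unusedSectionVars false

open WithZero
open scoped KaehlerDifferential

noncomputable section

namespace Crest.Agent.X262.FG.N51

open Crest.Agent.X277 Crest.Agent.X277.Lef Crest.Agent.X277.AN.G1 Crest.Agent.X277.BD
open Crest.Agent.X277.BD.Br (At oP kP)
open Crest.Agent.X277.Res.Log (Bd)
open Crest.Agent.X262.KV (KVL)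

variable {F : Type} [Field F] [Algebra ℂ F] {P : PModel ℂ F} {n : ℕ} {a y : BD ℂ F}

theorem va_oP (P : PModel ℂ F) : VA (oP P) := by
  have := essFiniteType P
  have h1 : chart ℂ P.y 0 ≤ (qf ℂ P.y).toSubalgebra :=
    Algebra.adjoin_le (by rintro _ ⟨j, rfl⟩; exact div_mem_qf P.y 0 j)
  refine va_mxf ⟨fun x => ?_⟩
  obtain ⟨f, hf, g, hg, -, rfl⟩ := P.frac x
  exact isAlgebraic_algebraMap (⟨f / g, div_mem (h1 hf) (h1 hg)⟩ : qf ℂ P.y)

/-- a nef class plus the hyperplane class is semiample -/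
theorem semi_of_nef (ha : a ∈ Br.On P) (h : Nef a) (m : ℕ) :
    ∃ r : ℕ, 0 < r ∧ Free (r • (m • a + oP P)) := by
  obtain ⟨M, hM⟩ := va_oP P
  obtain ⟨N, h1⟩ := Br.serre ha
  obtain ⟨N', h2⟩ := Br.serre (neg_mem ha)
  rw [← hM] at h1 h2 ⊢
  exact Cyc.semi_of_nef h
    (Mdl.mem_On_of_free (h1 _ (le_max_left N N')) (h2 _ (le_max_right N N'))) m

theorem sn_of_nef (ha : a ∈ Br.On P) (h : Nef a) : SN P a := ⟨ha, fun k => by
  obtain ⟨r, hr, h1⟩ := semi_of_nef ha h (2 * k)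
  refine Amp.of_nsmul two_pos (add_mem Br.oP_mem (nsmul_mem ha k)) ?_
  convert (amp_oP P).add_semi (add_mem (nsmul_mem ha _) Br.oP_mem) hr h1 using 1
  module⟩

/-- **ample plus nef is ample** -/
theorem amp_add_nef (h : Amp P a) (hy : y ∈ Br.On P) (h' : Nef y) : Amp P (a + y) := by
  simpa using (sn_of_nef hy h').amp h 1

variable (hF : FacStmt) (hB : BertStmt) (hK : ∀ n, KVL n) {B : Bd P n}
  (b : Module.Basis (Fin n) F Ω[F⁄ℂ])

include hF hB hK

/-- the case of a klt boundary and an snc divisor -/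
theorem eff_klt {r : ℕ} (hr : 0 < r) (ha : Amp P a) {c c' : B.ι → ℤ} (h0 : ∀ e, 0 ≤ c e)
    (h1 : ∀ e, c e < r) (h2 : ∀ e, 0 ≤ c' e) (h3 : Nef (r • kP P b + a + dvs B c - dvs B c'))
    (h4 : Nef (-(r • kP P b + a + dvs B c - dvs B c'))) :
    ∃ q : ℕ, 0 < q ∧ Eff (q • (r • kP P b + a + dvs B c)) := by
  have hr' : (0 : ℤ) < r := by exact_mod_cast hr
  have hT : r • kP P b + a + dvs B c - dvs B c' ∈ Br.On P :=
    sub_mem (add_mem (add_mem (nsmul_mem (Br.kP_mem b) r) ha.1) (dvs_mem B c)) (dvs_mem B c')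
  have h5 : r • (fun e => -((c e - c' e) / r)) = (fun e => (c e - c' e) % r) - (c - c') := by
    funext e
    have := Int.mul_ediv_add_emod (c e - c' e) r
    simp only [Pi.smul_apply, Pi.sub_apply, nsmul_eq_mul]
    linarith
  have h6 : Adj B ∅ (dvs B fun e => -((c e - c' e) / r)) := by
    refine ⟨b, r, fun e => (c e - c' e) % r, _, dvs_mem B _, hr,
      fun e => ⟨Int.emod_nonneg _ hr'.ne', Int.emod_lt_of_pos _ hr'⟩, by simp,
      amp_add_nef ha (neg_mem hT) h4, ?_⟩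
    rw [← dvs_nsmul, h5, dvs_sub, dvs_sub]
    abel
  obtain ⟨k, hk⟩ := exists_eff hF hB hK h6 (sn_of_nef hT h3)
    (eff_of_nonneg (dvs_nonneg fun e => neg_nonneg.2 (Int.lt_add_one_iff.1
      (Int.ediv_lt_of_lt_mul hr' (by have := h1 e; have := h2 e; linarith)))))
  refine ⟨k + 1, k.succ_pos, hk.mono ?_⟩
  rw [smul_sub, add_comm, sub_add, sub_le_self_iff, sub_nonneg, ← dvs_nsmul]
  refine dvs_mono fun e => ?_
  have h7 : -c' e ≤ (c e - c' e) / r :=
    Int.le_ediv_of_mul_le hr' (by have := h0 e; have := h2 e; nlinarith)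
  have h8 := h2 e
  have h9 : (0 : ℤ) ≤ k := Nat.cast_nonneg k
  rw [Pi.smul_apply, nsmul_eq_mul]
  push_cast
  nlinarith

/-- **an adjoint divisor which is numerically effective has an effective multiple** -/
theorem l51 {r : ℕ} (hr : 0 < r) (ha : Amp P a) {c : B.ι → ℤ} (h0 : ∀ e, 0 ≤ c e)
    (h1 : ∀ e, c e ≤ r) (hy : y ∈ Br.On P) (h2 : 0 ≤ y) (h3 : Nef (r • kP P b + a + dvs B c - y))
    (h4 : Nef (-(r • kP P b + a + dvs B c - y))) :
    ∃ q : ℕ, 0 < q ∧ Eff (q • (r • kP P b + a + dvs B c)) := by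
  let S : Sys B Unit := ⟨r, hr, fun _ => a, fun _ => ha, fun _ => c, fun _ => h0, fun _ => h1⟩
  obtain ⟨M, S', hM, -, h5, -, h6, -⟩ := S.exists_klt ∅
  obtain ⟨Q, C, h, -, h7⟩ := exists_hi B ∅ fun _ : Unit => y
  obtain ⟨M₀, g₀, h8⟩ := Sys.exists_up_klt h S' fun k e => h6 k e (Set.notMem_empty e)
  obtain ⟨S₁, g, U⟩ := h8 M₀ le_rfl
  have h9 : S₁.D b () = (M₀ * M) • (r • kP P b + a + dvs B c) + dvs C (g ()) := by
    rw [U.D_eq, h5, mul_smul]
    rfl
  have h10 : S₁.D b () - dvs C ((M₀ * M) • (fun e' => od C e' y) + g ()) =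
      (M₀ * M) • (r • kP P b + a + dvs B c - y) := by
    rw [h9, dvs_add, dvs_nsmul, ← h7 (), smul_sub]
    abel
  obtain ⟨q, hq, s, hs, hs0⟩ := eff_klt hF hB hK b S₁.r_pos (S₁.amp ()) (S₁.c_nonneg ())
    (U.klt fun e => h6 () e (Set.notMem_empty e))
    (c' := (M₀ * M) • (fun e' => od C e' y) + g ())
    (fun e => add_nonneg (nsmul_nonneg (od_nonneg h2) _) ((U.exc ()).1 e))
    (h10 ▸ h3.nsmul _ : Nef (S₁.D b () - _))
    (by rw [← Sys.D, h10, ← smul_neg]; exact h4.nsmul _)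
  refine ⟨q * (M₀ * M), Nat.mul_pos hq (Nat.mul_pos U.pos hM), s, ?_, hs0⟩
  have hm : r • kP P b + a + dvs B c ∈ Br.On P := S.D_mem b ()
  rwa [← Sys.D, h9, smul_add, ← dvs_nsmul, sec_exc h.iso (nsmul_mem (nsmul_mem hm _) _)
    ((U.exc ()).nsmul q), ← mul_smul] at hs

theorem l51Stmt (n : ℕ) : L51Stmt n := fun _ _ _ _ _ _ b _ _ _ _ hr ha hc hy h2 h3 h4 =>
  l51 hF hB hK b hr ha (fun e => (hc e).1) (fun e => (hc e).2) hy h2 h3 h4

end Crest.Agent.X262.FG.N51
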