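import Crest.Agent.X262.FG.Sig2
import Crest.Agent.X262.FG.Inv
import Crest.Agent.X277.AN.G1AlgA
import Crest.Agent.X277.Jet.Tay
import Crest.Agent.X277.Jet.Fr
import Crest.Agent.X262.FG.NvDefs
import Crest.Agent.X277.AN.G1Gaga

-- ▼ part X262/FG/Q81
section

/-!
# Row 262, FG, section 5 (helper81): the classes with `σ = 0` near an adjoint class

* `cone_of_rfg` : the real degrees without fixed part along a prime lie in a closed cone;
* `qStmt_of : RStmt n → QStmt n`.
-/

set_option autoImplicit false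

open Finset Filter Topology
open scoped KaehlerDifferential

noncomputable section

namespace Crest.Agent.X262.FG.Sg

open Crest.Agent.X277 Crest.Agent.X277.Lef Crest.Agent.X277.AN.G1 Crest.Agent.X277.BD
open Crest.Agent.X277.BD.Br (oP kP)
open Crest.Agent.X277.Res.Log (Bd)
open Crest.Agent.X262.Cvx

variable {F : Type} [Field F] [Algebra ℂ F] {Q : PModel ℂ F} {n : ℕ}

/-- the real degrees without fixed part along `e` lie in the cone of the generators -/
theorem cone_of_rfg (C : Bd Q n) (e : C.ι) {κ : Type} [Fintype κ] {V : κ → BD ℂ F}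
    (h : RFG (C.v e) (triv C e) V) : ∃ (N : ℕ) (d : Fin N → κ → ℕ), (∀ j, Eff (lc V (d j))) ∧
      ∀ y : κ → ℝ, (∀ k, 0 ≤ y k) → W (od C e) (lr V y) 0 →
        ∃ t : Fin N → ℝ, (∀ j, 0 ≤ t j) ∧ y = ∑ j, t j • nc (d j) := by
  obtain ⟨N, d, h1, h2⟩ := h.supp (nrm C e)
  refine ⟨N, d, fun j => ?_, fun y hy ⟨z, hz, hz0⟩ => ?_⟩
  · obtain ⟨s, hs, hv⟩ := h1 j
    refine ⟨s, hs, fun h0 => vl_ne (v := C.v e) (hv := triv C e) (lc V (d j)) ?_⟩
    rw [← hv, h0, map_zero]
  obtain ⟨J, _, t, q, M, ht, hq, hs, hM, rfl⟩ := hz.exists_int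
  have h3 : ∀ j, 0 ≤ od C e (∑ k, q j k • V k - M j) := fun j =>
    od_nonneg (sub_nonneg.2 (hM j).2)
  have h4 : ∀ j, od C e (∑ k, q j k • V k - M j) = 0 := fun j => by
    rw [xt_lr] at hz0
    have h5 := (sum_eq_zero_iff_of_nonneg fun j _ =>
      mul_nonneg (ht j).le (Int.cast_nonneg (R := ℝ) (h3 j))).1
        (hz0.antisymm (sum_nonneg fun j _ => mul_nonneg (ht j).le (Int.cast_nonneg (h3 j)))) j
        (mem_univ j)
    exact_mod_cast (mul_eq_zero.1 h5).resolve_left (ht j).ne'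
  have h5 : ∀ j k, ((q j k).toNat : ℤ) = q j k := fun j k => Int.toNat_of_nonneg (hq j k (hy k))
  have h6 : ∀ j, lc V (fun k => (q j k).toNat) = ∑ k, q j k • V k := fun j =>
    sum_congr rfl fun k _ => by rw [← natCast_zsmul, h5]
  have h7 : ∀ j, Nv (C.v e) (triv C e) (lc V fun k => (q j k).toNat) := fun j => by
    obtain ⟨s, hs1, hs2⟩ := (hM j).1.exists_gen (rz (C.v e) (triv C e))
    rw [h6]
    refine ⟨s, Sec_mono (hM j).2 hs1, ?_⟩
    have h8 := h4 j
    rw [map_sub, sub_eq_zero] at h8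
    rw [← vl_eq hs2, ← exp_od, ← exp_od, h8]
  choose a ha using fun j => h2 _ (h7 j)
  refine ⟨fun i => ∑ j, t j * a j i, fun i => sum_nonneg fun j _ =>
    mul_nonneg (ht j).le (Nat.cast_nonneg _), funext fun k => ?_⟩
  rw [← hs k]
  simp only [Finset.sum_apply, Pi.smul_apply, nc_apply, smul_eq_mul, sum_mul]
  rw [sum_comm]
  refine sum_congr rfl fun j _ => ?_
  have h8 := congrFun (ha j) k
  simp only [Finset.sum_apply, Pi.smul_apply, smul_eq_mul] at h8
  rw [← h5, ← h8]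
  push_cast
  rw [mul_sum]
  exact sum_congr rfl fun i _ => (mul_assoc _ _ _).symm

/-- barycentric coordinates -/
def bary {I : Type} [Fintype I] (M : ℕ) (z : I → ℝ) : Option I → ℝ :=
  fun k => k.elim (1 - ∑ i, z i / M) fun i => z i / M

theorem bary_nonneg {I : Type} [Fintype I] {M : ℕ} (hM : 3 * Fintype.card I < M) {z : I → ℝ}
    (hz : ∀ i, 0 ≤ z i ∧ z i ≤ 3) (k : Option I) : 0 ≤ bary M z k := by
  have hM' : (0 : ℝ) < M := Nat.cast_pos.2 (by omega)
  cases k with
  | none =>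
    have h1 : ∑ i, z i ≤ ∑ _i : I, (3 : ℝ) := sum_le_sum fun i _ => (hz i).2
    rw [sum_const, card_univ, nsmul_eq_mul] at h1
    have h2 : (3 : ℝ) * Fintype.card I < M := by exact_mod_cast hM
    change 0 ≤ 1 - ∑ i, z i / M
    rw [← sum_div, sub_nonneg, div_le_one hM']
    linarith
  | some i => exact div_nonneg (hz i).1 hM'.le

theorem continuous_bary {I : Type} [Fintype I] (M : ℕ) : Continuous (bary (I := I) M) :=
  continuous_pi fun k => by
    cases k with
    | none => change Continuous fun z : I → ℝ => 1 - ∑ i, z i / M; fun_prop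
    | some i => change Continuous fun z : I → ℝ => z i / M; fun_prop

theorem lr_bary {I : Type} [Fintype I] {M : ℕ} (hM : 0 < M) (G : I → BD ℂ F) (a : BD ℂ F)
    {V : Option I → BD ℂ F} (h0 : V none = a) (h1 : ∀ i, V (some i) = a + M • G i) (z : I → ℝ) :
    lr V (bary M z) = em a + lr G z := by
  have hM' : (M : ℝ) ≠ 0 := Nat.cast_ne_zero.2 hM.ne'
  simp only [lr_apply, Fintype.sum_option, bary, Option.elim, h0, h1, map_add, em_nsmul, smul_add,
    smul_smul, div_mul_cancel₀ _ hM', sum_add_distrib, ← sum_smul, sub_smul, one_smul]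
  abel

/-- the simplex system: the real classes near `K + α + β` -/
theorem exists_cone (hR : RStmt n) (C : Bd Q n) (b : Module.Basis (Fin n) F Ω[F⁄ℂ]) (e₀ : C.ι)
    {I : Type} [Fintype I] {G : I → BD ℂ F} (hG : ∀ i, G i ∈ Br.On Q) {R : ℕ} (hR0 : 0 < R)
    {c : C.ι → ℤ} (hc : ∀ e, 0 ≤ c e ∧ c e ≤ R) (hc0 : c e₀ = R) (ξ : I → ℝ)
    (ha : ∀ v : I → ℝ, ‖v‖ ≤ 3 * Fintype.card I + 3 → FreeR (lr G ξ - em (oP Q) + lr G v)) :
    ∃ (N : ℕ) (a : Fin N → BD ℂ F), (∀ j, Eff (a j)) ∧ ∀ w w' : I → ℝ,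
      (∀ᶠ ε : ℝ in 𝓝[>] 0, ‖w + ε • w'‖ ≤ 1 ∧
        W (od C e₀) (em (R • kP Q b + dvs C c) + lr G ξ + lr G (w + ε • w')) 0) →
      ∃ t : Fin N → ℝ, (∀ j, 0 ≤ t j) ∧ em (R • kP Q b + dvs C c) + lr G ξ + lr G w = lr a t := by
  classical
  let M := 3 * Fintype.card I + 1
  let m : Option I → I → ℤ := fun k i => ⌊ξ i⌋ - 1 + if k = some i then (M : ℤ) else 0
  let A : Option I → BD ℂ F := fun k => ∑ i, m k i • G i
  have hA : ∀ k, A k ∈ Br.On Q := fun k => sum_mem fun i _ => zsmul_mem (hG i) _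
  have hamp : ∀ k, Amp Q (A k) := fun k => by
    have h1 := ha (fun i => m k i - ξ i) ((pi_norm_le_iff_of_nonneg (by positivity)).2 fun i => by
      have h2 := Int.floor_le (ξ i)
      have h3 := Int.lt_floor_add_one (ξ i)
      have h4 : (0 : ℝ) ≤ Fintype.card I := Nat.cast_nonneg _
      rw [Real.norm_eq_abs, abs_le]
      simp only [m, M]
      split_ifs <;> push_cast <;> constructor <;> linarith)
    have h2 : lr G ξ - em (oP Q) + lr G (fun i => m k i - ξ i) = em (A k - oP Q) := by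
      rw [map_sub, ← lr_zc, show (fun i => (m k i : ℝ) - ξ i) = (fun i => (m k i : ℝ)) - ξ from rfl,
        map_sub]
      abel
    obtain ⟨q, hq, h3⟩ := free_of_freeR (h2 ▸ h1)
    simpa using (amp_oP Q).add_semi (sub_mem (hA k) Br.oP_mem) hq h3
  let S : Sys C (Option I) := ⟨R, hR0, A, hamp, fun _ => c, fun _ e => (hc e).1, fun _ e => (hc e).2⟩
  obtain ⟨N, d, h1, h2⟩ := cone_of_rfg C e₀ (hR F Q C b _ S e₀ fun _ => hc0)
  have key : ∀ z : I → ℝ, lr (S.D b) (bary M fun i => ξ i - (⌊ξ i⌋ - 1) + z i) =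
      em (R • kP Q b + dvs C c) + lr G ξ + lr G z := fun z => by
    rw [lr_bary (Nat.succ_pos _) G (S.D b none) rfl fun i => ?_]
    · have h3 : em (A none) = lr G fun i => (⌊ξ i⌋ - 1 : ℝ) := by
        rw [← lr_zc]
        congr 1
        funext i
        simp [m]
      rw [show (fun i => ξ i - (⌊ξ i⌋ - 1) + z i) = ξ - (fun i => (⌊ξ i⌋ - 1 : ℝ)) + z from rfl,
        map_add, map_sub, ← h3]
      simp only [Sys.D, S, map_add]
      abel
    · have h3 : A (some i) = A none + M • G i := by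
        simp [A, m, add_smul, sum_add_distrib, ite_smul]
      simp only [Sys.D, S, h3, M]
      abel
  refine ⟨N, fun j => lc (S.D b) (d j), h1, fun w w' H => ?_⟩
  have hcl := (rCone_of_gen fun j => isRat_nc (d j)).isClosed
  have hlim : Tendsto (fun ε : ℝ => bary M fun i => ξ i - (⌊ξ i⌋ - 1) + (w + ε • w') i) (𝓝[>] 0)
      (𝓝 (bary M fun i => ξ i - (⌊ξ i⌋ - 1) + w i)) := by
    refine tendsto_nhdsWithin_of_tendsto_nhds (Continuous.tendsto' ?_ _ _ (by simp))
    exact (continuous_bary M).comp (by fun_prop)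
  obtain ⟨t, ht, h3⟩ := hcl.mem_of_tendsto hlim (H.mono fun ε ⟨hε, hW⟩ =>
    h2 _ (bary_nonneg (Nat.lt_succ_self _) fun i => by
      have h2 := Int.floor_le (ξ i)
      have h3 := Int.lt_floor_add_one (ξ i)
      have h4 := abs_le.1 ((norm_le_pi_norm _ i).trans hε)
      constructor <;> linarith [h4.1, h4.2]) (by rwa [key]))
  refine ⟨t, ht, ?_⟩
  rw [← key, h3, map_sum, lr_apply]
  exact sum_congr rfl fun j _ => by rw [map_smul, lr_nc]

/-- **the classes with `σ = 0` near an adjoint class** -/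
theorem qStmt_of (hR : RStmt n) : QStmt n := by
  intro F _ _ _ Q C b e₀ β α I _ g hβ hβ0 ⟨hα, θ, hθ, hf⟩ hg
  obtain ⟨I₀, _, g₀, r₀, hg₀, rfl⟩ := hα.exists_lr
  let G : Option (I ⊕ I₀ ⊕ C.ι) → BD ℂ F := fun i =>
    i.elim (oP Q) (Sum.elim g (Sum.elim g₀ (cp C)))
  have hG : ∀ i, G i ∈ Br.On Q := by
    rintro (_ | i | i | i)
    exacts [Br.oP_mem, hg i, hg₀ i, cp_mem C i]
  have hlr : ∀ (ε : ℝ) (u : I → ℝ) (r : I₀ → ℝ) (γ : C.ι → ℝ),
      lr G (fun i => i.elim ε (Sum.elim u (Sum.elim r γ))) =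
        ε • em (oP Q) + lr g u + lr g₀ r + lr (cp C) γ := fun ε u r γ => by
    simp [lr_apply, G, add_assoc]
  obtain ⟨N, hN, hN'⟩ := exists_freeR hG
  obtain ⟨R, hR1⟩ := exists_nat_gt
    ((1 + N * (3 * Fintype.card (Option (I ⊕ I₀ ⊕ C.ι)) + 4)) / θ)
  have hR0 : (0 : ℝ) < R := lt_trans (by positivity) hR1
  rw [div_lt_iff₀ hθ] at hR1
  let c : C.ι → ℤ := fun e => ⌊R * β e⌋
  let γ : C.ι → ℝ := fun e => R * β e - c e
  have hγ : ‖fun i : Option (I ⊕ I₀ ⊕ C.ι) => i.elim 0 (Sum.elim 0 (Sum.elim 0 γ))‖ ≤ 1 :=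
    (pi_norm_le_iff_of_nonneg zero_le_one).2 (by
      rintro (_ | i | i | i)
      · simp
      · simp
      · simp
      · have h2 := Int.floor_le (R * β i)
        have h3 := Int.lt_floor_add_one (R * β i)
        simp only [Option.elim, Sum.elim_inr, γ, c, Real.norm_eq_abs, abs_le]
        constructor <;> linarith)
  obtain ⟨N', a, h1, h2⟩ := exists_cone hR C b e₀ hG (Nat.cast_pos.1 hR0) (c := c)
    (fun e => ⟨Int.floor_nonneg.2 (mul_nonneg hR0.le (hβ e).1), by
      rw [← Int.floor_natCast (R := ℝ) R]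
      exact Int.floor_mono (mul_le_of_le_one_right hR0.le (hβ e).2)⟩)
    (by simp [c, hβ0]) (fun i => i.elim 0 (Sum.elim 0 (Sum.elim ((R : ℝ) • r₀) γ))) fun v hv => by
      have h3 := (hf.smul hR0.le).add (hN' (R * θ - 1) (_ + v)
        (le_trans (mul_le_mul_of_nonneg_left ((norm_add_le _ _).trans (add_le_add hγ hv)) hN.le)
          (by linarith)))
      convert h3 using 1
      rw [map_add, hlr, hlr, map_smul, map_zero, map_zero]
      module
  have key : ∀ (ε : ℝ) (u : I → ℝ), em (R • kP Q b + dvs C c) +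
      lr G (fun i => i.elim 0 (Sum.elim 0 (Sum.elim ((R : ℝ) • r₀) γ))) +
      lr G (fun i => i.elim (R * ε) (Sum.elim ((R : ℝ) • u) (Sum.elim 0 0))) =
      (R : ℝ) • (em (kP Q b) + lr g₀ r₀ + lr (cp C) β + lr g u + ε • em (oP Q)) := fun ε u => by
    rw [hlr, hlr, map_add, em_nsmul, dvs_eq_cp,
      show γ = (R : ℝ) • β - fun e => (c e : ℝ) from rfl]
    simp only [map_sub, map_smul, map_zero]
    module
  refine ⟨Fin N', inferInstance, a, 1 / R, h1, by positivity, fun u hu hZ => ?_⟩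
  have hon : OnR Q (em (kP Q b) + lr g₀ r₀ + lr (cp C) β + lr g u) :=
    (((Cn.of (Br.kP_mem b)).add (onR_lr hg₀ _)).add (onR_lr (cp_mem C) _)).add (onR_lr hg _)
  obtain ⟨t, ht, h3⟩ := h2 (fun i => i.elim (R * 0) (Sum.elim ((R : ℝ) • u) (Sum.elim 0 0)))
    (fun i => i.elim R 0) (by
      filter_upwards [Ioo_mem_nhdsGT (show (0 : ℝ) < 1 / R by positivity)] with ε hε
      have e : ((fun i : Option (I ⊕ I₀ ⊕ C.ι) => i.elim ((R : ℝ) * 0) (Sum.elim ((R : ℝ) • u)
          (Sum.elim 0 0))) + ε • fun i : Option (I ⊕ I₀ ⊕ C.ι) => i.elim (R : ℝ) 0) =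
          fun i : Option (I ⊕ I₀ ⊕ C.ι) =>
            i.elim ((R : ℝ) * ε) (Sum.elim ((R : ℝ) • u) (Sum.elim 0 0)) := by
        funext i
        rcases i with _ | i <;> simp [mul_comm]
      rw [e, key]
      refine ⟨(pi_norm_le_iff_of_nonneg zero_le_one).2 ?_, ?_⟩
      · rintro (_ | i | i | i)
        · have h4 := (lt_div_iff₀' hR0).1 hε.2
          simp only [Option.elim, Real.norm_eq_abs]
          rw [abs_of_pos (mul_pos hR0 hε.1)]
          exact h4.le
        · have h4 := (le_div_iff₀' hR0).1 ((norm_le_pi_norm u i).trans hu)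
          simpa using h4
        · simp
        · simp
      · simpa only [pfB_o, mul_zero] using ((pfB C).upg hon hZ hε.1).smul hR0.le)
  rw [key, zero_smul, add_zero] at h3
  refine ⟨(R : ℝ)⁻¹ • t, fun j => mul_nonneg (by positivity) (ht j), ?_⟩
  rw [map_smul, ← h3, smul_smul, inv_mul_cancel₀ hR0.ne', one_smul]

end Crest.Agent.X262.FG.Sg
end
end

-- ▼ part X262/FG/Pt0
section

/-!
# Row 262, FG (helper59): the order of vanishing at a smooth closed point

* `ordV`     : the order of a power series as a valuation;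
* `tayP`     : the Taylor map of a local ring with coordinates;
* `exists_ord` : the order at the point is a valuation of the function field.
-/

set_option autoImplicit false

open WithZero
open scoped KaehlerDifferential

noncomputable section

namespace Crest.Agent.X262.FG.Pt

open Crest.Agent.X277 Crest.Agent.X277.Lef Crest.Agent.X277.AN.G1 Module

/-- `exp (-a)` -/
def eo (a : ℕ∞) : ℤᵐ⁰ := a.recTopCoe 0 fun n => exp (-(n : ℤ))

theorem eo_top : eo ⊤ = 0 := rfl

theorem eo_coe (n : ℕ) : eo n = exp (-(n : ℤ)) := rfl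

theorem eo_add (a b : ℕ∞) : eo (a + b) = eo a * eo b := by
  induction a using ENat.recTopCoe with
  | top => simp [eo_top]
  | coe a =>
    induction b using ENat.recTopCoe with
    | top => simp [eo_top]
    | coe b =>
      rw [← Nat.cast_add, eo_coe, eo_coe, eo_coe, ← exp_add]
      congr 1
      push_cast
      ring

theorem eo_le_iff {a b : ℕ∞} : eo a ≤ eo b ↔ b ≤ a := by
  induction a using ENat.recTopCoe with
  | top => simp [eo_top]
  | coe a =>
    induction b using ENat.recTopCoe with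
    | top => simp [eo_top, eo_coe]
    | coe b => rw [eo_coe, eo_coe, exp_le_exp, neg_le_neg_iff, Nat.cast_le, Nat.cast_le]

section Ser

variable (ι κ : Type*) [Field κ]

/-- the order of a power series as a valuation -/
def ordV : Valuation (MvPowerSeries ι κ) ℤᵐ⁰ where
  toFun f := eo f.order
  map_zero' := by simp [eo_top]
  map_one' := by
    have : (1 : MvPowerSeries ι κ).order = 0 := by
      by_contra h
      have h1 := MvPowerSeries.one_le_order_iff_constCoeff_eq_zero.1 (Order.one_le_iff_ne_zero.2 h)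
      simp at h1
    rw [this]
    exact eo_coe 0
  map_mul' f g := by rw [MvPowerSeries.order_mul, eo_add]
  map_add_le_max' f g := by
    rcases le_total f.order g.order with h | h
    · exact le_max_of_le_left (eo_le_iff.2 (min_eq_left h ▸ MvPowerSeries.min_order_le_add))
    · exact le_max_of_le_right (eo_le_iff.2 (min_eq_right h ▸ MvPowerSeries.min_order_le_add))

variable {ι κ}

theorem ordV_apply (f : MvPowerSeries ι κ) : ordV ι κ f = eo f.order := rfl

theorem ordV_le_iff {f : MvPowerSeries ι κ} {d : ℕ} :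
    ordV ι κ f ≤ exp (-(d : ℤ)) ↔ (d : ℕ∞) ≤ f.order := by
  rw [← eo_coe, ordV_apply, eo_le_iff]

theorem ordV_eq_zero {f : MvPowerSeries ι κ} (h : ordV ι κ f = 0) : f = 0 := by
  rw [← MvPowerSeries.order_eq_top_iff, eq_top_iff, ← eo_le_iff, eo_top]
  exact h.le

theorem ordV_pderiv (i : ι) (f : MvPowerSeries ι κ) :
    ordV ι κ (MvPowerSeries.pderiv κ i f) ≤ ordV ι κ f * exp (1 : ℤ) := by
  have h : f.order ≤ (MvPowerSeries.pderiv κ i f).order + 1 := by
    induction h1 : (MvPowerSeries.pderiv κ i f).order using ENat.recTopCoe with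
    | top => simp
    | coe m =>
      obtain ⟨⟨β, h2, h3⟩, -⟩ := MvPowerSeries.order_eq_nat.1 h1
      rw [MvPowerSeries.coeff_pderiv] at h2
      refine (MvPowerSeries.order_le (left_ne_zero_of_mul h2)).trans ?_
      rw [map_add, Finsupp.degree_single, h3]
      simp
  have h2 := eo_le_iff.2 h
  rw [eo_add, show (1 : ℕ∞) = (1 : ℕ) from rfl, eo_coe] at h2
  have h3 := mul_le_mul_left h2 (exp (1 : ℤ))
  rwa [mul_assoc, ← exp_add, show -((1 : ℕ) : ℤ) + 1 = 0 by simp, exp_zero, mul_one] at h3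

end Ser

variable {F : Type} [Field F] [Algebra ℂ F] {n : ℕ} {L : LP F}

section Tay

variable (hL : L.Fin') (b : Basis (Fin n) F Ω[F⁄ℂ]) {z : Fin n → F} (hz : L.Crd z)

/-- the frame of the coordinates -/
def frm : Jet.Fr ℂ F (Fin n) :=
  Jet.Fr.ofBasis (dBasis (hz.jac_ne hL b)) z (dBasis_apply (hz.jac_ne hL b))

theorem frm_D (l : Fin n) (f : F) : (frm hL b hz).D l f = pd b z l f :=
  pdD_apply (hz.jac_ne hL b) l f

/-- the frame on the local ring -/
def frO : Ts.CD ℂ L.O (Fin n) :=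
  Jet.resCD (frm hL b hz).toCD L.O fun l f hf => frm_D hL b hz l f ▸ hz.pd_mem hL b l hf

theorem coe_frO (l : Fin n) (f : L.O) : ((frO hL b hz).D l f : F) = pd b z l f :=
  frm_D hL b hz l f

/-- the Taylor map -/
def tayP : L.O →ₐ[ℂ] MvPowerSeries (Fin n) ℂ := Jet.tay (frO hL b hz) L.hom

theorem ordI_one : Jet.ordI (tayP hL b hz) 1 = L.mx := by
  ext f
  rw [Jet.mem_ordI_one, tayP, Jet.const_tay]
  rfl

theorem tayP_injective : Function.Injective (tayP hL b hz) := by
  let t : Fin n → L.O := fun l => ⟨z l, hz.mem l⟩ - algebraMap ℂ L.O (L.v (z l))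
  have h1 : ∀ l, Jet.Init (tayP hL b hz (t l)) (Finsupp.single l 1) := fun l => by
    have h2 := Jet.tay_coord (frO hL b hz) L.hom (y := ⟨z l, hz.mem l⟩) (j := l) fun i =>
      Subtype.ext (by
        rw [coe_frO, pd_self (hz.jac_ne hL b)]
        split_ifs <;> rfl)
    have h3 : tayP hL b hz (t l) = MvPowerSeries.X l := by
      rw [map_sub, AlgHom.commutes, tayP, h2]
      exact add_sub_cancel_left _ _
    rw [h3]
    exact Jet.init_X l
  have h2 : Jet.ordI (tayP hL b hz) 1 ≤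
      Ideal.span (Set.range t) ⊔ Jet.ordI (tayP hL b hz) 1 ^ 2 := by
    refine le_sup_of_le_left fun f hf => ?_
    rw [ordI_one, LP.mem_mx] at hf
    obtain ⟨c, hc, h⟩ := hz.gen f f.2
    refine Ideal.mem_span_range_iff_exists_fun.2 ⟨fun l => ⟨c l, hc l⟩, Subtype.ext ?_⟩
    rw [h, hf, map_zero, zero_add]
    push_cast
    rfl
  rw [injective_iff_map_eq_zero]
  intro f hf
  have := hL.noeth
  have h3 := Ideal.iInf_pow_eq_bot_of_isLocalRing L.mx (by
    rw [← L.maximalIdeal_eq]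
    exact Ideal.IsPrime.ne_top')
  rw [← Ideal.mem_bot, ← h3, Ideal.mem_iInf]
  intro a
  rw [← ordI_one hL b hz, ← Jet.ordI_eq_pow h1 h2, Jet.mem_ordI, hf]
  simp

end Tay

/-- **the order at a smooth point** -/
theorem exists_ord (hL : L.Fin') (b : Basis (Fin n) F Ω[F⁄ℂ]) {z : Fin n → F} (hz : L.Crd z) :
    ∃ v : Valuation F ℤᵐ⁰, (∀ f ∈ L.O, v f ≤ 1) ∧ (∀ f ∈ L.O, v f = 1 → L.v f ≠ 0) ∧
      (∀ l f, v (pd b z l f) ≤ v f * exp (1 : ℤ)) ∧
      ∀ d : ℕ, ∃ Φ : L.O →ₗ[ℂ] (Fin n → Fin d) → ℂ, ∀ f, Φ f = 0 → v f ≤ exp (-(d : ℤ)) := by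
  have := hL.frac
  let w : Valuation L.O ℤᵐ⁰ := (ordV (Fin n) ℂ).comap (tayP hL b hz : L.O →+* _)
  have hw : nonZeroDivisors L.O ≤ w.supp.primeCompl := fun f hf h0 =>
    nonZeroDivisors.ne_zero hf (tayP_injective hL b hz (by
      rw [map_zero]
      exact ordV_eq_zero h0))
  let v := w.extendToLocalization hw F
  have hv : ∀ f : L.O, v f = ordV (Fin n) ℂ (tayP hL b hz f) := fun f =>
    Valuation.extendToLocalization_apply_map_apply w hw F f
  have hj := hz.jac_ne hL b
  have h1 : ∀ l, ∀ f ∈ L.O, v (pd b z l f) ≤ v f * exp (1 : ℤ) := fun l f hf => by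
    rw [← coe_frO hL b hz l ⟨f, hf⟩, hv, hv ⟨f, hf⟩, tayP, ← Jet.pderiv_tay]
    exact ordV_pderiv l _
  refine ⟨v, fun f hf => ?_, fun f hf h h0 => ?_, fun l f => ?_, fun d => ?_⟩
  · rw [hv ⟨f, hf⟩]
    exact (ordV_le_iff (d := 0)).2 (by simp)
  · have h2 : (⟨f, hf⟩ : L.O) ∈ Jet.ordI (tayP hL b hz) 1 := by rwa [ordI_one]
    have h3 := (ordV_le_iff (d := 1)).2 h2
    rw [← hv, h, ← exp_zero, exp_le_exp] at h3
    simp at h3
  · obtain ⟨a, c, hc, rfl⟩ := IsFractionRing.div_surjective (A := L.O) f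
    have hc0 : (c : F) ≠ 0 := fun h => nonZeroDivisors.ne_zero hc (Subtype.ext h)
    have hv0 : 0 < v c := zero_lt_iff.2 ((Valuation.ne_zero_iff _).2 hc0)
    change v (pd b z l ((a : F) / c)) ≤ v ((a : F) / c) * _
    have h2 := pd_mul hj l ((a : F) / c) c
    rw [div_mul_cancel₀ _ hc0] at h2
    have h3 : pd b z l ((a : F) / c) = (pd b z l a - (a : F) / c * pd b z l c) / c := by
      rw [h2]
      field_simp
      ring
    rw [h3, map_div₀, div_le_iff₀ hv0]
    refine v.map_sub_le ?_ ?_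
    · rw [mul_right_comm, ← map_mul, div_mul_cancel₀ _ hc0]
      exact h1 l a a.2
    · rw [map_mul, mul_right_comm, mul_assoc]
      exact mul_le_mul_right (h1 l c c.2) _
  · refine ⟨LinearMap.pi fun β => (MvPowerSeries.coeff
      (Finsupp.equivFunOnFinite.symm fun l => (β l : ℕ))).comp (tayP hL b hz).toLinearMap,
      fun f hf => ?_⟩
    rw [hv, ordV_le_iff, Jet.le_order_iff]
    intro β hβ
    have h2 := congrFun hf fun l => ⟨β l, (Finsupp.le_degree l β).trans_lt hβ⟩
    simpa using h2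

end Crest.Agent.X262.FG.Pt
end
end

-- ▼ part X262/FG/Pt1

/-!
# Row 262, FG (helper59): very general points and the order at a point

* `vgStmt : VGStmt`, `ptStmt n : PtStmt n`.
-/

set_option autoImplicit false

open WithZero
open scoped KaehlerDifferential

noncomputable section

namespace Crest.Agent.X262.FG

open Crest.Agent.X277 Crest.Agent.X277.Lef Crest.Agent.X277.AN.G1 Crest.Agent.X277.BD
open Crest.Agent.X277.BD.Br (At oP kP)
open Crest.Agent.X277.Res.Log (Bd)
open Crest.Agent.X277.Cns (Ov)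

/-- **very general points** -/
theorem vgStmt : VGStmt := fun _ _ _ P f hf => by
  obtain ⟨x, hx⟩ := (dense_iInter_of_isOpen (fun i => isOpen_ev_ne (P := P) (f i))
    fun i => dense_ne P (hf i)).nonempty
  exact ⟨x, Set.mem_iInter.1 hx⟩

namespace Pt

variable {F : Type} [Field F] [Algebra ℂ F] {n : ℕ} {v : Valuation F ℤᵐ⁰}
  {hv : ∀ c : ℂ, v (algebraMap ℂ F c) ≤ 1}

theorem exp_ord_at {P : PModel ℂ F} {x : Pts P} {a : BD ℂ F} {g : F} (h : At a x g)
    (hx : Ov x (rz v hv).1) : exp (ord v hv a) = v g :=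
  (exp_ord a).trans (vl_eq (h _ hx))

omit [Algebra ℂ F] in
theorem v_det_le {M : Matrix (Fin n) (Fin n) F} {γ : Fin n → ℤᵐ⁰} (h : ∀ l m, v (M l m) ≤ γ m) :
    v M.det ≤ ∏ m, γ m := by
  rw [Matrix.det_apply']
  refine v.map_sum_le fun σ _ => ?_
  rw [map_mul, map_prod]
  refine mul_le_of_le_one_of_le ?_ (Finset.prod_le_prod' fun m _ => h _ m)
  rcases Int.units_eq_one_or (Equiv.Perm.sign σ) with h1 | h1 <;> simp [h1]

theorem prod_le_mon {Q : PModel ℂ F} (C : Bd Q n) {y : Pts Q} (hy : Ov y (rz v hv).1) :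
    ∃ t : Fin n → F, (lp y).Crd t ∧ ∏ m, v (t m) ≤ v (C.mon y 1) := by
  classical
  obtain ⟨t, σ, h1, h2, h3⟩ := C.snc y
  refine ⟨t, Res.Log.crd_of_coords h1, ?_⟩
  have h4 : C.mon y 1 = ∏ m ∈ Finset.univ.image σ, t m := by
    rw [Finset.prod_image fun _ _ _ _ h => h2 h, Bd.mon,
      ← Finset.prod_filter_mul_prod_filter_not _ fun e => Res.Log.On (C.v e) y,
      Finset.prod_eq_one (s := Finset.univ.filter fun e => ¬ Res.Log.On (C.v e) y), mul_one,
      Finset.prod_subtype (p := fun e => Res.Log.On (C.v e) y) _ (by simp)]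
    · exact Finset.prod_congr rfl fun e _ => by rw [Pi.one_apply, zpow_one, h3]
    · intro e he
      rw [C.off e y (Finset.mem_filter.1 he).2, one_zpow]
  rw [h4, map_prod]
  exact Finset.prod_le_prod_of_subset_of_le_one' (Finset.subset_univ _)
    fun m _ _ => hy _ (h1.mem m)

end Pt

open Pt in
/-- **the order at a point** -/
theorem ptStmt (n : ℕ) : PtStmt n := by
  intro F _ _ _ P b x
  obtain ⟨z, hz⟩ := exists_crd b x
  obtain ⟨v, h1, h2, h3, h4⟩ := exists_ord (lp_fin x) b hz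
  have hv : ∀ c : ℂ, v (algebraMap ℂ F c) ≤ 1 := fun c => h1 _ (algebraMap_mem _ c)
  have hx : Ov x (rz v hv).1 := h1
  refine ⟨v, hv, fun a g d hg hd => ?_, fun Q C hQ => ?_⟩
  · obtain ⟨Φ, hΦ⟩ := h4 d
    let Ψ : a.Sec →ₗ[ℂ] (lp x).O :=
      { toFun := fun s => ⟨s / g, hg.div_mem s.2⟩
        map_add' := fun s t => Subtype.ext (add_div _ _ _)
        map_smul' := fun c s => Subtype.ext (smul_div_assoc c (s : F) g) }
    have := Module.finite_of_finrank_pos (Nat.zero_lt_of_lt hd)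
    obtain ⟨s, hs, hs0⟩ := (Submodule.ne_bot_iff _).1 (LinearMap.ker_ne_bot_of_finrank_lt
      (f := Φ.comp Ψ) (by simpa using hd))
    have h5 : (s : F) ≠ 0 := fun h => hs0 (Subtype.ext h)
    refine ⟨s, s.2, h5, ?_⟩
    have h6 : v (s / g) ≤ exp (-(d : ℤ)) := hΦ (Ψ s) hs
    have h7 := exp_ord_at (hg.neg.add (Br.at_pr x h5)) hx
    rw [inv_mul_eq_div] at h7
    rw [← h7, exp_le_exp, neg_add_eq_sub, ← neg_sub a, map_neg] at h6
    exact neg_le_neg_iff.1 h6
  · obtain ⟨y, hy⟩ := Br.exists_ov' Q (rz v hv)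
    refine ⟨?_, fun e c hc h0 f hf => ?_⟩
    · obtain ⟨t, ht, h5⟩ := prod_le_mon C hy
      have h6 := exp_ord_at ((Br.at_kP b ht).add (at_dvs C 1 y)) hy
      have h7 := exp_ord_at (Br.at_kP b hz) hx
      have h8 : 0 < v (C.mon y 1) := zero_lt_iff.2 ((Valuation.ne_zero_iff _).2 (C.mon_ne y 1))
      rw [← exp_le_exp, h6, exp_add, h7, map_mul, map_inv₀, mul_inv_le_iff₀ h8,
        jac_eq_det (hz.jac_ne (lp_fin x) b) t, map_mul, mul_assoc]
      refine mul_le_mul_right ((v_det_le fun l m => h3 l (t m)).trans ?_) _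
      rw [Finset.prod_mul_distrib, Finset.prod_const, mul_comm, ← exp_nsmul]
      have h9 : (Finset.univ : Finset (Fin n)).card • (1 : ℤ) = n := by simp
      rw [h9]
      exact mul_le_mul_right h5 _
    · have h5 : Res.Log.On (C.v e) y := by
        by_contra h5
        refine h0 ?_
        have h6 := exp_ord_at (at_dvs C c y) hy
        rwa [Bd.mon_congr (m' := 0) fun e' he' => hc e' fun h => h5 (h ▸ he'), Bd.mon_zero,
          inv_one, map_one, ← exp_zero, exp_inj] at h6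
      rw [← pb_id (oP P)] at hQ
      have h6 := Br.morOf_p _ hQ
      have h7 : (Br.morOf _ hQ).map y = x := Cns.eq_of_ov (hy.cm h6) hx fun g hg hu =>
        h2 g hg (((v_rz_eq_iff v hv (x := g) (y := 1)).1
          (by rw [map_one]; exact Cns.un_iff_val.1 hu)).trans (map_one v))
      rw [← h7] at hf
      refine h5.v_un (Res.Log.un_iff.2 ?_)
      rwa [← Cns.hom_ev h6 (LP.mem_of_ne hf)] at hf

end Crest.Agent.X262.FG
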