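import Mathlib
import Crest.Agent.X262.Cvx.Gr0

-- ▼ part X262/FG/S4a
section

/-!
# X262/FG/S4a (helper81): a finite generation criterion for monoids of lattice points

* `dirichlet` : simultaneous approximation;
* `gen`       : a closed cone in the orthant which contains every lattice point lying slightly
                above one of its points has a finitely generated monoid of lattice points.
-/

set_option autoImplicit false

open Finset Filter Topology

namespace Crest.Agent.X262.FG.S4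

variable {ι : Type*} [Fintype ι]

/-- simultaneous Diophantine approximation -/
theorem dirichlet (x : ι → ℝ) {η : ℝ} (hη : 0 < η) :
    ∃ w : ℕ, 0 < w ∧ ∃ p : ι → ℤ, ∀ i, |(p i : ℝ) - w * x i| < η := by
  let u : ℕ → ι → ℝ := fun w i => Int.fract (w * x i)
  have hu : ∀ w, u w ∈ Set.Icc (0 : ι → ℝ) 1 := fun w =>
    ⟨fun i => Int.fract_nonneg _, fun i => (Int.fract_lt_one _).le⟩
  obtain ⟨a, -, φ, hφ, ha⟩ := isCompact_Icc.tendsto_subseq hu
  obtain ⟨N, hN⟩ := Metric.cauchySeq_iff'.1 ha.cauchySeq η hη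
  have hlt : φ N < φ (N + 1) := hφ (Nat.lt_succ_self N)
  refine ⟨φ (N + 1) - φ N, by omega, fun i => ⌊(φ (N + 1) : ℝ) * x i⌋ - ⌊(φ N : ℝ) * x i⌋,
    fun i => ?_⟩
  have h1 := (dist_le_pi_dist _ _ i).trans_lt (hN (N + 1) (Nat.le_succ N))
  rw [Real.dist_eq, abs_sub_comm] at h1
  refine lt_of_eq_of_lt (congrArg _ ?_) h1
  simp only [Function.comp, u, Int.fract]
  push_cast [Nat.cast_sub hlt.le]
  ring

/-- the real point of a lattice point -/
def cst (y : ι → ℕ) : ι → ℝ := fun i => (y i : ℝ)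

section Gen

variable {α : Type*} [Fintype α] {e : α → ι → ℤ} {Q : Set (ι → ℝ)} {ε : ℝ}

/-- the local step: far out in a direction close to `v₀` a fixed lattice point splits off -/
theorem gen_loc (h0 : ∀ v ∈ Q, ∀ i, 0 ≤ v i) (hs : ∀ v ∈ Q, ∀ t : ℝ, 0 < t → t • v ∈ Q)
    (he : ∀ v ∈ Q, ∀ a, ∑ i, (e a i : ℝ) * v i = 0) (hε : 0 < ε)
    (H : ∀ v ∈ Q, ∀ y : ι → ℕ, (∀ a, ∑ i, e a i * (y i : ℤ) = 0) → (∀ i, v i ≤ y i) →
      (∀ i, y i - v i < ε) → cst y ∈ Q) {v : ι → ℝ} (hv : v ∈ Q) (h1 : ∑ i, v i = 1) :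
    ∃ U ∈ 𝓝 v, ∃ D : ℕ, ∀ y : ι → ℕ, cst y ∈ Q → D < ∑ i, y i →
      ((∑ i, y i : ℕ) : ℝ)⁻¹ • cst y ∈ U →
        ∃ p z : ι → ℕ, cst p ∈ Q ∧ cst z ∈ Q ∧ p ≠ 0 ∧ z ≠ 0 ∧ y = p + z := by
  classical
  have hv1 : ∀ i, v i ≤ 1 := fun i =>
    h1 ▸ Finset.single_le_sum (f := v) (fun j _ => h0 v hv j) (mem_univ i)
  obtain ⟨μ, hμ, hμ1, hμv⟩ : ∃ μ : ℝ, 0 < μ ∧ μ ≤ 1 ∧ ∀ i, v i = 0 ∨ μ ≤ v i := by
    have : ∀ᶠ μ in 𝓝[>] (0 : ℝ), 0 < μ ∧ μ ≤ 1 ∧ ∀ i, v i = 0 ∨ μ ≤ v i := by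
      refine Eventually.and self_mem_nhdsWithin (Eventually.and ?_ (eventually_all.2 fun i => ?_))
      · exact nhdsWithin_le_nhds (Iic_mem_nhds one_pos)
      · rcases (h0 v hv i).eq_or_lt with h | h
        · exact Eventually.of_forall fun _ => Or.inl h.symm
        · exact nhdsWithin_le_nhds ((mem_of_superset (Iic_mem_nhds h)) fun _ hx => Or.inr hx)
    exact this.exists
  obtain ⟨θ, hθ, hθ1, hθε⟩ : ∃ θ : ℝ, 0 < θ ∧ θ ≤ 1 / 2 ∧ θ ≤ ε / 4 :=
    ⟨min (1 / 2) (ε / 4), by positivity, min_le_left _ _, min_le_right _ _⟩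
  set C : ℝ := ∑ a, ∑ i, |(e a i : ℝ)| with hC
  have hC0 : 0 ≤ C := by positivity
  obtain ⟨η, hη, hη1, hη2⟩ : ∃ η : ℝ, 0 < η ∧ η ≤ θ * μ / 2 ∧ η * (C + 1) ≤ 1 := by
    refine ⟨min (θ * μ / 2) (1 / (C + 1)), by positivity, min_le_left _ _, ?_⟩
    exact (le_div_iff₀ (by positivity)).1 (min_le_right _ _)
  have hθμ : θ * μ ≤ θ := mul_le_of_le_one_right hθ.le hμ1
  obtain ⟨w, hw, p', hp'⟩ := dirichlet v hη
  have hw1 : (1 : ℝ) ≤ w := by exact_mod_cast hw
  have hz : ∀ i, v i = 0 → p' i = 0 := fun i hi => by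
    have h2 := hp' i
    rw [hi, mul_zero, sub_zero] at h2
    have h3 : |(p' i : ℝ)| < 1 := by linarith
    have h4 : |p' i| < 1 := by exact_mod_cast h3
    exact Int.abs_lt_one_iff.1 h4
  have hpos : ∀ i, μ ≤ v i → 0 < p' i := fun i hi => by
    have h2 := (abs_lt.1 (hp' i)).1
    have h3 : v i ≤ w * v i := le_mul_of_one_le_left (h0 v hv i) hw1
    have h4 : θ * μ ≤ μ := mul_le_of_le_one_left hμ.le (by linarith)
    have h5 : (0 : ℝ) < p' i := by linarith
    exact_mod_cast h5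
  have hnn : ∀ i, 0 ≤ p' i := fun i => (hμv i).elim (fun h => (hz i h).ge) fun h => (hpos i h).le
  obtain ⟨p, hp⟩ : ∃ p : ι → ℕ, ∀ i, (p i : ℤ) = p' i :=
    ⟨fun i => (p' i).toNat, fun i => Int.toNat_of_nonneg (hnn i)⟩
  have hpr : ∀ i, (p i : ℝ) = p' i := fun i => by rw [← hp i]; simp
  have hpe : ∀ a, ∑ i, e a i * (p i : ℤ) = 0 := fun a => by
    have h2 : ((∑ i, e a i * (p i : ℤ) : ℤ) : ℝ) = ∑ i, (e a i : ℝ) * (p' i - w * v i) := by
      have h3 := he v hv a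
      simp only [mul_sub, sum_sub_distrib]
      have h4 : ∑ i, (e a i : ℝ) * (w * v i) = w * ∑ i, (e a i : ℝ) * v i := by
        rw [mul_sum]; exact sum_congr rfl fun i _ => by ring
      rw [h4, h3, mul_zero, sub_zero]
      push_cast
      exact sum_congr rfl fun i _ => by rw [hpr]
    have h3 : |∑ i, (e a i : ℝ) * (p' i - w * v i)| ≤ η * C := by
      refine (abs_sum_le_sum_abs _ _).trans ?_
      have h4 : ∑ i, |(e a i : ℝ)| ≤ C :=
        Finset.single_le_sum (f := fun a => ∑ i, |(e a i : ℝ)|) (fun _ _ => by positivity)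
          (mem_univ a)
      refine le_trans ?_ (mul_le_mul_of_nonneg_left h4 hη.le)
      rw [mul_sum]
      refine sum_le_sum fun i _ => ?_
      rw [abs_mul, mul_comm]
      exact mul_le_mul_of_nonneg_right (hp' i).le (abs_nonneg _)
    rw [← h2] at h3
    have h4 : |((∑ i, e a i * (p i : ℤ) : ℤ) : ℝ)| < 1 := by nlinarith
    have h5 : |∑ i, e a i * (p i : ℤ)| < 1 := by exact_mod_cast h4
    exact Int.abs_lt_one_iff.1 h5
  have hpQ : cst p ∈ Q := by
    refine H (((w : ℝ) - θ) • v) (hs v hv _ (by linarith)) p hpe (fun i => ?_) fun i => ?_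
    · simp only [Pi.smul_apply, smul_eq_mul, hpr]
      rcases hμv i with h | h
      · simp [h, hz i h]
      · have h2 := (abs_lt.1 (hp' i)).1
        have h3 : θ * μ ≤ θ * v i := mul_le_mul_of_nonneg_left h hθ.le
        nlinarith
    · simp only [Pi.smul_apply, smul_eq_mul, hpr]
      have h2 := (abs_lt.1 (hp' i)).2
      have h3 : θ * v i ≤ θ := mul_le_of_le_one_right hθ.le (hv1 i)
      nlinarith
  have hp0 : p ≠ 0 := by
    intro h
    have h2 : ∀ i, v i = 0 := fun i => (hμv i).resolve_right fun hi => by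
      have := hpos i hi
      rw [← hp i, h] at this
      simp at this
    simp [h2] at h1
  obtain ⟨ρ, hρ, hρ1, hρ2⟩ : ∃ ρ : ℝ, 0 < ρ ∧ ρ ≤ μ / 2 ∧ ρ * (w + θ) ≤ η := by
    refine ⟨min (μ / 2) (η / (w + θ)), by positivity, min_le_left _ _, ?_⟩
    exact (le_div_iff₀ (by positivity)).1 (min_le_right _ _)
  obtain ⟨D, hD⟩ := exists_nat_ge (2 * (∑ i, (p i : ℝ)) / μ + (w + θ) + ∑ i, (p i : ℝ))
  refine ⟨Metric.ball v ρ, Metric.ball_mem_nhds v hρ, D, fun y hy hyD hyU => ?_⟩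
  set s : ℝ := ((∑ i, y i : ℕ) : ℝ) with hsdef
  have hsp : 0 ≤ ∑ i, (p i : ℝ) := by positivity
  have hsD : (D : ℝ) < s := by rw [hsdef]; exact_mod_cast hyD
  have hq : 0 ≤ 2 * (∑ i, (p i : ℝ)) / μ := by positivity
  have hs1 : (w : ℝ) + θ < s := by linarith
  have hs0 : 0 < s := by linarith
  have hs2 : 2 * (∑ i, (p i : ℝ)) ≤ s * μ := (div_le_iff₀ hμ).1 (by linarith)
  have hu : ∀ i, |s⁻¹ * y i - v i| < ρ := fun i => by
    have h2 := (dist_le_pi_dist _ _ i).trans_lt (Metric.mem_ball.1 hyU)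
    rwa [Real.dist_eq] at h2
  have hle : ∀ i, p i ≤ y i := fun i => by
    rcases hμv i with h | h
    · have : (p i : ℤ) = 0 := by rw [hp i, hz i h]
      omega
    · have h2 := (abs_lt.1 (hu i)).1
      have h3 : μ / 2 ≤ s⁻¹ * y i := by linarith
      have h4 : s * (μ / 2) ≤ y i := by
        have := mul_le_mul_of_nonneg_left h3 hs0.le
        rwa [← mul_assoc, mul_inv_cancel₀ hs0.ne', one_mul] at this
      have h5 : (p i : ℝ) ≤ ∑ i, (p i : ℝ) :=
        Finset.single_le_sum (f := fun i => (p i : ℝ)) (fun _ _ => by positivity) (mem_univ i)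
      have h6 : (p i : ℝ) ≤ y i := by linarith
      exact_mod_cast h6
  have hye : ∀ a, ∑ i, e a i * (y i : ℤ) = 0 := fun a => by
    have h2 := he _ hy a
    simp only [cst] at h2
    exact_mod_cast h2
  have hzr : ∀ i, ((y i - p i : ℕ) : ℝ) - ((1 - (w + θ) * s⁻¹) • cst y) i =
      (w + θ) * (s⁻¹ * y i) - p' i := fun i => by
    simp only [Pi.smul_apply, smul_eq_mul, cst, Nat.cast_sub (hle i), hpr]
    ring
  have hwθ : (0 : ℝ) < w + θ := by linarith
  have hab : ∀ i, |(w + θ) * (s⁻¹ * y i) - (w + θ) * v i| ≤ η := fun i => by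
    rw [← mul_sub, abs_mul, abs_of_pos hwθ]
    nlinarith [hu i]
  refine ⟨p, fun i => y i - p i, hpQ, ?_, hp0, ?_, ?_⟩
  · refine H ((1 - (w + θ) * s⁻¹) • cst y) (hs _ hy _ ?_) _ (fun a => ?_) (fun i => ?_) fun i => ?_
    · rw [sub_pos, ← div_eq_mul_inv, div_lt_one hs0]
      exact hs1
    · simp only [Nat.cast_sub (hle _), mul_sub, sum_sub_distrib, hye a, hpe a, sub_zero]
    · rw [← sub_nonneg, hzr]
      rcases hμv i with h | h
      · rw [hz i h]
        simp only [Int.cast_zero, sub_zero]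
        positivity
      · have h2 := (abs_le.1 (hab i)).1
        have h3 := (abs_lt.1 (hp' i)).2
        have h4 : θ * μ ≤ θ * v i := mul_le_mul_of_nonneg_left h hθ.le
        nlinarith
    · rw [hzr]
      have h2 := (abs_le.1 (hab i)).2
      have h3 := (abs_lt.1 (hp' i)).1
      have h4 : θ * v i ≤ θ := mul_le_of_le_one_right hθ.le (hv1 i)
      nlinarith
  · intro h
    have h2 : ∑ i, y i ≤ ∑ i, p i := sum_le_sum fun i _ => by
      have := congrFun h i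
      simp only [Pi.zero_apply] at this
      omega
    have h3 : s ≤ ∑ i, (p i : ℝ) := by rw [hsdef]; exact_mod_cast h2
    linarith
  · funext i
    have := hle i
    simp only [Pi.add_apply]
    omega

/-- **the generation lemma** -/
theorem gen (hc : IsClosed Q) (h0 : ∀ v ∈ Q, ∀ i, 0 ≤ v i)
    (hs : ∀ v ∈ Q, ∀ t : ℝ, 0 < t → t • v ∈ Q)
    (he : ∀ v ∈ Q, ∀ a, ∑ i, (e a i : ℝ) * v i = 0) (hε : 0 < ε)
    (H : ∀ v ∈ Q, ∀ y : ι → ℕ, (∀ a, ∑ i, e a i * (y i : ℤ) = 0) → (∀ i, v i ≤ y i) →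
      (∀ i, y i - v i < ε) → cst y ∈ Q) :
    ∃ G : Finset (ι → ℕ), (∀ g ∈ G, cst g ∈ Q) ∧
      ∀ y : ι → ℕ, cst y ∈ Q → y ∈ AddSubmonoid.closure (G : Set (ι → ℕ)) := by
  classical
  have hK : IsCompact (Q ∩ stdSimplex ℝ ι) := (isCompact_stdSimplex ℝ ι).inter_left hc
  obtain ⟨D, hD⟩ : ∃ D : ℕ, ∀ y : ι → ℕ, cst y ∈ Q → D < ∑ i, y i →
      ((∑ i, y i : ℕ) : ℝ)⁻¹ • cst y ∈ Q ∩ stdSimplex ℝ ι →
        ∃ p z : ι → ℕ, cst p ∈ Q ∧ cst z ∈ Q ∧ p ≠ 0 ∧ z ≠ 0 ∧ y = p + z := by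
    refine hK.induction_on (p := fun U => ∃ D : ℕ, ∀ y : ι → ℕ, cst y ∈ Q → D < ∑ i, y i →
      ((∑ i, y i : ℕ) : ℝ)⁻¹ • cst y ∈ U →
        ∃ p z : ι → ℕ, cst p ∈ Q ∧ cst z ∈ Q ∧ p ≠ 0 ∧ z ≠ 0 ∧ y = p + z) ?_ ?_ ?_ ?_
    · exact ⟨0, fun _ _ _ h => h.elim⟩
    · rintro s t hst ⟨D, hD⟩
      exact ⟨D, fun y h1 h2 h3 => hD y h1 h2 (hst h3)⟩
    · rintro s t ⟨D, hD⟩ ⟨D', hD'⟩
      refine ⟨max D D', fun y h1 h2 h3 => h3.elim (hD y h1 ?_) (hD' y h1 ?_)⟩
      · exact (le_max_left _ _).trans_lt h2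
      · exact (le_max_right _ _).trans_lt h2
    · intro v hv
      obtain ⟨U, hU, h⟩ := gen_loc h0 hs he hε H hv.1 hv.2.2
      exact ⟨U, nhdsWithin_le_nhds hU, h⟩
  have hfin : {y : ι → ℕ | cst y ∈ Q ∧ ∑ i, y i ≤ D}.Finite := by
    refine (Set.finite_Iic (fun _ => D : ι → ℕ)).subset fun y hy i => ?_
    exact (Finset.single_le_sum (f := y) (fun _ _ => Nat.zero_le _) (mem_univ i)).trans hy.2
  refine ⟨hfin.toFinset, fun g hg => (hfin.mem_toFinset.1 hg).1, fun y hy => ?_⟩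
  induction hn : ∑ i, y i using Nat.strong_induction_on generalizing y with
  | _ n ih =>
    by_cases hyD : ∑ i, y i ≤ D
    · exact AddSubmonoid.subset_closure (by simpa using ⟨hy, hyD⟩)
    push Not at hyD
    have hs0 : (0 : ℝ) < ((∑ i, y i : ℕ) : ℝ) := by exact_mod_cast (Nat.zero_le D).trans_lt hyD
    obtain ⟨p, z, hp, hz, hp0, hz0, rfl⟩ := hD y hy hyD ⟨hs _ hy _ (inv_pos.2 hs0), fun i => by
      simp only [Pi.smul_apply, smul_eq_mul, cst]; positivity, by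
      simp only [Pi.smul_apply, smul_eq_mul, cst, ← mul_sum]
      rw [← Nat.cast_sum, inv_mul_cancel₀ hs0.ne']⟩
    have hpos : ∀ x : ι → ℕ, x ≠ 0 → 0 < ∑ i, x i := fun x hx => by
      obtain ⟨i, hi⟩ := Function.ne_iff.1 hx
      exact (Nat.pos_of_ne_zero hi).trans_le
        (Finset.single_le_sum (f := x) (fun _ _ => Nat.zero_le _) (mem_univ i))
    have h1 := hpos p hp0
    have h2 := hpos z hz0
    simp only [Pi.add_apply, sum_add_distrib] at hn
    exact AddSubmonoid.add_mem _ (ih _ (by omega) p hp rfl) (ih _ (by omega) z hz rfl)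

end Gen

end Crest.Agent.X262.FG.S4
end

-- ▼ part X262/FG/S4b

/-!
# X262/FG/S4b (helper81): tools for the restricted ring

* `gen'`       : the generation lemma with integral linear forms;
* `exists_max` : general elements of a subspace;
* `exists_mon`, `v_prod_le`, `v_prod_eq`, `v_eq_of_prod` : values of monomials.
-/

set_option autoImplicit false

open Finset Filter Topology WithZero

namespace Crest.Agent.X262.FG.S4

open Crest.Agent.X262.Cvx

/-- `gen` with equations given by integral linear forms -/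
theorem gen' {ι α : Type*} [Fintype ι] [Fintype α] (l : α → (ι → ℝ) →ₗ[ℝ] ℝ)
    (hl : ∀ a y, ∃ z : ℤ, l a (cst y) = z) {Q : Set (ι → ℝ)} {ε : ℝ} (hc : IsClosed Q)
    (h0 : ∀ v ∈ Q, ∀ i, 0 ≤ v i) (hs : ∀ v ∈ Q, ∀ t : ℝ, 0 < t → t • v ∈ Q)
    (he : ∀ v ∈ Q, ∀ a, l a v = 0) (hε : 0 < ε)
    (H : ∀ v ∈ Q, ∀ y : ι → ℕ, (∀ a, l a (cst y) = 0) → (∀ i, v i ≤ y i) →
      (∀ i, y i - v i < ε) → cst y ∈ Q) :
    ∃ G : Finset (ι → ℕ), (∀ g ∈ G, cst g ∈ Q) ∧
      ∀ y : ι → ℕ, cst y ∈ Q → y ∈ AddSubmonoid.closure (G : Set (ι → ℕ)) := by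
  classical
  choose e hz using fun a i => hl a (Pi.single i 1)
  have key : ∀ a (v : ι → ℝ), l a v = ∑ i, (e a i : ℝ) * v i := fun a v => by
    rw [LinearMap.pi_apply_eq_sum_univ]
    refine sum_congr rfl fun i _ => ?_
    rw [smul_eq_mul, mul_comm, ← hz a i]
    congr 2
    funext j
    simp only [cst, Pi.single_apply]
    split_ifs with h1 h2 h2
    · simp
    · exact (h2 h1.symm).elim
    · exact (h1 h2.symm).elim
    · simp
  refine gen (e := e) hc h0 hs (fun v hv a => key a v ▸ he v hv a) hε fun v hv y hy => H v hv y ?_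
  intro a
  rw [key]
  simp only [cst]
  exact_mod_cast hy a

section Val

variable {k E : Type*} [Field k] [Field E] [Algebra k E]

theorem v_smul_le {v : Valuation E ℤᵐ⁰} (hv : ∀ c : k, v (algebraMap k E c) ≤ 1) (c : k) (x : E) :
    v (c • x) ≤ v x := by
  rw [Algebra.smul_def, map_mul]
  exact mul_le_of_le_one_left' (hv c)

/-- elements of small value -/
def ltS (v : Valuation E ℤᵐ⁰) (hv : ∀ c : k, v (algebraMap k E c) ≤ 1) (γ : ℤ) : Submodule k E where
  carrier := {x | v x < exp γ}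
  zero_mem' := by simp
  add_mem' h h' := v.map_add_lt h h'
  smul_mem' c x h := (v_smul_le hv c x).trans_lt h

/-- a bounded family of valuations is maximal at one element of a subspace -/
theorem exists_max [Infinite k] {J : Type*} [Fintype J] {v : J → Valuation E ℤᵐ⁰}
    (hv : ∀ j (c : k), v j (algebraMap k E c) ≤ 1) (W : Submodule k E) (hW : W ≠ ⊥) (t : J → ℤ)
    (ht : ∀ j, ∀ s ∈ W, v j s ≤ exp (t j)) :
    ∃ s ∈ W, s ≠ 0 ∧ ∀ j, ∀ s' ∈ W, v j s' ≤ v j s := by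
  classical
  obtain ⟨s0, hs0, h0⟩ := (Submodule.ne_bot_iff W).1 hW
  have h1 : ∀ j, ∃ m : ℤ, (∃ s ∈ W, v j s = exp m) ∧ ∀ s' ∈ W, v j s' ≤ exp m := fun j => by
    obtain ⟨m, hm, hm'⟩ := Int.exists_greatest_of_bdd (P := fun m => ∃ s ∈ W, v j s = exp m)
      ⟨t j, fun z ⟨s, hs, h⟩ => exp_le_exp.1 (h ▸ ht j s hs)⟩
      ⟨log (v j s0), s0, hs0, (exp_log (by simpa using h0)).symm⟩
    refine ⟨m, hm, fun s' hs' => ?_⟩
    rcases eq_or_ne s' 0 with rfl | h
    · simp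
    · have h2 : v j s' = exp (log (v j s')) := (exp_log (by simpa using h)).symm
      rw [h2, exp_le_exp]
      exact hm' _ ⟨s', hs', h2⟩
  choose m hm hm' using h1
  let p : Option J → Submodule k W := fun o =>
    o.elim ⊥ fun j => (ltS (v j) (hv j) (m j)).comap W.subtype
  have hp : ∀ o, p o ≠ ⊤ := by
    rintro (_ | j) h
    · have : (⟨s0, hs0⟩ : W) ∈ p none := h ▸ Submodule.mem_top
      exact h0 (congrArg Subtype.val ((Submodule.mem_bot k).1 this))
    · obtain ⟨s, hs, h2⟩ := hm j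
      have : (⟨s, hs⟩ : W) ∈ p (some j) := h ▸ Submodule.mem_top
      have h3 : v j s < exp (m j) := this
      exact (h2 ▸ h3).false
  obtain ⟨s, hs⟩ := Submodule.exists_forall_notMem_of_forall_ne_top p hp
  refine ⟨s, s.2, fun h => hs none ((Submodule.mem_bot k).2 (Subtype.ext h)), fun j s' hs' => ?_⟩
  exact (hm' j s' hs').trans (not_lt.1 (hs (some j)))

/-- a value attained on the span of monomials is attained on a monomial -/
theorem exists_mon {Λ ι : Type*} [AddCommMonoid Λ] [Fintype ι] {d : ι → Λ} {f : ι → E} {s : Λ}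
    {x : E} (hx : x ∈ Gr.Mon k d f s) (N : Submodule k E) (hN : x ∉ N) :
    ∃ a : ι → ℕ, ∑ i, a i • d i = s ∧ ∏ i, f i ^ a i ∉ N := by
  by_contra h
  push Not at h
  exact hN (Gr.Mon_le h hx)

theorem v_prod_le {ι : Type*} (t : Finset ι) (v : Valuation E ℤᵐ⁰) {f : ι → E} {n : ι → ℤ}
    (h : ∀ i, v (f i) ≤ exp (n i)) (a : ι → ℕ) :
    v (∏ i ∈ t, f i ^ a i) ≤ exp (∑ i ∈ t, a i * n i) := by
  classical
  induction t using Finset.induction_on with
  | empty => simp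
  | insert i t hi ih =>
    rw [prod_insert hi, sum_insert hi, map_mul, exp_add, map_pow, ← nsmul_eq_mul, exp_nsmul]
    exact mul_le_mul' (pow_le_pow_left' (h i) _) ih

theorem v_prod_eq {ι : Type*} (t : Finset ι) (v : Valuation E ℤᵐ⁰) {f : ι → E} {n : ι → ℤ}
    (a : ι → ℕ) (h : ∀ i, a i ≠ 0 → v (f i) = exp (n i)) :
    v (∏ i ∈ t, f i ^ a i) = exp (∑ i ∈ t, a i * n i) := by
  classical
  induction t using Finset.induction_on with
  | empty => simp
  | insert i t hi ih =>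
    rw [prod_insert hi, sum_insert hi, map_mul, exp_add, map_pow, ← nsmul_eq_mul, exp_nsmul, ih]
    rcases eq_or_ne (a i) 0 with h0 | h0
    · simp [h0]
    · rw [h i h0]

/-- if a monomial attains the bound then every factor does -/
theorem v_eq_of_prod {ι : Type*} [Fintype ι] (v : Valuation E ℤᵐ⁰) {f : ι → E} {n : ι → ℤ}
    (h : ∀ i, v (f i) ≤ exp (n i)) {a : ι → ℕ}
    (ha : exp (∑ i, a i * n i) ≤ v (∏ i, f i ^ a i)) {i : ι} (hi : a i ≠ 0) :
    v (f i) = exp (n i) := by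
  classical
  by_contra hne
  have h1 : v (f i) ≤ exp (n i - 1) := by
    have h2 := lt_of_le_of_ne (h i) hne
    rcases eq_or_ne (v (f i)) 0 with h0 | h0
    · simp [h0]
    · rw [← exp_log h0, exp_lt_exp] at h2
      rw [← exp_log h0, exp_le_exp]
      omega
  have h2 := v_prod_le univ v (f := f) (n := fun i' => n i' - if i' = i then 1 else 0)
    (fun i' => by
      split_ifs with h3
      · exact h3 ▸ h1
      · simpa using h i') a
  have h3 := exp_le_exp.1 (ha.trans h2)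
  simp only [mul_sub, sum_sub_distrib, mul_ite, mul_one, mul_zero, sum_ite_eq', mem_univ,
    if_true] at h3
  omega

end Val

end Crest.Agent.X262.FG.S4
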