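import Crest.Agent.X262.Cvx.Cone1
import Crest.Agent.X262.FG.Basic
import Crest.Agent.X277.BD.Vol
import Crest.Agent.X262.FG.NvDefs

-- ▼ part X262/FG/Sig0
section

/-!
# Row 262, FG, section 5 (helper29): linear algebra and convexity

* `exists_int` : a real vector is a positive combination of integral vectors with the same signs
  which satisfy the same integral linear relations;
* `hoff`       : bounded coefficients in a finitely generated cone;
* `fin_gen`    : a closed convex cone which is locally conical is finitely generated;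
* `first_time` : the first time at which one of finitely many affine functions reaches one.
-/

set_option autoImplicit false

open Finset

noncomputable section

namespace Crest.Agent.X262.FG.Sg

open Crest.Agent.X262.Cvx

/-! ### rational approximation which keeps the relations -/

theorem exists_rat {I : Type} [Fintype I] (r : I → ℝ) {ε : ℝ} (hε : 0 < ε) :
    ∃ (J : Type) (_ : Fintype J) (t : J → ℝ) (ρ : J → ℝ →ₗ[ℚ] ℚ), (∀ j, 0 < t j) ∧
      (∀ j i, |(ρ j (r i) : ℝ) - r i| < ε) ∧ ∀ i, ∑ j, t j * ρ j (r i) = r i := by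
  classical
  let b := Module.Basis.ofVectorSpace ℚ ℝ
  let s := univ.biUnion fun i => (b.repr (r i)).support
  have hr : ∀ i, r i = ∑ l : s, (b.repr (r i) l : ℝ) * b l := fun i => by
    rw [sum_coe_sort s fun l => (b.repr (r i) l : ℝ) * b l]
    conv_lhs => rw [← b.linearCombination_repr (r i), Finsupp.linearCombination_apply]
    rw [Finsupp.sum_of_support_subset _ (subset_biUnion_of_mem (fun i => (b.repr (r i)).support) (mem_univ i)) _ (by simp)]
    exact sum_congr rfl fun l _ => Rat.smul_def _ _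
  let K : ℝ := 1 + ∑ i, ∑ l : s, |(b.repr (r i) l : ℝ)|
  have hK : ∀ i, ∑ l : s, |(b.repr (r i) l : ℝ)| < K := fun i =>
    (single_le_sum (f := fun i => ∑ l : s, |(b.repr (r i) l : ℝ)|)
      (fun _ _ => sum_nonneg fun _ _ => abs_nonneg _) (mem_univ i)).trans_lt (lt_one_add _)
  have hK0 : 0 < K := add_pos_of_pos_of_nonneg one_pos
    (sum_nonneg fun _ _ => sum_nonneg fun _ _ => abs_nonneg _)
  obtain ⟨δ, hδ0, hδ⟩ := exists_rat_btwn (div_pos hε hK0)
  have hc : (0 : ℝ) < Fintype.card s + 1 := by positivity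
  have hl : ∀ l : s, ∃ q : ℚ, (b l : ℝ) - δ / (Fintype.card s + 1) < q ∧ (q : ℝ) < b l :=
    fun l => exists_rat_btwn (sub_lt_self _ (div_pos hδ0 hc))
  choose q hq1 hq2 using hl
  have hq3 : ∀ l : s, (b l : ℝ) - q l < δ := fun l => by
    have : (δ : ℝ) / (Fintype.card s + 1) ≤ δ := div_le_self hδ0.le (by simp)
    linarith [hq1 l]
  let w : Option s → s → ℚ := fun j l => q l + if j = some l then δ else 0
  let ρ : Option s → ℝ →ₗ[ℚ] ℚ := fun j => b.constr ℚ fun l => if h : l ∈ s then w j ⟨l, h⟩ else 0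
  have hρ : ∀ j i, (ρ j (r i) : ℝ) = ∑ l : s, (b.repr (r i) l : ℝ) * w j l := fun j i => by
    have h1 : r i = ∑ l : s, b.repr (r i) l • b l := by
      conv_lhs => rw [hr i]
      simp [Rat.smul_def]
    conv_lhs => rw [h1]
    rw [map_sum, Rat.cast_sum]
    refine sum_congr rfl fun l _ => ?_
    rw [map_smul, Module.Basis.constr_basis, dif_pos l.2, smul_eq_mul, Rat.cast_mul]
  let t : Option s → ℝ := fun j => j.elim (1 - ∑ l : s, (b l - q l) / δ) fun l => (b l - q l) / δ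
  have ht1 : ∑ j, t j = 1 := by simp [t, Fintype.sum_option]
  have htw : ∀ l : s, ∑ j, t j * w j l = b l := fun l => by
    have h1 : ∀ j, t j * w j l = t j * q l + if j = some l then t j * δ else 0 := fun j => by
      simp only [w]
      split_ifs <;> push_cast <;> ring
    rw [sum_congr rfl fun j _ => h1 j, sum_add_distrib, ← sum_mul, ht1, sum_ite_eq' univ (some l)]
    simp only [mem_univ, if_true, t, Option.elim]
    field_simp
    ring
  refine ⟨Option s, inferInstance, t, ρ, fun j => ?_, fun j i => ?_, fun i => ?_⟩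
  · cases j with
    | none =>
      have h1 : ∑ l : s, ((b l : ℝ) - q l) / δ ≤ ∑ _l : s, 1 / ((Fintype.card s : ℝ) + 1) :=
        sum_le_sum fun l _ => by
          rw [div_le_iff₀ hδ0, one_div, ← div_eq_inv_mul]
          linarith [hq1 l]
      rw [sum_const, card_univ, nsmul_eq_mul, mul_one_div] at h1
      have h2 : (Fintype.card s : ℝ) / (Fintype.card s + 1) < 1 := (div_lt_one hc).2 (lt_add_one _)
      simp only [t, Option.elim]
      linarith
    | some l => exact div_pos (sub_pos.2 (hq2 l)) hδ0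
  · have h1 : (ρ j (r i) : ℝ) - r i = ∑ l : s, (b.repr (r i) l : ℝ) * (w j l - b l) := by
      rw [hρ]
      conv_lhs => rw [hr i]
      simp only [← hr i, mul_sub, sum_sub_distrib]
    have h2 : ∀ l : s, |(w j l : ℝ) - b l| ≤ δ := fun l => by
      simp only [w]
      rw [abs_le]
      split_ifs <;> push_cast <;> constructor <;> linarith [hq2 l, hq3 l]
    rw [h1]
    calc _ ≤ ∑ l : s, |(b.repr (r i) l : ℝ)| * δ := (abs_sum_le_sum_abs _ _).trans
          (sum_le_sum fun l _ => by rw [abs_mul]; gcongr; exact h2 l)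
      _ ≤ K * δ := by rw [← sum_mul]; gcongr; exact (hK i).le
      _ < ε := by rwa [mul_comm, ← lt_div_iff₀ hK0]
  · simp only [hρ, mul_sum]
    rw [sum_comm]
    conv_rhs => rw [hr i]
    refine sum_congr rfl fun l _ => ?_
    rw [← htw l, mul_sum]
    exact sum_congr rfl fun j _ => by ring

/-- **integral points with the same relations and signs** -/
theorem exists_int {I : Type} [Fintype I] (r : I → ℝ) :
    ∃ (J : Type) (_ : Fintype J) (t : J → ℝ) (q : J → I → ℤ), (∀ j, 0 < t j) ∧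
      (∀ j i, 0 ≤ r i → 0 ≤ q j i) ∧ (∀ i, ∑ j, t j * q j i = r i) ∧
      ∀ j, ∃ ρ : ℝ →+ ℝ, ∀ i, ρ (r i) = q j i := by
  classical
  obtain ⟨ε, hε, h⟩ : ∃ ε : ℝ, 0 < ε ∧ ∀ i, 0 < r i → ε ≤ r i := by
    rcases (univ.filter fun i => 0 < r i).eq_empty_or_nonempty with h | h
    · exact ⟨1, one_pos, fun i hi => absurd (mem_filter.2 ⟨mem_univ i, hi⟩) (h ▸ notMem_empty i)⟩
    · obtain ⟨i, hi, hm⟩ := exists_min_image _ r h
      exact ⟨r i, (mem_filter.1 hi).2, fun j hj => hm j (mem_filter.2 ⟨mem_univ j, hj⟩)⟩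
  obtain ⟨J, _, t, ρ, ht, h1, h2⟩ := exists_rat r hε
  obtain ⟨D, hD, z, hz⟩ := exists_den fun p : J × I => ρ p.1 (r p.2)
  have hD' : (0 : ℝ) < D := Nat.cast_pos.2 hD
  have hz' : ∀ j i, (z (j, i) : ℝ) = D * ρ j (r i) := fun j i => by exact_mod_cast (hz (j, i)).symm
  refine ⟨J, inferInstance, fun j => t j / D, fun j i => z (j, i), fun j => div_pos (ht j) hD',
    fun j i hi => ?_, fun i => ?_, fun j => ?_⟩
  · have : (0 : ℝ) ≤ z (j, i) := by
      rw [hz']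
      refine mul_nonneg hD'.le ?_
      rcases hi.eq_or_lt with hi | hi
      · simp [← hi]
      · linarith [(abs_lt.1 (h1 j i)).1, h i hi]
    exact_mod_cast this
  · rw [← h2 i]
    refine sum_congr rfl fun j _ => ?_
    rw [hz']
    field_simp
  · refine ⟨AddMonoidHom.mk' (fun x => (D : ℝ) * ρ j x) fun x y => by simp [mul_add],
      fun i => (hz' j i).symm⟩

/-! ### bounded coefficients -/

section Hoff

variable {M : Type*} [AddCommGroup M] [Module ℝ M] {ι : Type} [Fintype ι] (v : ι → M)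

theorem exists_indep (t : ι → ℝ) (ht : ∀ i, 0 ≤ t i) : ∃ t' : ι → ℝ, (∀ i, 0 ≤ t' i) ∧
    ∑ i, t' i • v i = ∑ i, t i • v i ∧ LinearIndependent ℝ fun i : {i // t' i ≠ 0} => v i := by
  classical
  induction hn : (univ.filter fun i => t i ≠ 0).card using Nat.strong_induction_on
    generalizing t with
  | _ n ih =>
  by_cases h : LinearIndependent ℝ fun i : {i // t i ≠ 0} => v i
  · exact ⟨t, ht, rfl, h⟩
  obtain ⟨g, hg, i₀, hi₀⟩ := Fintype.not_linearIndependent_iff.1 h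
  obtain ⟨g, hg, i₀, hi₀⟩ : ∃ g : {i // t i ≠ 0} → ℝ, ∑ i, g i • v i = 0 ∧ ∃ i, 0 < g i := by
    rcases lt_or_gt_of_ne hi₀ with h | h
    · exact ⟨-g, by simp [hg], i₀, by simpa using h⟩
    · exact ⟨g, hg, i₀, h⟩
  obtain ⟨j, hj, hm⟩ := exists_min_image (univ.filter fun i => 0 < g i) (fun i => t i / g i)
    ⟨i₀, mem_filter.2 ⟨mem_univ _, hi₀⟩⟩
  have hj' := (mem_filter.1 hj).2
  let G : ι → ℝ := fun i => if h : t i ≠ 0 then g ⟨i, h⟩ else 0
  have hG : ∑ i, G i • v i = 0 := by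
    rw [← hg, ← sum_subset (subset_univ (univ.filter fun i => t i ≠ 0)) fun i _ hi => by
      simp only [G]; rw [dif_neg (by simpa using hi), zero_smul]]
    rw [sum_subtype (p := fun i => t i ≠ 0) _ (by simp)]
    exact sum_congr rfl fun i _ => by simp only [G]; rw [dif_pos i.2]
  have hc : 0 ≤ t j / g j := div_nonneg (ht j) hj'.le
  have k1 : (univ.filter fun i => t i - t j / g j * G i ≠ 0) ⊂ univ.filter fun i => t i ≠ 0 := by
    refine ⟨fun i hi => ?_, fun hs => ?_⟩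
    · refine mem_filter.2 ⟨mem_univ _, fun h0 => (mem_filter.1 hi).2 ?_⟩
      simp [G, h0]
    · refine (mem_filter.1 (hs (mem_filter.2 ⟨mem_univ j.1, j.2⟩))).2 ?_
      simp only [G]
      rw [dif_pos j.2, div_mul_cancel₀ _ hj'.ne', sub_self]
  have k2 : ∀ i, 0 ≤ t i - t j / g j * G i := fun i => by
    simp only [G]
    split_ifs with h0
    · rcases le_or_gt (g ⟨i, h0⟩) 0 with h4 | h4
      · linarith [ht i, mul_nonneg hc (neg_nonneg.2 h4)]
      · have h5 := hm ⟨i, h0⟩ (mem_filter.2 ⟨mem_univ _, h4⟩)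
        rw [le_div_iff₀ h4] at h5
        linarith
    · simp [ht i]
  obtain ⟨t', h1, h2, h3⟩ := ih _ (hn ▸ card_lt_card k1) (fun i => t i - t j / g j * G i) k2 rfl
  refine ⟨t', h1, h2.trans ?_, h3⟩
  simp only [sub_smul, mul_smul, sum_sub_distrib, ← smul_sum, hG, smul_zero, sub_zero]

/-- **bounded coefficients** -/
theorem hoff {κ : Type} [Fintype κ] (D : (κ → ℝ) →ₗ[ℝ] M) : ∃ K : ℝ, 0 < K ∧ ∀ (u : κ → ℝ)
    (t : ι → ℝ), (∀ i, 0 ≤ t i) → D u = ∑ i, t i • v i →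
    ∃ t' : ι → ℝ, (∀ i, 0 ≤ t' i ∧ t' i ≤ K * ‖u‖) ∧ D u = ∑ i, t' i • v i := by
  classical
  have h : ∀ s : Set ι, ∃ K : ℝ, 0 ≤ K ∧ ((LinearIndependent ℝ fun i : s => v i) →
      ∀ (u : κ → ℝ) (t : s → ℝ), D u = ∑ i, t i • v i → ∀ i, t i ≤ K * ‖u‖) := fun s => by
    by_cases hs : LinearIndependent ℝ fun i : s => v i
    · obtain ⟨l, hl⟩ := (Fintype.linearCombination ℝ fun i : s => v i).exists_leftInverse_of_injective
        (LinearMap.ker_eq_bot'.2 fun g hg => funext (Fintype.linearIndependent_iff.1 hs g hg))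
      let f := LinearMap.toContinuousLinearMap (l ∘ₗ D)
      refine ⟨‖f‖, norm_nonneg _, fun _ u t ht i => ?_⟩
      have h1 : f u = t := by
        change l (D u) = t
        rw [ht, ← Fintype.linearCombination_apply]
        exact LinearMap.congr_fun hl t
      exact (le_abs_self _).trans ((norm_le_pi_norm t i).trans (h1 ▸ f.le_opNorm u))
    · exact ⟨0, le_rfl, fun h => absurd h hs⟩
  choose K hK0 hK using h
  refine ⟨1 + ∑ s, K s, add_pos_of_pos_of_nonneg one_pos (sum_nonneg fun s _ => hK0 s),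
    fun u t ht hu => ?_⟩
  obtain ⟨t', h1, h2, h3⟩ := exists_indep v t ht
  refine ⟨t', fun i => ⟨h1 i, ?_⟩, hu.trans h2.symm⟩
  have h4 : K {i | t' i ≠ 0} ≤ 1 + ∑ s, K s :=
    (single_le_sum (fun s _ => hK0 s) (mem_univ _)).trans (le_add_of_nonneg_left zero_le_one)
  by_cases h0 : t' i = 0
  · rw [h0]
    exact mul_nonneg ((hK0 _).trans h4) (norm_nonneg _)
  · refine (hK {i | t' i ≠ 0} h3 u (fun i => t' i) ?_ ⟨i, h0⟩).trans (by gcongr)
    rw [hu, ← h2, ← sum_subset (subset_univ (univ.filter fun i => t' i ≠ 0)) fun i _ hi => by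
      rw [show t' i = 0 by simpa using hi, zero_smul]]
    exact sum_subtype _ (by simp) fun i => t' i • v i

end Hoff

/-! ### locally conical cones -/

/-- **finite generation from local conicity** -/
theorem fin_gen {κ : Type} [Fintype κ] {C : Set (κ → ℝ)} (hc : IsClosed C) (hv : Convex ℝ C)
    (hs : ∀ x ∈ C, ∀ c : ℝ, 0 ≤ c → c • x ∈ C) {E : Set (κ → ℕ)} (hE : ∀ d ∈ E, nc d ∈ C)
    (loc : ∀ x₀ ∈ C ∩ stdSimplex ℝ κ, ∃ δ : ℝ, 0 < δ ∧ ∀ x ∈ C ∩ stdSimplex ℝ κ,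
      ‖x - x₀‖ < δ → ∃ s : ℝ, 1 < s ∧ x₀ + s • (x - x₀) ∈ C)
    (nv : ∀ x₀ ∈ C ∩ stdSimplex ℝ κ, ∃ (J : Type) (_ : Fintype J) (t : J → ℝ) (d : J → κ → ℕ),
      (∀ j, 0 ≤ t j ∧ d j ∈ E) ∧ x₀ = ∑ j, t j • nc (d j)) :
    ∃ (N : ℕ) (d : Fin N → κ → ℕ), (∀ j, d j ∈ E) ∧
      ∀ x ∈ E, ∃ m : ℕ, 0 < m ∧ ∃ a : Fin N → ℕ, ∑ j, a j • d j = m • x := by
  classical
  set Q := C ∩ stdSimplex ℝ κ
  have hQ : IsCompact Q := (isCompact_stdSimplex ℝ κ).inter_left hc
  have hQc : Convex ℝ Q := hv.inter (convex_stdSimplex ℝ κ)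
  have iso : ∀ x₀ ∈ Q, ∃ δ : ℝ, 0 < δ ∧ ∀ x ∈ Q.extremePoints ℝ, ‖x - x₀‖ < δ → x = x₀ := by
    intro x₀ h₀
    obtain ⟨δ, hδ, h⟩ := loc x₀ h₀
    obtain ⟨ε, hε, h1⟩ : ∃ ε : ℝ, 0 < ε ∧ ∀ k, 0 < x₀ k → ε ≤ x₀ k := by
      rcases (univ.filter fun k => 0 < x₀ k).eq_empty_or_nonempty with h | h
      · exact ⟨1, one_pos, fun i hi => absurd (mem_filter.2 ⟨mem_univ i, hi⟩) (h ▸ notMem_empty i)⟩
      · obtain ⟨i, hi, hm⟩ := exists_min_image _ x₀ h
        exact ⟨x₀ i, (mem_filter.1 hi).2, fun j hj => hm j (mem_filter.2 ⟨mem_univ j, hj⟩)⟩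
    refine ⟨min δ (ε / 2), lt_min hδ (half_pos hε), fun x hx hn => ?_⟩
    obtain ⟨s, hs1, hs2⟩ := h x hx.1 (hn.trans_le (min_le_left _ _))
    let s' := min s 2
    have h2 : 1 < s' := lt_min hs1 one_lt_two
    have h3 : x₀ + s' • (x - x₀) ∈ Q := by
      refine ⟨?_, fun k => ?_, ?_⟩
      · have h4 := hv h₀.1 hs2 (a := 1 - s' / s) (b := s' / s)
          (sub_nonneg.2 ((div_le_one (by linarith)).2 (min_le_left _ _)))
          (div_nonneg (by linarith) (by linarith)) (by ring)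
        convert h4 using 1
        ext k
        simp only [Pi.add_apply, Pi.smul_apply, Pi.sub_apply, smul_eq_mul]
        field_simp
        ring
      · simp only [Pi.add_apply, Pi.smul_apply, Pi.sub_apply, smul_eq_mul]
        rcases (h₀.2.1 k).eq_or_lt with h5 | h5
        · rw [← h5]
          nlinarith [hx.1.2.1 k]
        · have h6 := (abs_le.1 ((norm_le_pi_norm (x - x₀) k).trans
            (hn.le.trans (min_le_right _ _)))).1
          rw [Pi.sub_apply] at h6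
          have h7 : s' ≤ 2 := min_le_right _ _
          nlinarith [h1 k h5]
      · simp only [Pi.add_apply, Pi.smul_apply, Pi.sub_apply, smul_eq_mul, sum_add_distrib,
          ← mul_sum, sum_sub_distrib, h₀.2.2, hx.1.2.2]
        ring
    refine (hx.2 h₀ h3 ⟨1 - 1 / s', 1 / s', ?_, by positivity, by ring, ?_⟩).symm
    · exact sub_pos.2 ((div_lt_one (by linarith)).2 h2)
    · ext k
      simp only [Pi.add_apply, Pi.smul_apply, Pi.sub_apply, smul_eq_mul]
      field_simp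
      ring
  choose! δ hδ hiso using iso
  obtain ⟨T, hT, hcov⟩ := hQ.elim_nhds_subcover (fun x => Metric.ball x (δ x))
    fun x hx => Metric.ball_mem_nhds x (hδ x hx)
  have hfin : Q.extremePoints ℝ ⊆ T := fun x hx => by
    obtain ⟨y, hy, h⟩ := Set.mem_iUnion₂.1 (hcov hx.1)
    rwa [hiso y (hT y hy) x hx (by rwa [← dist_eq_norm])]
  have hQT : Q ⊆ convexHull ℝ (T : Set (κ → ℝ)) := by
    rw [← closure_convexHull_extremePoints hQ hQc]
    exact closure_minimal (convexHull_mono hfin) (T.finite_toSet.isClosed_convexHull ℝ)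
  choose J iJ t d htd hx using fun x : T => nv x.1 (hT x.1 x.2)
  let A := Σ x : T, J x
  let e := Fintype.equivFin A
  let G : Set (κ → ℝ) := {x | ∃ u : A → ℝ, (∀ a, 0 ≤ u a) ∧
    x = ∑ a, u a • zc ℝ fun k => (d a.1 a.2 k : ℤ)}
  have hG : RCone G := rCone_of_gen fun a => isRat_zc _
  have hTG : (T : Set (κ → ℝ)) ⊆ G := fun x hxT => by
    rw [show x = ∑ j, t ⟨x, hxT⟩ j • nc (d ⟨x, hxT⟩ j) from hx ⟨x, hxT⟩]
    refine hG.sum_mem _ fun j _ => hG.smul_mem ?_ (htd _ j).1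
    refine ⟨Pi.single ⟨⟨x, hxT⟩, j⟩ 1, fun a => ?_, ?_⟩
    · rw [Pi.single_apply]
      split_ifs <;> norm_num
    · rw [sum_eq_single (⟨⟨x, hxT⟩, j⟩ : A) (fun a _ ha => by simp [ha]) (by simp)]
      ext k
      simp
  refine ⟨_, fun j => d (e.symm j).1 (e.symm j).2, fun j => (htd _ _).2, fun x hxE => ?_⟩
  by_cases h0 : x = 0
  · exact ⟨1, one_pos, 0, by simp only [h0, Pi.zero_apply, zero_smul, sum_const_zero, smul_zero]⟩
  have hS : (0 : ℝ) < ∑ k, (x k : ℝ) := by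
    obtain ⟨k, hk⟩ := Function.ne_iff.1 h0
    exact sum_pos' (fun _ _ => Nat.cast_nonneg _) ⟨k, mem_univ _, Nat.cast_pos.2 (Nat.pos_of_ne_zero hk)⟩
  have h1 : (∑ k, (x k : ℝ))⁻¹ • nc x ∈ Q := by
    refine ⟨hs _ (hE x hxE) _ (inv_nonneg.2 hS.le), fun k => ?_, ?_⟩
    · exact mul_nonneg (inv_nonneg.2 hS.le) (Nat.cast_nonneg _)
    · simp only [Pi.smul_apply, smul_eq_mul, ← mul_sum, nc_apply]
      exact inv_mul_cancel₀ hS.ne'
  have h2 := hG.smul_mem (convexHull_min hTG hG.convex (hQT h1)) hS.le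
  rw [smul_smul, mul_inv_cancel₀ hS.ne', one_smul] at h2
  obtain ⟨u, hu, h2⟩ := h2
  obtain ⟨m, hm, c, h3⟩ := exists_nat_comb _ (isRat_nc x) hu h2
  refine ⟨m, hm, fun j => c (e.symm j), ?_⟩
  rw [e.symm.sum_comp fun a => c a • d a.1 a.2]
  ext k
  have h4 := congrFun h3 k
  simp only [Pi.smul_apply, nc_apply, zc_apply, Finset.sum_apply] at h4 ⊢
  simp only [smul_eq_mul, nsmul_eq_mul] at h4 ⊢
  exact_mod_cast h4.symm

/-- the first time at which one of the affine functions `p e + t * q e` is one -/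
theorem first_time {ι : Type} [Fintype ι] (p q : ι → ℝ) (h0 : ∀ e, p e < 1) {e₁ : ι}
    (h1 : 1 < p e₁ + q e₁) : ∃ (t : ℝ) (e₀ : ι), 0 < t ∧ t < 1 ∧ p e₀ + t * q e₀ = 1 ∧
      ∀ e, p e + t * q e ≤ 1 := by
  classical
  have hq : 0 < q e₁ := by linarith [h0 e₁]
  obtain ⟨e₀, he, hm⟩ := exists_min_image (univ.filter fun e => 0 < q e)
    (fun e => (1 - p e) / q e) ⟨e₁, mem_filter.2 ⟨mem_univ _, hq⟩⟩
  have he' := (mem_filter.1 he).2
  have ht : 0 < (1 - p e₀) / q e₀ := div_pos (sub_pos.2 (h0 _)) he'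
  refine ⟨_, e₀, ht, (hm e₁ (mem_filter.2 ⟨mem_univ _, hq⟩)).trans_lt ?_, ?_, fun e => ?_⟩
  · rw [div_lt_one hq]
    linarith
  · rw [div_mul_cancel₀ _ he'.ne']
    ring
  · rcases le_or_gt (q e) 0 with h | h
    · nlinarith [h0 e]
    · have h2 := hm e (mem_filter.2 ⟨mem_univ _, h⟩)
      rw [le_div_iff₀ h] at h2
      linarith

end Crest.Agent.X262.FG.Sg
end
end

-- ▼ part X262/FG/Sig1
section

/-!
# Row 262, FG, section 5 (helper29): real b-divisors

* `RD F = ℝ ⊗ BD`, `em`, `xt φ` (linear extension), `lr g ξ = ∑ ξ k • g k`;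
* `Cn Q` : the cone spanned by the b-divisors with the property `Q`; `PosR`, `FreeR`, `OnR P`;
* `rel`  : a real relation is a positive combination of integral relations;
* `Fx x y` : `y ≥ 0` and `x - y` is a positive combination of free b-divisors;
* `Mo o` : monotone orders; `W o x t`, `Z o x t` (`σ_o (x) ≤ t`), `Ps x` (pseudo-effective).
-/

set_option autoImplicit false

open Finset
open scoped TensorProduct

noncomputable section

namespace Crest.Agent.X262.FG.Sg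

open Crest.Agent.X277 Crest.Agent.X277.Lef Crest.Agent.X277.AN.G1 Crest.Agent.X277.BD
open Crest.Agent.X277.BD.Br (oP)

/-- real b-divisors -/
abbrev RD (F : Type) [Field F] [Algebra ℂ F] : Type := ℝ ⊗[ℤ] BD ℂ F

variable {F : Type} [Field F] [Algebra ℂ F]

/-- the embedding of the b-divisors -/
def em : BD ℂ F →+ RD F := (TensorProduct.mk ℤ ℝ (BD ℂ F) 1).toAddMonoidHom

theorem smul_em (r : ℝ) (a : BD ℂ F) : r • em a = r ⊗ₜ[ℤ] a := by
  change r • (1 : ℝ) ⊗ₜ[ℤ] a = _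
  rw [TensorProduct.smul_tmul', smul_eq_mul, mul_one]

theorem em_zsmul (m : ℤ) (a : BD ℂ F) : em (m • a) = (m : ℝ) • em a := by
  rw [map_zsmul, Int.cast_smul_eq_zsmul]

theorem em_nsmul (m : ℕ) (a : BD ℂ F) : em (m • a) = (m : ℝ) • em a := by
  rw [map_nsmul, Nat.cast_smul_eq_nsmul]

theorem em_injective : Function.Injective (em : BD ℂ F → RD F) := by
  have : IsAddTorsionFree (BD ℂ F) :=
    ⟨fun m hm a b h => eq_of_nsmul_eq (Nat.pos_of_ne_zero hm) h⟩
  have : Module.Flat ℤ (BD ℂ F) := inferInstance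
  have h := Module.Flat.rTensor_preserves_injective_linearMap (M := BD ℂ F)
    (Algebra.linearMap ℤ ℝ) Int.cast_injective
  intro a b hab
  have h1 : (1 : ℤ) ⊗ₜ[ℤ] a = (1 : ℤ) ⊗ₜ[ℤ] b := h (by
    simp only [LinearMap.rTensor_tmul, Algebra.linearMap_apply, map_one]
    exact hab)
  simpa using congrArg (TensorProduct.lid ℤ (BD ℂ F)) h1

/-- the linear extension of an additive map -/
def xt (φ : BD ℂ F →+ ℤ) : RD F →ₗ[ℝ] ℝ :=
  LinearMap.liftBaseChange ℝ ((Int.castAddHom ℝ).comp φ).toIntLinearMap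

@[simp] theorem xt_em (φ : BD ℂ F →+ ℤ) (a : BD ℂ F) : xt φ (em a) = φ a := by
  change xt φ ((1 : ℝ) ⊗ₜ[ℤ] a) = _
  simp [xt]

theorem xt_zero (x : RD F) : xt 0 x = 0 := by
  induction x using TensorProduct.induction_on with
  | zero => simp
  | tmul r a => rw [← smul_em, map_smul, xt_em]; simp
  | add x y hx hy => rw [map_add, hx, hy, add_zero]

/-- real combinations of a finite family -/
def lr {κ : Type} [Fintype κ] (g : κ → BD ℂ F) : (κ → ℝ) →ₗ[ℝ] RD F :=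
  Fintype.linearCombination ℝ fun k => em (g k)

theorem lr_apply {κ : Type} [Fintype κ] (g : κ → BD ℂ F) (ξ : κ → ℝ) :
    lr g ξ = ∑ k, ξ k • em (g k) := rfl

theorem lr_zc {κ : Type} [Fintype κ] (g : κ → BD ℂ F) (q : κ → ℤ) :
    lr g (fun k => (q k : ℝ)) = em (∑ k, q k • g k) := by
  rw [lr_apply, map_sum]
  exact sum_congr rfl fun k _ => (em_zsmul _ _).symm

theorem lr_nc {κ : Type} [Fintype κ] (g : κ → BD ℂ F) (d : κ → ℕ) :
    lr g (Cvx.nc d) = em (lc g d) := by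
  rw [lr_apply, lc, map_sum]
  exact sum_congr rfl fun k _ => (em_nsmul _ _).symm

theorem lr_single {κ : Type} [Fintype κ] [DecidableEq κ] (g : κ → BD ℂ F) (k : κ) (r : ℝ) :
    lr g (Pi.single k r) = r • em (g k) := Fintype.linearCombination_apply_single _ _ _ _

theorem xt_lr {κ : Type} [Fintype κ] (φ : BD ℂ F →+ ℤ) (g : κ → BD ℂ F) (ξ : κ → ℝ) :
    xt φ (lr g ξ) = ∑ k, ξ k * φ (g k) := by simp [lr_apply]

/-- **real relations come from integral relations** -/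
theorem rel {I : Type} [Fintype I] {a : I → BD ℂ F} {r : I → ℝ} (h : lr a r = 0) :
    ∃ (J : Type) (_ : Fintype J) (t : J → ℝ) (q : J → I → ℤ), (∀ j, 0 < t j) ∧
      (∀ j i, 0 ≤ r i → 0 ≤ q j i) ∧ (∀ j i, r i ≤ 0 → q j i ≤ 0) ∧
      (∀ i, ∑ j, t j * q j i = r i) ∧ ∀ j, ∑ i, q j i • a i = 0 := by
  obtain ⟨J, _, t, q, ht, h1, h2, h3⟩ := exists_int (Sum.elim r (-r))
  refine ⟨J, inferInstance, t, fun j i => q j (.inl i), ht, fun j i hi => h1 j _ hi,
    fun j i hi => ?_, fun i => h2 (.inl i), fun j => ?_⟩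
  · obtain ⟨ρ, hρ⟩ := h3 j
    have h4 := h1 j (.inr i) (by simpa using hi)
    have h5 := hρ (.inr i)
    have h6 := hρ (.inl i)
    simp only [Sum.elim_inr, Pi.neg_apply, map_neg, Sum.elim_inl] at h5 h6
    have h7 : (q j (.inl i) : ℝ) = -q j (.inr i) := by rw [← h5, ← h6, neg_neg]
    have h8 : q j (.inl i) = -q j (.inr i) := by exact_mod_cast h7
    change q j (.inl i) ≤ 0
    omega
  · obtain ⟨ρ, hρ⟩ := h3 j
    have h4 := congrArg (LinearMap.rTensor (BD ℂ F) ρ.toIntLinearMap) h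
    rw [map_zero, lr_apply, map_sum] at h4
    refine em_injective ?_
    rw [map_zero, ← h4, ← lr_zc, lr_apply]
    refine sum_congr rfl fun i _ => ?_
    rw [smul_em, smul_em, LinearMap.rTensor_tmul]
    exact congrArg (· ⊗ₜ[ℤ] a i) (hρ (.inl i)).symm

/-! ### cones -/

/-- the cone spanned by the b-divisors with the property `Q` -/
def Cn (Q : BD ℂ F → Prop) (x : RD F) : Prop :=
  ∃ (I : Type) (_ : Fintype I) (a : I → BD ℂ F) (r : I → ℝ), (∀ i, 0 ≤ r i ∧ Q (a i)) ∧ x = lr a r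

namespace Cn

variable {Q Q' : BD ℂ F → Prop} {x y : RD F}

theorem zero : Cn Q (0 : RD F) :=
  ⟨Empty, inferInstance, Empty.elim, Empty.elim, fun i => i.elim, by simp [lr_apply]⟩

theorem of {a : BD ℂ F} (h : Q a) : Cn Q (em a) :=
  ⟨Unit, inferInstance, fun _ => a, fun _ => 1, fun _ => ⟨zero_le_one, h⟩, by simp [lr_apply]⟩

theorem add (hx : Cn Q x) (hy : Cn Q y) : Cn Q (x + y) := by
  obtain ⟨I, _, a, r, h, rfl⟩ := hx
  obtain ⟨J, _, b, s, h', rfl⟩ := hy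
  exact ⟨I ⊕ J, inferInstance, Sum.elim a b, Sum.elim r s, fun i => i.rec h h', by
    simp [lr_apply]⟩

theorem smul (hx : Cn Q x) {c : ℝ} (hc : 0 ≤ c) : Cn Q (c • x) := by
  obtain ⟨I, _, a, r, h, rfl⟩ := hx
  exact ⟨I, inferInstance, a, c • r, fun i => ⟨mul_nonneg hc (h i).1, (h i).2⟩,
    (map_smul _ _ _).symm⟩

theorem sum {α : Type*} (s : Finset α) {x : α → RD F} (h : ∀ i ∈ s, Cn Q (x i)) :
    Cn Q (∑ i ∈ s, x i) := sum_induction _ (Cn Q) (fun _ _ => add) zero h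

theorem lr {I : Type} [Fintype I] {a : I → BD ℂ F} {r : I → ℝ} (hr : ∀ i, 0 ≤ r i)
    (h : ∀ i, Q (a i)) : Cn Q (lr a r) := ⟨I, inferInstance, a, r, fun i => ⟨hr i, h i⟩, rfl⟩

theorem mono (hx : Cn Q x) (h : ∀ a, Q a → Q' a) : Cn Q' x := by
  obtain ⟨I, _, a, r, h1, rfl⟩ := hx
  exact lr (fun i => (h1 i).1) fun i => h _ (h1 i).2

theorem xt_nonneg (hx : Cn Q x) {φ : BD ℂ F →+ ℤ} (h : ∀ a, Q a → 0 ≤ φ a) : 0 ≤ xt φ x := by
  obtain ⟨I, _, a, r, h1, rfl⟩ := hx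
  rw [xt_lr]
  exact sum_nonneg fun i _ => mul_nonneg (h1 i).1 (Int.cast_nonneg (h _ (h1 i).2))

end Cn

/-- effective real b-divisors -/
abbrev PosR : RD F → Prop := Cn fun a => 0 ≤ a

/-- positive combinations of free b-divisors -/
abbrev FreeR : RD F → Prop := Cn Free

/-- real divisors of the model -/
abbrev OnR (P : PModel ℂ F) : RD F → Prop := Cn fun a => a ∈ Br.On P

variable {P : PModel ℂ F} {x y z x' y' : RD F} {a h : BD ℂ F}

theorem onR_lr {I : Type} [Fintype I] {g : I → BD ℂ F} (hg : ∀ i, g i ∈ Br.On P) (ξ : I → ℝ) :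
    OnR P (lr g ξ) := by
  refine Cn.sum _ fun i _ => ?_
  rcases le_total 0 (ξ i) with h | h
  · exact (Cn.of (hg i)).smul h
  · have h1 := (Cn.of (Q := fun a => a ∈ Br.On P) (neg_mem (hg i))).smul (neg_nonneg.2 h)
    rwa [map_neg, neg_smul_neg] at h1

theorem onR_smul (hx : OnR P x) (c : ℝ) : OnR P (c • x) := by
  obtain ⟨I, _, a, r, h, rfl⟩ := hx
  rw [← map_smul]
  exact onR_lr (fun i => (h i).2) _

theorem onR_sub (hx : OnR P x) (hy : OnR P y) : OnR P (x - y) := by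
  rw [sub_eq_add_neg, ← neg_one_smul ℝ y]
  exact hx.add (onR_smul hy _)


/-- small perturbations of the polarisation -/
theorem exists_freeR {I : Type} [Fintype I] {g : I → BD ℂ F} (hg : ∀ i, g i ∈ Br.On P) :
    ∃ N : ℝ, 0 < N ∧ ∀ (ε : ℝ) (u : I → ℝ), N * ‖u‖ ≤ ε → FreeR (ε • em (oP P) + lr g u) := by
  choose m hm using fun i => Br.serre (hg i)
  choose m' hm' using fun i => Br.serre (neg_mem (hg i))
  refine ⟨1 + ∑ i, ((m i + m' i : ℕ) : ℝ), by positivity, fun ε u hu => ?_⟩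
  have h1 : ∀ i, FreeR ((|u i| * (m i + m' i : ℕ)) • em (oP P) + u i • em (g i)) := fun i => by
    rcases le_total 0 (u i) with h | h
    · have h2 := (Cn.of (hm i (m i + m' i) le_self_add)).smul h
      rwa [map_add, em_nsmul, smul_add, smul_smul, add_comm, ← abs_of_nonneg h, abs_of_nonneg h,
        show u i * ((m i + m' i : ℕ) : ℝ) = |u i| * (m i + m' i : ℕ) by rw [abs_of_nonneg h]] at h2
    · have h2 := (Cn.of (hm' i (m i + m' i) le_add_self)).smul (neg_nonneg.2 h)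
      rwa [map_add, em_nsmul, smul_add, smul_smul, add_comm, map_neg, neg_smul_neg,
        ← abs_of_nonpos h] at h2
  have h2 : ∑ i, |u i| * ((m i + m' i : ℕ) : ℝ) ≤ ε := by
    refine le_trans ?_ hu
    rw [add_mul, sum_mul]
    refine (sum_le_sum fun i _ => ?_).trans (le_add_of_nonneg_left (by positivity))
    rw [mul_comm]
    gcongr
    exact norm_le_pi_norm u i
  have h3 := (Cn.sum univ fun i _ => h1 i).add
    ((Cn.of (Br.free_oP (P := P))).smul (sub_nonneg.2 h2))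
  rw [sum_add_distrib, ← sum_smul, add_right_comm, ← add_smul, add_sub_cancel] at h3
  exact h3

theorem OnR.exists_freeR (hx : OnR P x) :
    ∃ N : ℝ, 0 < N ∧ ∀ ε c : ℝ, N * |c| ≤ ε → FreeR (ε • em (oP P) + c • x) := by
  obtain ⟨I, _, g, r, h, rfl⟩ := hx
  obtain ⟨N, hN, h1⟩ := Sg.exists_freeR fun i => (h i).2
  refine ⟨N * (‖r‖ + 1), by positivity, fun ε c hc => ?_⟩
  rw [← map_smul (Sg.lr g)]
  refine h1 ε _ (le_trans ?_ hc)
  rw [norm_smul, Real.norm_eq_abs, mul_assoc, mul_comm |c|]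
  gcongr
  exact le_add_of_nonneg_right zero_le_one

/-! ### fixed parts -/

/-- `y ≥ 0` and `x - y` is a positive combination of free b-divisors -/
def Fx (x y : RD F) : Prop := PosR y ∧ FreeR (x - y)

theorem Fx.add (h : Fx x y) (h' : Fx x' y') : Fx (x + x') (y + y') :=
  ⟨h.1.add h'.1, by simpa only [add_sub_add_comm] using h.2.add h'.2⟩

theorem Fx.smul (h : Fx x y) {c : ℝ} (hc : 0 ≤ c) : Fx (c • x) (c • y) :=
  ⟨h.1.smul hc, by simpa only [smul_sub] using h.2.smul hc⟩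

theorem fx_free (hx : FreeR x) : Fx x 0 := ⟨Cn.zero, by rwa [sub_zero]⟩

theorem fx_pos (hx : PosR x) : Fx x x := ⟨hx, by rw [sub_self]; exact Cn.zero⟩

theorem Fx.add_free (h : Fx x y) (hz : FreeR z) : Fx (x + z) y := by
  simpa using h.add (fx_free hz)

theorem fx_em {M : BD ℂ F} (hM : Free M) (h : M ≤ a) : Fx (em a) (em (a - M)) :=
  ⟨Cn.of (sub_nonneg.2 h), by rw [← map_sub, sub_sub_cancel]; exact Cn.of hM⟩

theorem fx_sec {s : F} (hs : s ∈ a.Sec) (h0 : s ≠ 0) : Fx (em a) (em (a - pr ℂ s)) :=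
  fx_em (free_pr s) ((pr_le_iff h0).2 hs)

/-- **integral decomposition of a fixed part** -/
theorem Fx.exists_int {κ : Type} [Fintype κ] {g : κ → BD ℂ F} {ξ : κ → ℝ} (h : Fx (lr g ξ) y) :
    ∃ (J : Type) (_ : Fintype J) (t : J → ℝ) (q : J → κ → ℤ) (M : J → BD ℂ F), (∀ j, 0 < t j) ∧
      (∀ j k, 0 ≤ ξ k → 0 ≤ q j k) ∧ (∀ k, ∑ j, t j * q j k = ξ k) ∧
      (∀ j, Free (M j) ∧ M j ≤ ∑ k, q j k • g k) ∧
      y = lr (fun j => ∑ k, q j k • g k - M j) t := by
  obtain ⟨⟨I, _, p, r, hp, rfl⟩, I', _, f, r', hf, h⟩ := h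
  obtain ⟨J, _, t, q, ht, h1, h2, h3, h4⟩ := rel (a := Sum.elim g (Sum.elim p f))
    (r := Sum.elim ξ (Sum.elim (-r) (-r'))) (by
      simp only [lr_apply, Fintype.sum_sum_type, Sum.elim_inl, Sum.elim_inr, Pi.neg_apply,
        neg_smul, sum_neg_distrib] at h ⊢
      rw [← h]
      abel)
  have h5 : ∀ j, ∑ k, q j (.inl k) • g k - ∑ i, (-q j (.inr (.inr i))) • f i =
      ∑ i, (-q j (.inr (.inl i))) • p i := fun j => by
    have h6 := h4 j
    simp only [Fintype.sum_sum_type, Sum.elim_inl, Sum.elim_inr] at h6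
    simp only [neg_smul, sum_neg_distrib, sub_neg_eq_add]
    rw [eq_neg_iff_add_eq_zero, ← h6]
    abel
  refine ⟨J, inferInstance, t, fun j k => q j (.inl k), fun j => ∑ i, (-q j (.inr (.inr i))) • f i,
    ht, fun j k hk => h1 j _ hk, fun k => h3 (.inl k), fun j => ⟨Free.sum _ fun i _ => ?_, ?_⟩, ?_⟩
  · obtain ⟨m, hm⟩ := Int.eq_ofNat_of_zero_le
      (neg_nonneg.2 (h2 j (.inr (.inr i)) (neg_nonpos.2 (hf i).1)))
    rw [hm, natCast_zsmul]
    exact (hf i).2.nsmul m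
  · rw [← sub_nonneg, h5]
    exact sum_nonneg fun i _ => zsmul_nonneg (hp i).2
      (neg_nonneg.2 (h2 j (.inr (.inl i)) (neg_nonpos.2 (hp i).1)))
  · simp only [h5, lr_apply, map_sum, em_zsmul, smul_sum, smul_smul]
    rw [sum_comm]
    refine sum_congr rfl fun i _ => ?_
    rw [← sum_smul]
    congr 1
    have h6 := h3 (.inr (.inl i))
    simp only [Sum.elim_inr, Sum.elim_inl, Pi.neg_apply] at h6
    simp only [Int.cast_neg, mul_neg, sum_neg_distrib, h6, neg_neg]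

/-- fixed parts are directed downwards -/
theorem Fx.inf (h : Fx x y) (h' : Fx x y') : ∃ z, Fx x z ∧ PosR (y - z) ∧ PosR (y' - z) := by
  obtain ⟨⟨I, _, p, r, hp, rfl⟩, I', _, f, r', hf, h⟩ := h
  have hx : x = lr (Sum.elim p f) (Sum.elim r r') := by
    rw [sub_eq_iff_eq_add'] at h
    simp [h, lr_apply]
  rw [hx] at h'
  obtain ⟨J, _, t, q, M, ht, h1, h2, h3, rfl⟩ := h'.exists_int
  let N : J → BD ℂ F := fun j => ∑ i, q j (.inr i) • f i
  have hN : ∀ j, Free (N j) := fun j => Free.sum _ fun i _ => by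
    obtain ⟨m, hm⟩ := Int.eq_ofNat_of_zero_le (h1 j (.inr i) (hf i).1)
    rw [hm, natCast_zsmul]
    exact (hf i).2.nsmul m
  let A : J → BD ℂ F := fun j => ∑ k, q j k • Sum.elim p f k
  have hA : ∀ j, A j - N j = ∑ i, q j (.inl i) • p i := fun j => by
    simp [A, N]
  have hN' : ∀ j, N j ≤ A j := fun j => by
    rw [← sub_nonneg, hA]
    exact sum_nonneg fun i _ => zsmul_nonneg (hp i).2 (h1 j (.inl i) (hp i).1)
  have e1 : ∀ {I : Type} [Fintype I] (p : I → BD ℂ F) (q : J → I → ℤ),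
      lr (fun j => ∑ i, q j i • p i) t = lr p fun i => ∑ j, t j * q j i := fun p q => by
    simp only [lr_apply, map_sum, em_zsmul, smul_sum, smul_smul, sum_smul]
    exact sum_comm
  have e2 : ∀ u v : J → BD ℂ F, lr u t - lr v t = lr (fun j => u j - v j) t := fun u v => by
    simp only [lr_apply, map_sub, smul_sub, sum_sub_distrib]
  have e3 : lr p r = lr (fun j => A j - N j) t := by
    simp only [hA, e1, h2, Sum.elim_inl]
  have e4 : x = lr A t := by
    rw [hx, e1]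
    simp only [h2]
  refine ⟨lr (fun j => A j - M j ⊔ N j) t, ⟨Cn.lr (fun j => (ht j).le) fun j =>
    sub_nonneg.2 (sup_le (h3 j).2 (hN' j)), ?_⟩, ?_, ?_⟩
  · rw [e4, e2]
    exact Cn.lr (fun j => (ht j).le) fun j => by
      rw [sub_sub_cancel]
      exact (h3 j).1.sup (hN j)
  · rw [e3, e2]
    exact Cn.lr (fun j => (ht j).le) fun j => sub_nonneg.2 (sub_le_sub_left le_sup_right _)
  · rw [e2]
    exact Cn.lr (fun j => (ht j).le) fun j => sub_nonneg.2 (sub_le_sub_left le_sup_left _)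

theorem free_of_freeR (h : FreeR (em a)) : ∃ q : ℕ, 0 < q ∧ Free (q • a) := by
  obtain ⟨I, _, f, r, hf, h⟩ := h
  obtain ⟨J, _, t, q, ht, h1, h2, h3, h4⟩ := rel (a := fun i : Option I => i.elim a f)
    (r := fun i => i.elim (-1) r) (by
      simp only [lr_apply, Fintype.sum_option, Option.elim] at h ⊢
      rw [← h]
      simp)
  obtain ⟨j, hj⟩ : ∃ j, q j none < 0 := by
    by_contra hc
    push Not at hc
    have h5 := h3 none
    have h6 : (0 : ℝ) ≤ ∑ j, t j * q j none :=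
      sum_nonneg fun j _ => mul_nonneg (ht j).le (Int.cast_nonneg (hc j))
    simp only [Option.elim] at h5
    linarith
  obtain ⟨m, hm⟩ := Int.eq_ofNat_of_zero_le (neg_nonneg.2 hj.le)
  refine ⟨m, by omega, ?_⟩
  have h5 := h4 j
  simp only [Fintype.sum_option, Option.elim] at h5
  rw [← natCast_zsmul, ← hm, neg_smul, neg_eq_of_add_eq_zero_right h5]
  refine Free.sum _ fun i _ => ?_
  obtain ⟨m', hm'⟩ := Int.eq_ofNat_of_zero_le (h1 j (some i) (hf i).1)
  rw [hm', natCast_zsmul]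
  exact (hf i).2.nsmul m'

/-! ### the asymptotic orders -/

/-- monotone orders (`ord v hv`, `od B e`, `0`) -/
def Mo (o : BD ℂ F →+ ℤ) : Prop := ∀ a, 0 ≤ a → 0 ≤ o a

/-- `x` has a fixed part of order `≤ t` -/
def W (o : BD ℂ F →+ ℤ) (x : RD F) (t : ℝ) : Prop := ∃ y, Fx x y ∧ xt o y ≤ t

/-- `x` is pseudo-effective and `σ_o (x) ≤ t` -/
def Z (o : BD ℂ F →+ ℤ) (x : RD F) (t : ℝ) : Prop :=
  ∀ h : BD ℂ F, Big h → ∀ η : ℝ, 0 < η → ∃ ε₀ : ℝ, 0 < ε₀ ∧ ∀ ε : ℝ, 0 < ε → ε ≤ ε₀ →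
    W o (x + ε • em h) (t + η)

/-- pseudo-effective -/
def Ps (x : RD F) : Prop := Z 0 x 0

/-- `ν = σ_o (x)` -/
def IsSig (o : BD ℂ F →+ ℤ) (x : RD F) (ν : ℝ) : Prop := Z o x ν ∧ ∀ t, Z o x t → ν ≤ t

/-- ample real divisors -/
def AmpR (P : PModel ℂ F) (α : RD F) : Prop :=
  OnR P α ∧ ∃ θ : ℝ, 0 < θ ∧ FreeR (α - θ • em (oP P))

end Crest.Agent.X262.FG.Sg
end
end

-- ▼ part X262/FG/NvDefs2
section

/-!
# Row 262, FG, section 5 (helper29): the steps of the proof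

`Con D x₀` : the conclusion at `x₀`;  `Small P x n` : the case distinction;
`QStmt`, `C1aStmt`, `C1bStmt`, `C2aStmt`, `C2bStmt` : the steps.
-/

set_option autoImplicit false

open scoped KaehlerDifferential

noncomputable section

namespace Crest.Agent.X262.FG.Sg

open Crest.Agent.X277 Crest.Agent.X277.Lef Crest.Agent.X277.AN.G1 Crest.Agent.X277.BD
open Crest.Agent.X277.BD.Br (oP kP)
open Crest.Agent.X277.Res.Log (Bd)

section Lang

variable {F : Type} [Field F] [Algebra ℂ F]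

open Classical in
/-- the components of a boundary -/
def cp {P : PModel ℂ F} {n : ℕ} (B : Bd P n) (e : B.ι) : BD ℂ F := dvs B (Pi.single e 1)

/-- the order of a member of a family of primes -/
def _root_.Crest.Agent.X262.FG.Pf.o {P : PModel ℂ F} {ι : Type} (X : Pf P ι) (i : ι) :
    BD ℂ F →+ ℤ := ord (X.v i) (X.hv i)

/-- the pseudo-effective degrees are conical at `x₀`, and `x₀` is a positive combination of
effective degrees -/
def Con {κ : Type} [Fintype κ] (D : κ → BD ℂ F) (x₀ : κ → ℝ) : Prop :=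
  (∃ δ : ℝ, 0 < δ ∧ ∀ x ∈ stdSimplex ℝ κ, Ps (lr D x) → ‖x - x₀‖ < δ →
    ∃ s : ℝ, 1 < s ∧ Ps (lr D (x₀ + s • (x - x₀)))) ∧
  ∃ (J : Type) (_ : Fintype J) (t : J → ℝ) (d : J → κ → ℕ),
    (∀ j, 0 ≤ t j ∧ Eff (lc D (d j))) ∧ x₀ = ∑ j, t j • Cvx.nc (d j)

/-- the volume of `x + ε O(1)` is `O(ε ^ n)` -/
def Small [Algebra.EssFiniteType ℂ F] (P : PModel ℂ F) (x : RD F) (n : ℕ) : Prop :=
  ∃ C : ℝ, ∀ (ε m : ℝ) (a : BD ℂ F), 0 < ε → 0 < m → Free a →
    Ps (x + ε • em (oP P) - m⁻¹ • em a) → (bnum (List.replicate n a) : ℝ) ≤ C * (ε * m) ^ n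

/-- `x` is numerically equivalent to its negative part -/
def NumN [Algebra.EssFiniteType ℂ F] (P : PModel ℂ F) (x : RD F) : Prop :=
  ∃ (ι : Type) (_ : Fintype ι) (X : Pf P ι) (ν : ι → ℝ), (∀ i, 0 < ν i ∧ IsSig (X.o i) x (ν i)) ∧
    ∀ l : List (BD ℂ F), (∀ a ∈ l, a ∈ Br.On P) → xt (bnumL l) (x - lr X.Γ ν) = 0

/-- the data on the log resolution in the second case -/
structure Up2 (P : PModel ℂ F) {n : ℕ} (b : Module.Basis (Fin n) F Ω[F⁄ℂ]) (x : RD F) where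
  /-- the model -/
  Q : PModel ℂ F
  /-- the boundary -/
  C : Bd Q n
  le : oP P ∈ Br.On Q
  /-- the log canonical component -/
  e₀ : C.ι
  /-- the coefficients of the boundary -/
  β : C.ι → ℝ
  β_mem : ∀ e, 0 ≤ β e ∧ β e ≤ 1
  β_one : β e₀ = 1
  /-- the ample part -/
  α : RD F
  amp : AmpR Q α
  sig : Z (od C e₀) (em (kP Q b) + α + lr (cp C) β) 0
  /-- the multiple of `x` -/
  lam : ℝ
  lam_pos : 0 < lam
  /-- the exceptional divisor -/
  E : BD ℂ F
  E_mem : E ∈ Br.On Q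
  E_nonneg : 0 ≤ E
  exc : ∀ a ∈ Br.On P, ∀ m : ℕ, (a + m • E).Sec = a.Sec
  /-- the part which is removed -/
  Φ : C.ι → ℝ
  Φ_nonneg : ∀ e, 0 ≤ Φ e
  eq : lam • x + em E = em (kP Q b) + α + lr (cp C) β + lr (cp C) Φ

end Lang

/-- near an adjoint class with `e₀` in the boundary, the classes with `σ_{e₀} = 0` lie in a cone
spanned by finitely many effective divisors -/
def QStmt (n : ℕ) : Prop := ∀ (F : Type) [Field F] [Algebra ℂ F] [Algebra.EssFiniteType ℂ F]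
  (Q : PModel ℂ F) (C : Bd Q n) (b : Module.Basis (Fin n) F Ω[F⁄ℂ]) (e₀ : C.ι) (β : C.ι → ℝ)
  (α : RD F) (I : Type) [Fintype I] (g : I → BD ℂ F), (∀ e, 0 ≤ β e ∧ β e ≤ 1) → β e₀ = 1 →
  AmpR Q α → (∀ i, g i ∈ Br.On Q) →
  ∃ (J : Type) (_ : Fintype J) (a : J → BD ℂ F) (δ : ℝ), (∀ j, Eff (a j)) ∧ 0 < δ ∧
    ∀ u : I → ℝ, ‖u‖ ≤ δ → Z (od C e₀) (em (kP Q b) + α + lr (cp C) β + lr g u) 0 →
      ∃ t : J → ℝ, (∀ j, 0 ≤ t j) ∧ em (kP Q b) + α + lr (cp C) β + lr g u = lr a t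

/-- first case: small volume implies `x ≡ N_σ (x)` -/
def C1aStmt (n : ℕ) : Prop := ∀ (F : Type) [Field F] [Algebra ℂ F] [Algebra.EssFiniteType ℂ F]
  (P : PModel ℂ F) (_ : Module.Basis (Fin (n + 1)) F Ω[F⁄ℂ]) (x : RD F), OnR P x → Ps x →
  Small P x (n + 1) → NumN P x

/-- first case: the conclusion -/
def C1bStmt (n : ℕ) : Prop := ∀ (F : Type) [Field F] [Algebra ℂ F] [Algebra.EssFiniteType ℂ F]
  (P : PModel ℂ F) (B : Bd P n) (b : Module.Basis (Fin n) F Ω[F⁄ℂ]) (κ : Type) [Fintype κ]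
  (S : Sys B κ), ∀ x₀ ∈ stdSimplex ℝ κ, NumN P (lr (S.D b) x₀) → Con (S.D b) x₀

/-- second case: the log canonical component -/
def C2aStmt (n : ℕ) : Prop := ∀ (F : Type) [Field F] [Algebra ℂ F] [Algebra.EssFiniteType ℂ F]
  (P : PModel ℂ F) (B : Bd P (n + 1)) (b : Module.Basis (Fin (n + 1)) F Ω[F⁄ℂ]) (κ : Type)
  [Fintype κ] (S : Sys B κ), ∀ x₀ ∈ stdSimplex ℝ κ, Ps (lr (S.D b) x₀) →
  ¬ Small P (lr (S.D b) x₀) (n + 1) → Nonempty (Up2 P b (lr (S.D b) x₀))

/-- second case: the conclusion -/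
def C2bStmt (n : ℕ) : Prop := ∀ (F : Type) [Field F] [Algebra ℂ F] [Algebra.EssFiniteType ℂ F]
  (P : PModel ℂ F) (b : Module.Basis (Fin (n + 1)) F Ω[F⁄ℂ]) (κ : Type) [Fintype κ]
  (D : κ → BD ℂ F), (∀ k, D k ∈ Br.On P) → ∀ x₀ ∈ stdSimplex ℝ κ, Up2 P b (lr D x₀) → Con D x₀

end Crest.Agent.X262.FG.Sg
end
end

-- ▼ part X262/FG/Sig2

/-!
# Row 262, FG, section 5 (helper29): the calculus of the asymptotic orders

`W`, `Z`, `Ps` are convex cones; `z_of_seq`, `z_of_lim`, `z_of_add`, `exists_sig`;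
`Pf.sub`, `Pf.upg`, `Pf.bound` for primes of a model; `pfB`, `isClosed_ps`, `hart`.
-/

set_option autoImplicit false

open Finset

noncomputable section

namespace Crest.Agent.X262.FG

open Crest.Agent.X277 Crest.Agent.X277.Lef Crest.Agent.X277.AN.G1 Crest.Agent.X277.BD
open Crest.Agent.X277.BD.Br (oP)
open Crest.Agent.X277.Res.Log (Bd)

variable {F : Type} [Field F] [Algebra ℂ F] {P : PModel ℂ F}

namespace Sg

variable {o : BD ℂ F →+ ℤ} {x y x' : RD F} {t t' c ε : ℝ} {a h : BD ℂ F}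


theorem mo_ord (v : Valuation F (WithZero (Multiplicative ℤ)))
    (hv : ∀ c : ℂ, v (algebraMap ℂ F c) ≤ 1) : Mo (ord v hv) := fun _ h => ord_nonneg h

theorem Mo.xt (ho : Mo o) (hy : PosR y) : 0 ≤ xt o y := hy.xt_nonneg ho

theorem Mo.le (ho : Mo o) {a b : BD ℂ F} (h : a ≤ b) : o a ≤ o b := by
  have h1 := ho _ (sub_nonneg.2 h)
  rwa [map_sub, sub_nonneg] at h1

theorem Fx.w (h : Fx x y) : W o x (xt o y) := ⟨y, h, le_rfl⟩

theorem W.add (h : W o x t) (h' : W o x' t') : W o (x + x') (t + t') := by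
  obtain ⟨y, h1, h2⟩ := h
  obtain ⟨y', h3, h4⟩ := h'
  exact ⟨y + y', h1.add h3, by rw [map_add]; exact add_le_add h2 h4⟩

theorem W.smul (h : W o x t) (hc : 0 ≤ c) : W o (c • x) (c * t) := by
  obtain ⟨y, h1, h2⟩ := h
  exact ⟨c • y, h1.smul hc, by rw [map_smul]; exact mul_le_mul_of_nonneg_left h2 hc⟩

theorem W.mono (h : W o x t) (ht : t ≤ t') : W o x t' := h.imp fun _ h => ⟨h.1, h.2.trans ht⟩

theorem w_free (hx : FreeR x) : W o x 0 := ⟨0, fx_free hx, (map_zero _).le⟩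

theorem W.add_free (h : W o x t) (hy : FreeR y) : W o (x + y) t := by
  simpa using h.add (w_free hy)

theorem W.nonneg (ho : Mo o) (h : W o x t) : 0 ≤ t := by
  obtain ⟨y, h1, h2⟩ := h
  exact (ho.xt h1.1).trans h2

theorem fx_eff (ha : Eff a) : ∃ y, Fx (em a) y := by
  obtain ⟨s, hs, h0⟩ := ha
  exact ⟨_, fx_sec hs h0⟩

theorem fx_big (hh : Big h) (b : BD ℂ F) : ∃ N : ℝ, 0 < N ∧ ∃ y, Fx (em h - N⁻¹ • em b) y := by
  obtain ⟨m, hm, he⟩ := hh b
  obtain ⟨y, hy⟩ := fx_eff he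
  have hm' : (0 : ℝ) < m := Nat.cast_pos.2 hm
  refine ⟨m, hm', (m : ℝ)⁻¹ • y, ?_⟩
  have h1 := hy.smul (inv_nonneg.2 hm'.le)
  rwa [map_sub, em_nsmul, smul_sub, smul_smul, inv_mul_cancel₀ hm'.ne', one_smul] at h1

theorem exists_w_big (hh : Big h) (o : BD ℂ F →+ ℤ) (b : BD ℂ F) :
    ∃ N c : ℝ, 0 < N ∧ 0 < c ∧ W o (em h - N⁻¹ • em b) c := by
  obtain ⟨N, hN, y, hy⟩ := fx_big hh b
  exact ⟨N, max (xt o y) 1, hN, lt_max_of_lt_right one_pos, hy.w.mono (le_max_left _ _)⟩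

/-- one big divisor and one sequence suffice -/
theorem z_of_seq {h₀ : BD ℂ F} (hb : Big h₀) (H : ∀ η : ℝ, 0 < η → ∀ ε₀ : ℝ, 0 < ε₀ →
    ∃ ε : ℝ, 0 < ε ∧ ε ≤ ε₀ ∧ W o (x + ε • em h₀) (t + η)) : Z o x t := fun h hh η hη => by
  obtain ⟨N, c, hN, hc, h1⟩ := exists_w_big hh o h₀
  obtain ⟨_, c₀, -, hc₀, h2⟩ := exists_w_big hb o 0
  rw [map_zero, smul_zero, sub_zero] at h2
  have hk : 0 < c + N⁻¹ * c₀ := by positivity
  refine ⟨η / 2 / (c + N⁻¹ * c₀), by positivity, fun ε hε hε' => ?_⟩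
  obtain ⟨e, he, he', h3⟩ := H (η / 2) (half_pos hη) (ε * N⁻¹) (by positivity)
  have h4 := (h3.add (h1.smul hε.le)).add (h2.smul (sub_nonneg.2 he'))
  rw [le_div_iff₀ hk] at hε'
  refine W.mono (by convert h4 using 1; module) (by nlinarith [mul_pos he hc₀])

theorem W.z (h : W o x t) : Z o x t := fun b hb η hη => by
  obtain ⟨_, c, -, hc, h2⟩ := exists_w_big hb o 0
  rw [map_zero, smul_zero, sub_zero] at h2
  refine ⟨η / c, by positivity, fun ε hε hε' => (h.add (h2.smul hε.le)).mono ?_⟩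
  rw [le_div_iff₀ hc] at hε'
  linarith

theorem Z.mono (h : Z o x t) (ht : t ≤ t') : Z o x t' := fun b hb η hη => by
  obtain ⟨e, he, h1⟩ := h b hb η hη
  exact ⟨e, he, fun ε hε hε' => (h1 ε hε hε').mono (by linarith)⟩

theorem Z.add (h : Z o x t) (h' : Z o x' t') : Z o (x + x') (t + t') := fun b hb η hη => by
  obtain ⟨e, he, h1⟩ := h b hb _ (half_pos hη)
  obtain ⟨e', he', h2⟩ := h' b hb _ (half_pos hη)
  refine ⟨min e e', lt_min he he', fun ε hε hε' => ?_⟩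
  have h3 := (h1 (ε / 2) (half_pos hε) (by linarith [min_le_left e e'])).add
    (h2 (ε / 2) (half_pos hε) (by linarith [min_le_right e e']))
  refine W.mono (by convert h3 using 1; module) (by linarith)

theorem z_free (hx : FreeR x) : Z o x 0 := (w_free hx).z

theorem z_zero : Z o (0 : RD F) 0 := z_free Cn.zero

theorem z_pos (hy : PosR y) : Z o y (xt o y) := (fx_pos hy).w.z

theorem Z.smul (h : Z o x t) (hc : 0 ≤ c) : Z o (c • x) (c * t) := by
  rcases hc.eq_or_lt with rfl | hc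
  · simpa using z_zero
  · intro b hb η hη
    obtain ⟨e, he, h1⟩ := h b hb _ (div_pos hη hc)
    refine ⟨c * e, mul_pos hc he, fun ε hε hε' => ?_⟩
    have h2 := (h1 (ε / c) (div_pos hε hc) (by rwa [div_le_iff₀' hc])).smul hc.le
    rwa [smul_add, smul_smul, mul_add, mul_div_cancel₀ _ hc.ne', mul_div_cancel₀ _ hc.ne'] at h2

theorem z_sum {α : Type*} (s : Finset α) {x : α → RD F} {t : α → ℝ}
    (h : ∀ i ∈ s, Z o (x i) (t i)) : Z o (∑ i ∈ s, x i) (∑ i ∈ s, t i) := by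
  classical
  induction s using Finset.induction_on with
  | empty => simpa using z_zero
  | insert i s hi ih =>
    rw [sum_insert hi, sum_insert hi]
    exact (h i (mem_insert_self _ _)).add (ih fun j hj => h j (mem_insert_of_mem hj))

theorem Z.add_free (h : Z o x t) (hy : FreeR y) : Z o (x + y) t := by
  simpa using h.add (z_free hy)

theorem Z.ps (h : Z o x t) : Ps x := fun b hb η hη => by
  obtain ⟨e, he, h1⟩ := h b hb η hη
  refine ⟨e, he, fun ε hε hε' => ?_⟩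
  obtain ⟨y, h2, -⟩ := h1 ε hε hε'
  exact ⟨y, h2, by rw [xt_zero]; linarith⟩

theorem Z.nonneg' (ho : Mo o) (hb : Big h) (H : Z o x t) : 0 ≤ t :=
  le_of_forall_pos_le_add fun η hη => by
    obtain ⟨e, he, h1⟩ := H h hb η hη
    exact (h1 e he le_rfl).nonneg ho

theorem z_of_lim' (hb : Big h) (H : ∀ η : ℝ, 0 < η → Z o x (t + η)) : Z o x t :=
  z_of_seq hb fun η hη ε₀ hε₀ => by
    obtain ⟨e, he, h1⟩ := H _ (half_pos hη) h hb _ (half_pos hη)
    exact ⟨min e ε₀, lt_min he hε₀, min_le_right _ _,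
      (h1 _ (lt_min he hε₀) (min_le_left _ _)).mono (by linarith)⟩

theorem z_of_lim (H : ∀ η : ℝ, 0 < η → Z o x (t + η)) : Z o x t := fun h hb =>
  z_of_lim' hb H h hb

theorem z_of_add' (hb : Big h) (H : ∀ ε₀ : ℝ, 0 < ε₀ → ∃ ε : ℝ, 0 < ε ∧ ε ≤ ε₀ ∧
    Z o (x + ε • em h) t) : Z o x t := z_of_seq hb fun η hη ε₀ hε₀ => by
  obtain ⟨ε, hε, hε', h0⟩ := H _ (half_pos hε₀)
  obtain ⟨e, he, h1⟩ := h0 h hb η hη
  have h2 := h1 (min e ε) (lt_min he hε) (min_le_left _ _)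
  rw [add_assoc, ← add_smul] at h2
  exact ⟨_, add_pos hε (lt_min he hε), by linarith [min_le_right e ε], h2⟩

theorem z_of_add (hb : Big h) (H : ∀ ε : ℝ, 0 < ε → Z o (x + ε • em h) t) : Z o x t :=
  z_of_add' hb fun ε hε => ⟨ε, hε, le_rfl, H ε hε⟩

theorem z_nef (ha : Nef a) : Z o (em a) 0 := fun h hb η hη => by
  obtain ⟨f, hf, H⟩ := ha
  obtain ⟨N, c, hN, hc, h1⟩ := exists_w_big hb o f
  refine ⟨η / c, by positivity, fun ε hε hε' => ?_⟩
  obtain ⟨m, hm⟩ := exists_nat_gt (N / ε)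
  have hm0 : (0 : ℝ) < m := (div_pos hN hε).trans hm
  obtain ⟨r, hr, h2⟩ := H m
  have hr0 : (0 : ℝ) < r := Nat.cast_pos.2 hr
  have h3 : (m : ℝ)⁻¹ ≤ ε * N⁻¹ := by
    rw [← div_eq_mul_inv, inv_le_comm₀ hm0 (div_pos hε hN), inv_div]
    exact hm.le
  have h4 := ((h1.smul hε.le).add_free ((Cn.of h2).smul (c := (r : ℝ)⁻¹ * (m : ℝ)⁻¹)
    (by positivity))).add_free ((Cn.of hf).smul (sub_nonneg.2 h3))
  rw [em_nsmul, map_add, em_nsmul] at h4
  rw [le_div_iff₀ hc] at hε'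
  refine W.mono ?_ (show ε * c ≤ 0 + η by linarith)
  convert h4 using 1
  match_scalars
  · field_simp
  · ring
  · field_simp
    ring

theorem Ps.add (h : Ps x) (h' : Ps x') : Ps (x + x') := (Z.add h h').ps

theorem Ps.smul (h : Ps x) (hc : 0 ≤ c) : Ps (c • x) := (Z.smul h hc).ps


theorem ps_free (hy : FreeR y) : Ps y := z_free hy

theorem Fx.ps (h : Fx x y) : Ps x := (h.w (o := 0)).z.ps

theorem ps_eff (ha : Eff a) : Ps (em a) := (fx_eff ha).elim fun _ h => h.ps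

theorem fx_lr {J : Type} [Fintype J] {a : J → BD ℂ F} (ha : ∀ j, Eff (a j)) {t : J → ℝ}
    (ht : ∀ j, 0 ≤ t j) : ∃ y, Fx (lr a t) y :=
  sum_induction _ (fun x => ∃ y, Fx x y) (fun _ _ ⟨_, h⟩ ⟨_, h'⟩ => ⟨_, h.add h'⟩)
    ⟨0, fx_free Cn.zero⟩ fun j _ => (fx_eff (ha j)).elim fun _ h => ⟨_, h.smul (ht j)⟩

theorem Ps.fx (H : Ps x) (hb : Big h) (hε : 0 < ε) : ∃ y, Fx (x + ε • em h) y := by
  obtain ⟨e, he, h1⟩ := H h hb 1 one_pos
  obtain ⟨y, h2, -⟩ := h1 (min e ε) (lt_min he hε) (min_le_left _ _)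
  obtain ⟨_, -, y', h3⟩ := fx_big hb 0
  rw [map_zero, smul_zero, sub_zero] at h3
  have h4 := h2.add (h3.smul (sub_nonneg.2 (min_le_right e ε)))
  rw [add_assoc, ← add_smul, add_sub_cancel] at h4
  exact ⟨_, h4⟩

theorem ps_of_add (hb : Big h) (H : ∀ ε : ℝ, 0 < ε → Ps (x + ε • em h)) : Ps x := z_of_add hb H

theorem not_z (hb : Big h) (H : ¬ Z o x t) : ∃ ε₀ : ℝ, 0 < ε₀ ∧ ∀ ε : ℝ, 0 < ε → ε ≤ ε₀ →
    ∀ y, Fx (x + ε • em h) y → t < xt o y := by
  by_contra hc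
  push Not at hc
  refine H (z_of_seq hb fun η hη ε₀ hε₀ => ?_)
  obtain ⟨ε, h1, h2, y, h3, h4⟩ := hc ε₀ hε₀
  exact ⟨ε, h1, h2, y, h3, by linarith⟩

theorem exists_sig' (hb : Big h) (ho : Mo o) (H : Z o x t) : ∃ ν, IsSig o x ν := by
  have hB : BddBelow {t | Z o x t} := ⟨0, fun _ h => h.nonneg' ho hb⟩
  refine ⟨sInf {t | Z o x t}, z_of_lim fun η hη => ?_, fun t ht => csInf_le hB ht⟩
  obtain ⟨s, hs, h1⟩ := exists_lt_of_csInf_lt (s := {t | Z o x t}) ⟨t, H⟩ (lt_add_of_pos_right _ hη)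
  exact Z.mono hs h1.le

theorem isClosed_ps {κ : Type} [Fintype κ] {D : κ → BD ℂ F} (hD : ∀ k, D k ∈ Br.On P) :
    IsClosed {x | Ps (lr D x)} := by
  obtain ⟨N, hN, h⟩ := exists_freeR hD
  refine isClosed_of_closure_subset fun x hx => ps_of_add (big_oP P) fun ε hε => ?_
  obtain ⟨x', h1, h2⟩ := Metric.mem_closure_iff.1 hx (ε / N) (div_pos hε hN)
  rw [dist_eq_norm, lt_div_iff₀' hN] at h2
  have h3 := Ps.add h1 (ps_free (h ε _ h2.le))
  rwa [map_sub, add_comm (ε • _), ← add_assoc, add_sub_cancel] at h3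

theorem OnR.exists_lr (hx : OnR P x) : ∃ (I : Type) (_ : Fintype I) (g : I → BD ℂ F) (r : I → ℝ),
    (∀ i, g i ∈ Br.On P) ∧ x = lr g r := by
  obtain ⟨I, _, g, r, h, rfl⟩ := hx
  exact ⟨I, inferInstance, g, r, fun i => (h i).2, rfl⟩

theorem onR_oP (c : ℝ) : OnR P (c • em (oP P)) := onR_smul (Cn.of Br.oP_mem) c

/-- exceptional divisors do not create sections -/
theorem hart_fx {E : BD ℂ F} (hE : ∀ a ∈ Br.On P, ∀ m : ℕ, (a + m • E).Sec = a.Sec) (hx : OnR P x)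
    (hc : 0 ≤ c) (h : Fx (x + c • em E) y) : ∃ y', Fx x y' := by
  obtain ⟨I, _, g, r, hg, rfl⟩ := hx.exists_lr
  have e : lr g r + c • em E = lr (fun i : Option I => i.elim E g) fun i => i.elim c r := by
    simp [lr_apply, add_comm]
  rw [e] at h
  obtain ⟨J, _, t, q, M, ht, h1, h2, h3, -⟩ := h.exists_int
  have h4 : lr g r = lr (fun j => ∑ i, q j (some i) • g i) t := by
    simp only [lr_apply, map_sum, em_zsmul, smul_sum, smul_smul]
    rw [sum_comm]
    refine sum_congr rfl fun i _ => ?_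
    rw [← sum_smul, h2 (some i), Option.elim]
  rw [h4]
  refine fx_lr (fun j => ?_) fun j => (ht j).le
  obtain ⟨m, hm⟩ := Int.eq_ofNat_of_zero_le (h1 j none hc)
  obtain ⟨s, hs, h0⟩ := (h3 j).1.eff.mono (h3 j).2
  simp only [Fintype.sum_option, Option.elim, hm, natCast_zsmul] at hs
  rw [add_comm, hE _ (sum_mem fun i _ => zsmul_mem (hg i) _)] at hs
  exact ⟨s, hs, h0⟩

theorem hart {E : BD ℂ F} (hx : OnR P x) (hc : 0 ≤ c)
    (hE : ∀ a ∈ Br.On P, ∀ m : ℕ, (a + m • E).Sec = a.Sec) (h : Ps (x + c • em E)) : Ps x :=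
  ps_of_add (big_oP P) fun ε hε => by
    obtain ⟨y, hy⟩ := h.fx (big_oP P) hε
    rw [add_right_comm] at hy
    exact (hart_fx hE (hx.add (onR_oP ε)) hc hy).elim fun _ h => h.ps

section Num

variable [Algebra.EssFiniteType ℂ F] {l : List (BD ℂ F)}

theorem exists_big (F : Type) [Field F] [Algebra ℂ F] [Algebra.EssFiniteType ℂ F] :
    ∃ h : BD ℂ F, Big h := (exists_va ℂ F).imp fun _ h => h.1.big

theorem Z.nonneg (ho : Mo o) (H : Z o x t) : 0 ≤ t := (exists_big F).elim fun _ h => H.nonneg' ho h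

theorem exists_sig (ho : Mo o) (H : Z o x t) : ∃ ν, IsSig o x ν :=
  (exists_big F).elim fun _ h => exists_sig' h ho H

theorem mo_bnumL (hl : ∀ a ∈ l, Nef a) : Mo (bnumL l) := fun _ h =>
  (eff_of_nonneg h).bnum_nonneg hl

theorem Fx.xt_le (h : Fx x y) (hl : ∀ a ∈ l, Nef a) : xt (bnumL l) y ≤ xt (bnumL l) x := by
  have h1 := h.2.xt_nonneg (φ := bnumL l) fun _ h => h.eff.bnum_nonneg hl
  rwa [map_sub, sub_nonneg] at h1

theorem Ps.xt_nonneg (H : Ps x) (hl : ∀ a ∈ l, Nef a) : 0 ≤ xt (bnumL l) x := by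
  obtain ⟨h, hb⟩ := exists_big F
  refine le_of_forall_pos_le_add fun η hη => ?_
  have hc : 0 < |xt (bnumL l) (em h)| + 1 := by positivity
  obtain ⟨y, hy⟩ := H.fx hb (div_pos hη hc)
  have h1 := ((mo_bnumL hl).xt hy.1).trans (hy.xt_le hl)
  rw [map_add, map_smul, smul_eq_mul] at h1
  refine h1.trans (add_le_add_right ?_ _)
  rw [div_mul_eq_mul_div, div_le_iff₀ hc]
  gcongr
  linarith [le_abs_self (xt (bnumL l) (em h))]

end Num

end Sg

/-! ### primes of a model -/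

namespace Pf

open Sg

variable {ι : Type} (X : Pf P ι) {x y : RD F} {t ε : ℝ} {a : BD ℂ F}

theorem mo (i : ι) : Mo (X.o i) := mo_ord _ _

theorem o_self (i : ι) : X.o i (X.Γ i) = 1 := X.self i

theorem o_ne {i j : ι} (h : i ≠ j) : X.o i (X.Γ j) = 0 := X.ne i j h

/-- a subfamily -/
def sub' {ι' : Type} (f : ι' → ι) (hf : Function.Injective f) : Pf P ι' where
  v i := X.v (f i)
  hv i := X.hv (f i)
  Γ i := X.Γ (f i)
  mem i := X.mem (f i)
  nonneg i := X.nonneg (f i)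
  self i := X.self (f i)
  ne _ _ h := X.ne _ _ (hf.ne h)
  le i := X.le (f i)

theorem sum_le (ha : a ∈ Br.On P) (h0 : 0 ≤ a) (s : Finset ι) : ∑ i ∈ s, X.o i a • X.Γ i ≤ a := by
  classical
  induction s using Finset.induction_on with
  | empty => simpa using h0
  | insert i s hi ih =>
    have h1 := X.le i _ (sub_mem ha (sum_mem fun j (_ : j ∈ s) => zsmul_mem (X.mem j) (X.o j a)))
      (sub_nonneg.2 ih)
    have h2 : X.o i (∑ j ∈ s, X.o j a • X.Γ j) = 0 := by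
      rw [map_sum]
      exact sum_eq_zero fun j hj => by
        rw [map_zsmul, X.o_ne (i := i) (j := j) fun h => hi (h ▸ hj), smul_zero]
    change X.o i _ • _ ≤ _ at h1
    rw [map_sub, h2, sub_zero] at h1
    rw [sum_insert hi]
    exact le_sub_iff_add_le.1 h1

theorem sum_le_sub (ha : a ∈ Br.On P) {M : BD ℂ F} (hM : Free M) (h : M ≤ a) (s : Finset ι) :
    ∑ i ∈ s, X.o i (a - M) • X.Γ i ≤ a - M := by
  rw [le_sub_comm, hM.le_iff]
  intro f hf
  by_cases h0 : f = 0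
  · rw [h0]
    exact zero_mem _
  have h1 := (pr_le_iff h0).2 hf
  rw [← pr_le_iff h0, le_sub_comm]
  refine le_trans (sum_le_sum fun i _ => ?_)
    (X.sum_le (sub_mem ha (Br.pr_mem f)) (sub_nonneg.2 (h1.trans h)) s)
  rw [← sub_nonneg, ← sub_smul]
  exact zsmul_nonneg (X.nonneg i) (sub_nonneg.2 ((X.mo i).le (sub_le_sub_left h1 a)))

section Fin

variable [Fintype ι]

theorem xt_lr_Γ (ν : ι → ℝ) (i : ι) : xt (X.o i) (lr X.Γ ν) = ν i := by
  rw [xt_lr, sum_eq_single i (fun j _ h => by rw [X.o_ne h.symm]; simp) (by simp), X.o_self]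
  simp

theorem posR_lr {ν : ι → ℝ} (h : ∀ i, 0 ≤ ν i) : PosR (lr X.Γ ν) := Cn.lr h X.nonneg

theorem posR_sub (hx : OnR P x) (h : Fx x y) : PosR (y - lr X.Γ fun i => xt (X.o i) y) := by
  obtain ⟨I, _, g, r, hg, rfl⟩ := hx.exists_lr
  obtain ⟨J, _, t, q, M, ht, -, -, h3, rfl⟩ := h.exists_int
  set A : J → BD ℂ F := fun j => ∑ k, q j k • g k - M j with hA
  have e : lr A t - lr X.Γ (fun i => xt (X.o i) (lr A t)) =
      lr (fun j => A j - ∑ i, X.o i (A j) • X.Γ i) t := by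
    simp only [xt_lr]
    simp only [lr_apply, map_sub, smul_sub, sum_sub_distrib, map_sum, em_zsmul, smul_sum,
      smul_smul, sum_smul]
    rw [sum_comm]
  rw [e]
  exact Cn.lr (fun j => (ht j).le) fun j => sub_nonneg.2
    (X.sum_le_sub (sum_mem fun k _ => zsmul_mem (hg k) _) (h3 j).1 (h3 j).2 _)

theorem fx_sub (hx : OnR P x) (h : Fx x y) {ν : ι → ℝ} (hν : ∀ i, ν i ≤ xt (X.o i) y) :
    Fx (x - lr X.Γ ν) (y - lr X.Γ ν) := by
  refine ⟨?_, by simpa only [sub_sub_sub_cancel_right] using h.2⟩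
  have h1 := (X.posR_sub hx h).add (X.posR_lr fun i => sub_nonneg.2 (hν i))
  rwa [show (fun i => xt (X.o i) y - ν i) = (fun i => xt (X.o i) y) - ν from rfl, map_sub,
    sub_add_sub_cancel] at h1

/-- **the negative part can be subtracted** -/
theorem sub {o : BD ℂ F →+ ℤ} {ν : ι → ℝ} (hx : OnR P x)
    (low : ∀ i t, Z (X.o i) x t → ν i ≤ t) (H : Z o x t) :
    Z o (x - lr X.Γ ν) (t - xt o (lr X.Γ ν)) := z_of_seq (big_oP P) fun η hη ε₀ hε₀ => by
  obtain ⟨N, hN, h1⟩ := exists_freeR X.mem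
  let c := |xt o (lr X.Γ 1)| + 1
  have hc : 0 < c := by positivity
  let δ := min (η / 2 / c) (ε₀ / 2 / N)
  have hδ : 0 < δ := lt_min (by positivity) (by positivity)
  choose e he h2 using fun i => not_z (big_oP P) (o := X.o i) (x := x) (t := ν i - δ)
    fun h => absurd (low i _ h) (by linarith)
  obtain ⟨e', he', h3⟩ := H _ (big_oP P) _ (half_pos hη)
  obtain ⟨ε, hε, h4, h5, h6⟩ : ∃ ε : ℝ, 0 < ε ∧ ε ≤ ε₀ / 2 ∧ ε ≤ e' ∧ ∀ i, ε ≤ e i := by
    obtain ⟨m, hm, h⟩ : ∃ m : ℝ, 0 < m ∧ ∀ i, m ≤ e i := by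
      rcases isEmpty_or_nonempty ι with h | h
      · exact ⟨1, one_pos, fun i => isEmptyElim i⟩
      · obtain ⟨i, hi⟩ := Finite.exists_min e
        exact ⟨e i, he i, hi⟩
    exact ⟨min (ε₀ / 2) (min e' m), by positivity, min_le_left _ _,
      (min_le_right _ _).trans (min_le_left _ _),
      fun i => ((min_le_right _ _).trans (min_le_right _ _)).trans (h i)⟩
  obtain ⟨y, h7, h8⟩ := h3 ε hε h5
  have h9 := (X.fx_sub (hx.add (onR_oP ε)) h7 (ν := ν - δ • 1) fun i => by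
    simpa using (h2 i ε hε (h6 i) y h7).le).add_free (h1 (ε₀ / 2) (-(δ • 1)) (by
      rw [norm_neg, ← le_div_iff₀' hN]
      exact (pi_norm_le_iff_of_nonneg (by positivity)).2 fun i => by
        rw [Pi.smul_apply, Pi.one_apply, smul_eq_mul, mul_one, Real.norm_eq_abs, abs_of_pos hδ]
        exact min_le_right _ _))
  refine ⟨ε + ε₀ / 2, by positivity, by linarith, y - lr X.Γ (ν - δ • 1), ?_, ?_⟩
  · convert h9 using 1
    rw [map_sub, map_neg]
    module
  · have h10 : δ * c ≤ η / 2 := (le_div_iff₀ hc).1 (min_le_left _ _)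
    have h11 : δ * xt o (lr X.Γ 1) ≤ δ * c := by
      gcongr
      linarith [le_abs_self (xt o (lr X.Γ 1))]
    simp only [map_sub, map_smul, smul_eq_mul]
    linarith

theorem sub_sig {ν : ι → ℝ} (hx : OnR P x) (h : ∀ i, IsSig (X.o i) x (ν i)) (i : ι) :
    Z (X.o i) (x - lr X.Γ ν) 0 := by
  have h1 := X.sub hx (fun i => (h i).2) (h i).1
  rwa [X.xt_lr_Γ, sub_self] at h1

end Fin

theorem fx_sub_one (hx : OnR P x) (h : Fx x y) (i : ι) :
    PosR (y - xt (X.o i) y • em (X.Γ i)) := by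
  have h1 := (X.sub' (fun _ : Unit => i) fun _ _ _ => rfl).posR_sub hx h
  rw [lr_apply, Fintype.sum_unique] at h1
  exact h1

/-- order zero is attained after adding an ample divisor -/
theorem upg {i : ι} (hx : OnR P x) (H : Z (X.o i) x 0) (hε : 0 < ε) :
    W (X.o i) (x + ε • em (oP P)) 0 := by
  obtain ⟨N, hN, h1⟩ := OnR.exists_freeR (Cn.of (X.mem i))
  obtain ⟨e, he, h2⟩ := H _ (big_oP P) (ε / 2 / N) (by positivity)
  have h0 := min_le_right e (ε / 2)
  obtain ⟨y, h3, h4⟩ := h2 (min e (ε / 2)) (by positivity) (min_le_left _ _)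
  refine ⟨_, ⟨X.fx_sub_one (hx.add (onR_oP _)) h3 i, ?_⟩, by simp [X.o_self]⟩
  have h5 := h3.2.add (h1 (ε - min e (ε / 2)) (xt (X.o i) y) (by
    rw [abs_of_nonneg ((X.mo i).xt h3.1)]
    rw [zero_add, le_div_iff₀' hN] at h4
    linarith))
  convert h5 using 1
  module

/-- the asymptotic order is bounded by the degree -/
theorem bound [Algebra.EssFiniteType ℂ F] {i : ι} {l : List (BD ℂ F)} (hl : ∀ a ∈ l, Nef a)
    (hd : 0 < bnum (X.Γ i :: l)) (hx : OnR P x) (H : Ps x) :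
    Z (X.o i) x (xt (bnumL l) x / bnum (X.Γ i :: l)) :=
  z_of_seq (big_oP P) fun η hη ε₀ hε₀ => by
    have hd' : (0 : ℝ) < bnum (X.Γ i :: l) := Int.cast_pos.2 hd
    have hc : 0 < |xt (bnumL l) (em (oP P))| + 1 := by positivity
    let ε := min ε₀ (η * bnum (X.Γ i :: l) / (|xt (bnumL l) (em (oP P))| + 1))
    have hε : 0 < ε := lt_min hε₀ (by positivity)
    obtain ⟨y, hy⟩ := H.fx (big_oP P) hε
    refine ⟨ε, hε, min_le_left _ _, y, hy, ?_⟩
    have h1 := (mo_bnumL hl).xt (X.fx_sub_one (hx.add (onR_oP ε)) hy i)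
    have h2 := hy.xt_le hl
    rw [map_sub, map_smul, xt_em, smul_eq_mul, sub_nonneg] at h1
    rw [map_add, map_smul, smul_eq_mul] at h2
    have h3 := (le_div_iff₀ hc).1 (min_le_right ε₀ _ : ε ≤ _)
    have h4 := mul_le_mul_of_nonneg_left (le_abs_self (xt (bnumL l) (em (oP P)))) hε.le
    rw [div_add' _ _ _ hd'.ne', le_div_iff₀ hd']
    change _ * ((bnum (X.Γ i :: l) : ℤ) : ℝ) ≤ _ at h1
    nlinarith

end Pf

namespace Sg

variable {n : ℕ}

theorem cp_mem (B : Bd P n) (e : B.ι) : cp B e ∈ Br.On P := dvs_mem B _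

theorem dvs_eq_cp (B : Bd P n) (c : B.ι → ℤ) : em (dvs B c) = lr (cp B) fun e => (c e : ℝ) := by
  rw [lr_zc, dvs_eq_sum]
  rfl

theorem od_cp_self (B : Bd P n) (e : B.ι) : od B e (cp B e) = 1 := by simp [cp]

theorem od_cp_ne (B : Bd P n) {e e' : B.ι} (h : e ≠ e') : od B e (cp B e') = 0 := by
  simp [cp, h]

theorem cp_nonneg (B : Bd P n) (e : B.ι) : 0 ≤ cp B e := by
  classical
  exact dvs_nonneg fun e' => by
    rw [Pi.single_apply]
    split_ifs <;> norm_num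

theorem cp_le (B : Bd P n) (e : B.ι) : ∀ (m : ℕ) (a : BD ℂ F), a ∈ Br.On P → 0 ≤ a →
    od B e a = m → m • cp B e ≤ a
  | 0, a, _, h, _ => by simpa using h
  | m + 1, a, ha, h, hm => by
    have h1 : 0 ≤ a - cp B e := nonneg_iff.2 (mem_Sec_sub_single ha (nonneg_iff.1 h) (by
      rw [map_one, ← exp_od, hm, ← WithZero.exp_zero, WithZero.exp_lt_exp]
      omega))
    have h2 := cp_le B e m _ (sub_mem ha (cp_mem B e)) h1 (by rw [map_sub, od_cp_self, hm]; omega)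
    rw [succ_nsmul]
    exact le_sub_iff_add_le.1 h2

/-- the components of a boundary as a family of primes -/
def pfB (B : Bd P n) : Pf P B.ι where
  v := B.v
  hv := triv B
  Γ := cp B
  mem := cp_mem B
  nonneg := cp_nonneg B
  self := od_cp_self B
  ne _ _ h := od_cp_ne B h
  le e a ha h := by
    obtain ⟨m, hm⟩ := Int.eq_ofNat_of_zero_le (od_nonneg (B := B) (e := e) h)
    change od B e a • _ ≤ _
    rw [hm, natCast_zsmul]
    exact cp_le B e m a ha h hm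

theorem pfB_o (B : Bd P n) (e : B.ι) : (pfB B).o e = od B e := rfl

theorem pfB_Γ (B : Bd P n) : (pfB B).Γ = cp B := rfl

/-- primes have positive degree -/
theorem _root_.Crest.Agent.X262.FG.Pf.deg_pos [Algebra.EssFiniteType ℂ F] (hp : PosStmt n)
    (b : Module.Basis (Fin (n + 1)) F (KaehlerDifferential ℂ F)) {ι : Type} (X : Pf P ι) (i : ι) :
    0 < bnum (X.Γ i :: List.replicate n (oP P)) := by
  refine lt_of_le_of_ne ((eff_of_nonneg (X.nonneg i)).bnum_nonneg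
    (all_rp Br.free_oP.nef n)) fun h => ?_
  have h1 := X.self i
  rw [hp F P b _ (X.mem i) (X.nonneg i) h.symm, map_zero] at h1
  exact zero_ne_one h1

theorem _root_.Crest.Agent.X262.FG.Pf.exists_sig [Algebra.EssFiniteType ℂ F] (hp : PosStmt n)
    (b : Module.Basis (Fin (n + 1)) F (KaehlerDifferential ℂ F)) {ι : Type} (X : Pf P ι)
    {x : RD F} (hx : OnR P x) (H : Ps x) (i : ι) : ∃ ν, IsSig (X.o i) x ν :=
  Sg.exists_sig (X.mo i) (X.bound (all_rp Br.free_oP.nef n) (X.deg_pos hp b i) hx H)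

end Sg

end Crest.Agent.X262.FG
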